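import Vale.Agent.P234.Defs
import Vale.Agent.P255.Geo2

/-! Internal definitions of the P234 development. -/

open scoped Manifold ContDiff Topology
open Set Filter

namespace Vale.Agent.P234

open Vale.Agent.P255

variable {E : Type} [NormedAddCommGroup E] [NormedSpace ℝ E]
  {M : Type} [MetricSpace M] [ChartedSpace E M]

/-- Riemannian norm. -/
noncomputable def nr (g : M → E →L[ℝ] E →L[ℝ] ℝ) (x : M) (v : E) : ℝ := √(g x v v)

/-- Velocity at time `t` of the geodesic with initial data `(x, v)`. -/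
noncomputable def vl (g : M → E →L[ℝ] E →L[ℝ] ℝ) (x : M) (v : E) (t : ℝ) : E :=
  vel E (geo g x v) t

/-- The geodesic `(x, v)` is minimizing on `[0, 1]`. -/
def Mn (g : M → E →L[ℝ] E →L[ℝ] ℝ) (x : M) (v : E) : Prop := dist x (ex g x v) = nr g x v

/-- `v` is not a conjugate vector. -/
def NC (g : M → E →L[ℝ] E →L[ℝ] ℝ) (x : M) (v : E) : Prop :=
  ∀ κ, dM E (ex g x) v κ = 0 → κ = 0

/-- A Riemannian metric together with the three properties of its distance that are used. -/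
structure RM (g : M → E →L[ℝ] E →L[ℝ] ℝ) : Prop extends IsRM g where
  len : ∀ (γ : ℝ → M) (a b L : ℝ), a ≤ b →
    (∀ t ∈ Icc a b, ContMDiffAt 𝓘(ℝ, ℝ) 𝓘(ℝ, E) 1 γ t ∧ nr g (γ t) (vel E γ t) ≤ L) →
    dist (γ a) (γ b) ≤ L * (b - a)
  cal : ∀ e ∈ atlas E M, ∀ (F : E → ℝ) (x y : M) (ρ : ℝ), dist x y < ρ →
    (∀ z ∈ Metric.ball x ρ, z ∈ e.source ∧ ContDiffAt ℝ 1 F (e z) ∧
      ∀ w, fderiv ℝ F (e z) w ≤ √(gc g e (e z) w w)) → F (e y) - F (e x) ≤ dist x y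
  mid : ∀ (x y : M) (δ : ℝ), 0 ≤ δ → δ ≤ dist x y → ∃ z, dist x z = δ ∧ dist z y = dist x y - δ

section Fam

variable {A : Type} [NormedAddCommGroup A] [NormedSpace ℝ A]

variable (E) in
/-- Smooth family of points. -/
def SmP (X : A → M) (a : A) : Prop := ContMDiffAt 𝓘(ℝ, A) 𝓘(ℝ, E) ∞ X a

/-- Smooth family of tangent vectors `V b` at `X b`. -/
def SmV (X : A → M) (V : A → E) (a : A) : Prop :=
  SmP E X a ∧ ∀ e ∈ atlas E M, X a ∈ e.source → ContDiffAt ℝ ∞ (fun b => dC e (X b) (V b)) a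

end Fam

variable (E) in
/-- Smooth function of two points. -/
def SmF (C : M → M → ℝ) (x y : M) : Prop :=
  ContMDiffAt (𝓘(ℝ, E).prod 𝓘(ℝ, E)) 𝓘(ℝ, ℝ) ∞ (fun p : M × M => C p.1 p.2) (x, y)

variable (E M) in
/-- The tangent bundle, used only for its topology. -/
abbrev TB [IsManifold 𝓘(ℝ, E) ∞ M] : Type := TangentBundle 𝓘(ℝ, E) M

section TB

variable [IsManifold 𝓘(ℝ, E) ∞ M]

/-- The tangent vector `v` at `x`. -/
def tv (x : M) (v : E) : TB E M := ⟨x, v⟩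

/-- Base point. -/
def pt (p : TB E M) : M := p.proj

/-- Vector part. -/
def vc (p : TB E M) : E := p.snd

@[simp] theorem pt_tv (x : M) (v : E) : pt (tv x v) = x := rfl

@[simp] theorem vc_tv (x : M) (v : E) : vc (tv x v) = v := rfl

@[simp] theorem tv_pt_vc (p : TB E M) : tv (pt p) (vc p) = p := rfl

/-- Continuous family of tangent vectors. -/
def CtV {T : Type} [TopologicalSpace T] (X : T → M) (V : T → E) (t : T) : Prop :=
  ContinuousAt (fun b => tv (X b) (V b)) t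

/-- `Lg` is a smooth local inverse of the exponential map near `(x, v)`. -/
structure LocInv (g : M → E →L[ℝ] E →L[ℝ] ℝ) (x : M) (v : E) (Lg : M → M → E) : Prop where
  right : ∀ᶠ p in 𝓝 (x, ex g x v), ex g p.1 (Lg p.1 p.2) = p.2
  smooth : ∀ᶠ p in 𝓝 (x, ex g x v), ∀ (A : Type) [NormedAddCommGroup A] [NormedSpace ℝ A]
    (X Y : A → M) (a : A), SmP E X a → SmP E Y a → X a = p.1 → Y a = p.2 →
    SmV X (fun b => Lg (X b) (Y b)) a
  left : ∀ᶠ p in 𝓝 (tv x v), Lg (pt p) (ex g (pt p) (vc p)) = vc p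

end TB

/-- Hessian of `C` at `(x, z)` in normal coordinates. -/
noncomputable def Hs (g : M → E →L[ℝ] E →L[ℝ] ℝ) (C : M → M → ℝ) (x z : M) :
    E × E →L[ℝ] E × E →L[ℝ] ℝ :=
  fderiv ℝ (fderiv ℝ fun p : E × E => C (ex g x p.1) (ex g z p.2)) 0

/-- Hessian of the cost in the first variable. -/
noncomputable def Ah (g : M → E →L[ℝ] E →L[ℝ] ℝ) (x y : M) : E →L[ℝ] E →L[ℝ] ℝ :=
  fderiv ℝ (fderiv ℝ fun ξ : E => cost (ex g x ξ) y) 0

/-- Bound on the Hessian. -/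
def HB (g : M → E →L[ℝ] E →L[ℝ] ℝ) (C : M → M → ℝ) (x z : M) (K : ℝ) : Prop :=
  ∀ a b : E × E, |Hs g C x z a b| ≤ K * (nr g x a.1 + nr g z a.2) * (nr g x b.1 + nr g z b.2)

/-- Maximum of two support functions. -/
noncomputable def psi (a : Fin 2 → ℝ) (y : Fin 2 → M) (x : M) : ℝ :=
  max (a 0 - cost x (y 0)) (a 1 - cost x (y 1))

/-- Active minimizing vectors. -/
def Pa (g : M → E →L[ℝ] E →L[ℝ] ℝ) (a : Fin 2 → ℝ) (y : Fin 2 → M) (x : M) : Set E :=
  {p | Mn g x p ∧ ∃ i, ex g x p = y i ∧ psi a y x = a i - cost x (y i)}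

/-- `p` is a subgradient of `f` at `x` with constant `C`. -/
def Sub (g : M → E →L[ℝ] E →L[ℝ] ℝ) (f : M → ℝ) (C : ℝ) (x : M) (p : E) : Prop :=
  ∀ ξ, f x + g x p ξ - C * g x ξ ξ ≤ f (ex g x ξ)

/-- Hopf-Lax semigroup. -/
noncomputable def HL (f : M → ℝ) (t : ℝ) (z : M) : ℝ := ⨅ x, (f x + cost x z / t)

/-- Every subgradient is calibrated up to time `t`. -/
def Cal (g : M → E →L[ℝ] E →L[ℝ] ℝ) (f : M → ℝ) (C t : ℝ) : Prop :=
  ∀ x p, Sub g f C x p → ∀ x', f x + t * g x p p / 2 ≤ f x' + cost x' (ex g x (t • p)) / t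

end Vale.Agent.P234
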