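import Vale.Agent.P234.G8

/-! Hopf-Rinow and uniqueness of minimizers. -/

open scoped Manifold ContDiff Topology
open Set Filter

set_option linter.unusedSectionVars false

namespace Vale.Agent.P234

open Vale.Agent.P255

variable {E : Type} [NormedAddCommGroup E] [NormedSpace ℝ E] [FiniteDimensional ℝ E]
  {M : Type} [MetricSpace M] [CompactSpace M] [ChartedSpace E M] [IsManifold 𝓘(ℝ, E) ∞ M]
  {g : M → E →L[ℝ] E →L[ℝ] ℝ}


/-- With `s = nr a`, `t = nr b` positive: `cost_tri` through `ex g m μ` and `g5` give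
`g m (s⁻¹ • a + t⁻¹ • b) μ ≤ C' * g m μ μ` for all `μ`. -/
theorem RM.corner (h : RM g) {m : M} {a b : E}
    (hd : nr g m a + nr g m b ≤ dist (ex g m a) (ex g m b)) :
    nr g m b • a + nr g m a • b = 0 := by
  rcases (nr_nonneg (g := g) m a).eq_or_lt with hs | hs
  · rw [← hs, h.eq_zero_of_nr hs.symm]; simp
  rcases (nr_nonneg (g := g) m b).eq_or_lt with ht | ht
  · rw [← ht, h.eq_zero_of_nr ht.symm]; simp
  set s := nr g m a with hs'
  set t := nr g m b with ht'
  obtain ⟨C, hC, h5⟩ := h.g5 (max (g m a a) (g m b b))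
  have key : ∀ μ, t * g m a μ + s * g m b μ ≤ C * (s + t) * g m μ μ := by
    intro μ
    have h1 := cost_tri hs ht (ex g m a) (ex g m μ) (ex g m b)
    have h2 := h5 m a μ (le_max_left _ _)
    have h3 := h5 m b μ (le_max_right _ _)
    rw [← h.nr_sq m a, ← hs', cost_comm] at h2
    rw [← h.nr_sq m b, ← ht'] at h3
    have h4 : (s + t) / 2 ≤ cost (ex g m a) (ex g m b) / (s + t) := by
      rw [le_div_iff₀ (by positivity), cost]
      have h6 := pow_le_pow_left₀ (by positivity) hd 2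
      nlinarith
    have h6 := div_le_div_of_nonneg_right h2 hs.le
    have h7 := div_le_div_of_nonneg_right h3 ht.le
    have h8 : (s + t) / 2 ≤ (s ^ 2 / 2 - g m a μ + C * g m μ μ) / s +
        (t ^ 2 / 2 - g m b μ + C * g m μ μ) / t := by linarith
    rw [div_add_div _ _ hs.ne' ht.ne', le_div_iff₀ (by positivity)] at h8
    nlinarith
  by_contra hw
  set w := t • a + s • b with hw'
  have hp := h.pos m w hw
  have hk : 0 < C * (s + t) := by positivity
  have h1 := key ((2 * (C * (s + t)))⁻¹ • w)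
  have h2 : g m w w = t * g m a w + s * g m b w := by
    have h0 : ∀ μ, g m w μ = t * g m a μ + s * g m b μ := fun μ => by rw [hw']; simp
    exact h0 w
  simp only [map_smul, _root_.smul_apply, smul_eq_mul] at h1
  have h3 : (2 * (C * (s + t)))⁻¹ * g m w w ≤
      (2 * (C * (s + t)))⁻¹ * (g m w w / 2) := by
    calc _ = t * ((2 * (C * (s + t)))⁻¹ * g m a w) + s * ((2 * (C * (s + t)))⁻¹ * g m b w) := by
          rw [h2]; ring
      _ ≤ _ := h1
      _ = _ := by field_simp
  have h4 := le_of_mul_le_mul_left h3 (by positivity)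
  linarith

/-- Classical argument: `δ` below the radius of `normal`, `z` from `mid`, `u` the unit direction of `z`,
`T = {t ∈ [δ, D] | dist (ex g x (t • u)) y = D - t}` is compact; at its maximum `t₁ < D` use `mid`,
`normal` and `corner` to go further. -/
theorem RM.hopf_rinow (h : RM g) (x y : M) : ∃ v, Mn g x v ∧ ex g x v = y := by
  obtain ⟨r, hr, hn, -⟩ := h.normal
  by_cases hD : dist x y < r
  · exact (hn x y hD).2
  push Not at hD
  set D := dist x y with hD'
  obtain ⟨z, hz1, hz2⟩ := h.mid x y (r / 2) (by positivity) (by linarith)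
  obtain ⟨v₀, hv₀, hz⟩ := (hn x z (by linarith)).2
  have hv₁ : nr g x v₀ = r / 2 := by rw [← hv₀, hz, hz1]
  set u := (r / 2)⁻¹ • v₀ with hu'
  have hu : nr g x u = 1 := by
    rw [hu', nr_smul, hv₁, abs_of_pos (by positivity)]; field_simp
  have hc : Continuous fun t : ℝ => ex g x (t • u) := by
    refine (LipschitzWith.of_dist_le_mul (K := 1) fun s t => ?_).continuous
    have h1 := h.dist_ex_ex x u s t
    rw [hu] at h1
    simpa [Real.dist_eq] using h1
  set T : Set ℝ := Icc (r / 2) D ∩ {t | dist (ex g x (t • u)) y = D - t} with hT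
  have hTc : IsCompact T :=
    isCompact_Icc.inter_right (isClosed_eq (hc.dist continuous_const) (by fun_prop))
  have hTn : T.Nonempty := by
    refine ⟨r / 2, ⟨le_rfl, by linarith⟩, ?_⟩
    show dist (ex g x ((r / 2) • u)) y = D - r / 2
    rw [hu', smul_inv_smul₀ (by positivity), hz, hz2]
  obtain ⟨t₁, ⟨⟨h1, h2⟩, h3⟩, h4⟩ := hTc.exists_isGreatest hTn
  replace h3 : dist (ex g x (t₁ • u)) y = D - t₁ := h3
  rcases h2.eq_or_lt with h2 | h2
  · have h5 : ex g x (t₁ • u) = y := by rw [← dist_eq_zero, h3, h2, sub_self]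
    refine ⟨t₁ • u, ?_, h5⟩
    show dist x _ = _
    rw [h5, nr_smul, hu, mul_one, abs_of_nonneg (by linarith), h2]
  exfalso
  set δ := min (r / 2) (D - t₁) with hδ
  have hδ0 : 0 < δ := lt_min (by positivity) (by linarith)
  have hδ1 : δ ≤ r / 2 := min_le_left _ _
  have hδ2 : δ ≤ D - t₁ := min_le_right _ _
  obtain ⟨z', hz3, hz4⟩ := h.mid (ex g x (t₁ • u)) y δ hδ0.le (by linarith)
  obtain ⟨b, hb, hz'⟩ := (hn (ex g x (t₁ • u)) z' (by linarith)).2
  have hb1 : nr g (ex g x (t₁ • u)) b = δ := by rw [← hb, hz', hz3]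
  have ha1 : nr g (ex g x (t₁ • u)) ((-δ) • vl g x u t₁) = δ := by
    rw [nr_smul, h.nr_vl, hu, mul_one, abs_neg, abs_of_pos hδ0]
  have h5 := h.dist_ex x ((t₁ + -δ) • u)
  rw [nr_smul, hu, mul_one, abs_of_nonneg (by linarith)] at h5
  have h6 := h.corner (m := ex g x (t₁ • u)) (a := (-δ) • vl g x u t₁) (b := b) (by
    rw [ha1, hb1, h.ex_flow, hz']
    have h7 := dist_triangle4 x (ex g x ((t₁ + -δ) • u)) z' y
    linarith)
  rw [ha1, hb1, ← smul_add, smul_eq_zero, neg_smul, neg_add_eq_zero] at h6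
  have h7 : z' = ex g x ((t₁ + δ) • u) := by
    rw [← hz', ← h6.resolve_left hδ0.ne', h.ex_flow]
  have h8 : t₁ + δ ∈ T := by
    refine ⟨⟨by linarith, by linarith⟩, ?_⟩
    show dist (ex g x ((t₁ + δ) • u)) y = D - (t₁ + δ)
    rw [← h7, hz4, h3]; ring
  have h9 := h4 h8
  linarith

/-- `corner` at `ex g x v` with `-vl g x w 1` and `(a - 1) • vl g x v 1`, then `vl_back`. -/
theorem RM.mn_unique (h : RM g) {x : M} {v w : E} (hv : v ∈ Inj g x) (hw : Mn g x w)
    (he : ex g x w = ex g x v) : w = v := by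
  obtain ⟨a, ha, hm⟩ := mem_inj_iff.1 hv
  have hv' := h.mn_of_inj hv
  have hN : nr g x w = nr g x v := by rw [← hw, ← hv', he]
  rcases (nr_nonneg (g := g) x v).eq_or_lt with h0 | h0
  · rw [h.eq_zero_of_nr h0.symm, h.eq_zero_of_nr (hN.trans h0.symm)]
  have hA : nr g (ex g x v) (-vl g x w 1) = nr g x v := by rw [nr_neg, ← he, h.nr_vl1, hN]
  have hB : nr g (ex g x v) ((a - 1) • vl g x v 1) = (a - 1) * nr g x v := by
    rw [nr_smul, h.nr_vl1, abs_of_pos (by linarith)]
  have hA' : ex g (ex g x v) (-vl g x w 1) = x := by rw [← he, h.ex_back]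
  have h1 := h.corner (m := ex g x v) (a := -vl g x w 1) (b := (a - 1) • vl g x v 1) (by
    rw [hA, hB, hA', h.ex_flow1, add_sub_cancel, hm, nr_smul, abs_of_pos (by linarith)]
    linarith)
  rw [hA, hB, smul_smul, mul_comm (nr g x v), ← smul_add, smul_eq_zero, neg_add_eq_zero] at h1
  have h2 := h1.resolve_left (mul_pos (by linarith) h0).ne'
  have h3 := h.vl_back x w
  rw [he, h2, h.vl_back] at h3
  exact (neg_injective h3).symm

/-- Short time lemma (`hopf_rinow`, `g9`). -/
theorem RM.short_time (h : RM g) (R C : ℝ) : ∃ s₀ > 0, ∀ (f : M → ℝ) z u s, g z u u ≤ R → 0 < s →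
    s ≤ s₀ → Sub g f C z u → ∀ z', f z + s * g z u u / 2 ≤ f z' + cost z' (ex g z (s • u)) / s := by
  obtain ⟨r, hr, h9⟩ := h.g9
  refine ⟨min (r / (√R + 1)) (1 / (4 * (|C| + 1))), by positivity, ?_⟩
  intro f z u s hu hs hs0 hf z'
  obtain ⟨ζ, hζ, rfl⟩ := h.hopf_rinow z z'
  have h1 : s * (√R + 1) ≤ r := (le_div_iff₀ (by positivity)).1 (hs0.trans (min_le_left _ _))
  have h2 : s * (4 * (|C| + 1)) ≤ 1 :=
    (le_div_iff₀ (by positivity)).1 (hs0.trans (min_le_right _ _))
  have h3 : nr g z u ≤ √R := Real.sqrt_le_sqrt hu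
  have h4 := h9 z (s • u) ζ (by rw [nr_smul, abs_of_pos hs]; nlinarith) hζ
  simp only [map_smul, _root_.smul_apply, smul_eq_mul] at h4
  have h5 := hf ζ
  have h6 := h.nonneg z ζ
  have h7 : s * g z u u / 2 - g z u ζ + C * g z ζ ζ ≤ cost (ex g z ζ) (ex g z (s • u)) / s := by
    rw [le_div_iff₀ hs]
    have h8 : C * s ≤ 1 / 4 := by nlinarith [le_abs_self C]
    nlinarith
  linarith

end Vale.Agent.P234
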