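import Vale.Agent.P234.Base
import Vale.Agent.P255.Bridge

/-! From the Mathlib Riemannian distance to the structure `RM`. -/

open scoped Manifold ContDiff Topology
open Set Filter

set_option linter.unusedSectionVars false

namespace Vale.Agent.P234

open Vale.Agent.P255

variable {E : Type} [NormedAddCommGroup E] [NormedSpace ℝ E] [FiniteDimensional ℝ E]
  {M : Type} [MetricSpace M] [CompactSpace M] [ChartedSpace E M] [IsManifold 𝓘(ℝ, E) ∞ M]
  {g : M → E →L[ℝ] E →L[ℝ] ℝ}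

namespace BridgeAux

open MeasureTheory

/-- Length of a path. -/
noncomputable def ln (g : M → E →L[ℝ] E →L[ℝ] ℝ) (γ : ℝ → M) (a b : ℝ) : ENNReal :=
  ∫⁻ t in Icc a b, ENNReal.ofReal (nr g (γ t) (vel E γ t))

theorem ln_add (γ : ℝ → M) {a b c : ℝ} (h : a ≤ b) (h' : b ≤ c) :
    ln g γ a b + ln g γ b c = ln g γ a c := by
  rw [ln, ln, ln, ← Icc_union_Ioc_eq_Icc h h', lintegral_union measurableSet_Ioc
    (disjoint_iff_forall_ne.mpr fun a ha b hb => (ha.2.trans_lt hb.1).ne),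
    restrict_Ioc_eq_restrict_Icc]

open scoped Bundle in
theorem facts (g : RMetric E M) (hd : IsGeodesicDist g) :
    (∀ (γ : ℝ → M) (a b : ℝ), a ≤ b → ContMDiffOn 𝓘(ℝ, ℝ) 𝓘(ℝ, E) 1 γ (Icc a b) →
      edist (γ a) (γ b) ≤ ln (E := E) (M := M) g.inner γ a b) ∧
    ∀ (x y : M) (r : ENNReal), edist x y < r → ∃ γ : ℝ → M, γ 0 = x ∧ γ 1 = y ∧
      ContMDiff 𝓘(ℝ, ℝ) 𝓘(ℝ, E) 1 γ ∧ ln (E := E) (M := M) g.inner γ 0 1 < r := by
  let _ : Bundle.RiemannianBundle (fun x : M => TangentSpace 𝓘(ℝ, E) x) := ⟨g.toRiemannianMetric⟩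
  have key : ∀ (γ : ℝ → M) (a b : ℝ),
      Manifold.pathELength 𝓘(ℝ, E) γ a b = ln (E := E) (M := M) g.inner γ a b := fun γ a b => by
    rw [Manifold.pathELength_eq_lintegral_mfderiv_Icc]
    refine lintegral_congr fun t => ?_
    rw [← ofReal_norm, norm_eq_sqrt_real_inner]
    rfl
  refine ⟨fun γ a b hab hγ => ?_, fun x y r hr => ?_⟩
  · rw [hd, ← key]
    exact Manifold.riemannianEDist_le_pathELength hγ rfl rfl hab
  · rw [hd] at hr
    obtain ⟨γ, h0, h1, h2, h3, -⟩ :=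
      Manifold.exists_lt_locally_constant_of_riemannianEDist_lt hr zero_lt_one
    exact ⟨γ, h0, h1, h2, key γ 0 1 ▸ h3⟩

theorem path
    (hA : ∀ (γ : ℝ → M) (a b : ℝ), a ≤ b → ContMDiffOn 𝓘(ℝ, ℝ) 𝓘(ℝ, E) 1 γ (Icc a b) →
      edist (γ a) (γ b) ≤ ln g γ a b)
    (hB : ∀ (x y : M) (r : ENNReal), edist x y < r → ∃ γ : ℝ → M, γ 0 = x ∧ γ 1 = y ∧
      ContMDiff 𝓘(ℝ, ℝ) 𝓘(ℝ, E) 1 γ ∧ ln g γ 0 1 < r) {x y : M} {r : ℝ} (hr : dist x y < r) :
    ∃ γ : ℝ → M, γ 0 = x ∧ γ 1 = y ∧ ContMDiff 𝓘(ℝ, ℝ) 𝓘(ℝ, E) 1 γ ∧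
      ln g γ 0 1 < ENNReal.ofReal r ∧ ∀ t ∈ Icc (0 : ℝ) 1, dist x (γ t) + dist (γ t) y < r := by
  have hr0 : 0 < r := dist_nonneg.trans_lt hr
  obtain ⟨γ, h0, h1, h2, h3⟩ := hB x y (ENNReal.ofReal r)
    (by rwa [edist_dist, ENNReal.ofReal_lt_ofReal_iff hr0])
  refine ⟨γ, h0, h1, h2, h3, fun t ht => ?_⟩
  have h4 := (add_le_add (hA γ 0 t ht.1 h2.contMDiffOn) (hA γ t 1 ht.2 h2.contMDiffOn)).trans_lt
    ((ln_add γ ht.1 ht.2).trans_lt h3)
  rwa [h0, h1, edist_dist, edist_dist, ← ENNReal.ofReal_add dist_nonneg dist_nonneg,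
    ENNReal.ofReal_lt_ofReal_iff hr0] at h4

theorem rm (hg : IsRM g)
    (hA : ∀ (γ : ℝ → M) (a b : ℝ), a ≤ b → ContMDiffOn 𝓘(ℝ, ℝ) 𝓘(ℝ, E) 1 γ (Icc a b) →
      edist (γ a) (γ b) ≤ ln g γ a b)
    (hB : ∀ (x y : M) (r : ENNReal), edist x y < r → ∃ γ : ℝ → M, γ 0 = x ∧ γ 1 = y ∧
      ContMDiff 𝓘(ℝ, ℝ) 𝓘(ℝ, E) 1 γ ∧ ln g γ 0 1 < r) : RM g := by
  refine ⟨hg, fun γ a b L hab h => ?_, fun e he F x y ρ hρ h => ?_,
    fun x y δ h0 h1 => ?_⟩
  · have hL : 0 ≤ L := (Real.sqrt_nonneg _).trans (h a (left_mem_Icc.2 hab)).2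
    have h1 := hA γ a b hab fun t ht => (h t ht).1.contMDiffWithinAt
    have h2 : ln g γ a b ≤ ∫⁻ _ in Icc a b, ENNReal.ofReal L :=
      setLIntegral_mono' measurableSet_Icc fun t ht => ENNReal.ofReal_le_ofReal (h t ht).2
    rw [setLIntegral_const, Real.volume_Icc, ← ENNReal.ofReal_mul hL] at h2
    have h3 := h1.trans h2
    rwa [edist_dist, ENNReal.ofReal_le_ofReal_iff (mul_nonneg hL (sub_nonneg.2 hab))] at h3
  · refine le_of_forall_gt_imp_ge_of_dense fun r hr => ?_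
    obtain ⟨γ, h0, h1, h2, h3, h4⟩ := path hA hB (lt_min hr hρ)
    have h5 : ∀ t ∈ Icc (0 : ℝ) 1, γ t ∈ Metric.ball x ρ := fun t ht => by
      rw [Metric.mem_ball, dist_comm]
      exact ((le_add_of_nonneg_right dist_nonneg).trans_lt (h4 t ht)).trans_le (min_le_right _ _)
    have h6 : ∀ t ∈ Icc (0 : ℝ) 1, ContDiffAt ℝ 1 (e ∘ γ) t := fun t ht =>
      contDiffAt_chart_comp (by exact_mod_cast le_top) he (h _ (h5 t ht)).1 (h2 t)
    have h7 := enorm_sub_le_lintegral_deriv_of_contDiffOn_Icc (f := F ∘ (e ∘ γ))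
      (fun t ht => (ContDiffAt.comp t (h _ (h5 t ht)).2.1 (h6 t ht)).contDiffWithinAt) zero_le_one
    have h8 : ∫⁻ t in Icc (0 : ℝ) 1, ‖deriv (F ∘ (e ∘ γ)) t‖ₑ ≤
        ln g γ 0 1 := setLIntegral_mono' measurableSet_Icc fun t ht => by
      obtain ⟨a1, a2, a3⟩ := h _ (h5 t ht)
      have a4 := (h6 t ht).differentiableAt one_ne_zero
      have a5 : HasDerivAt (F ∘ (e ∘ γ)) (fderiv ℝ F (e (γ t)) (deriv (e ∘ γ) t)) t :=
        HasFDerivAt.comp_hasDerivAt t (a2.differentiableAt one_ne_zero).hasFDerivAt a4.hasDerivAt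
      rw [a5.deriv, ← dC_vel he a1 (h2 t).continuousAt a4, ← ofReal_norm,
        Real.norm_eq_abs]
      refine ENNReal.ofReal_le_ofReal (abs_le.2 ⟨?_, ?_⟩)
      · have := a3 (-dC e (γ t) (vel E γ t))
        simp only [map_neg, neg_apply, neg_neg] at this
        rw [gc_dC _ he a1] at this
        exact neg_le.1 this
      · have := a3 (dC e (γ t) (vel E γ t))
        rwa [gc_dC _ he a1] at this
    have h9 := (h7.trans h8).trans_lt h3
    rw [← ofReal_norm, ENNReal.ofReal_lt_ofReal_iff_of_nonneg (norm_nonneg _),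
      Function.comp_apply, Function.comp_apply, Function.comp_apply, Function.comp_apply, h0,
      h1] at h9
    exact ((le_abs_self _).trans h9.le).trans (min_le_left _ _)
  · have key : ∀ r, dist x y < r → ∃ z ∈ Metric.sphere x δ, dist z y < r - δ := fun r hr => by
      obtain ⟨γ, a0, a1, a2, -, a4⟩ := path hA hB hr
      obtain ⟨t, ht, a5⟩ := intermediate_value_Icc zero_le_one
        (f := fun t => dist x (γ t)) (continuous_const.dist a2.continuous).continuousOn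
        (show δ ∈ Icc (dist x (γ 0)) (dist x (γ 1)) by rw [a0, a1, dist_self]; exact ⟨h0, h1⟩)
      have a6 := a4 t ht
      have a7 : dist x (γ t) = δ := a5
      exact ⟨γ t, by rw [Metric.mem_sphere, dist_comm, a7], by linarith⟩
    obtain ⟨z0, hz0, -⟩ := key _ (lt_add_one _)
    obtain ⟨z, hz, hm⟩ := Metric.isClosed_sphere.isCompact.exists_isMinOn ⟨z0, hz0⟩
      (f := fun z => dist z y) (continuous_id.dist continuous_const).continuousOn
    rw [Metric.mem_sphere, dist_comm] at hz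
    refine ⟨z, hz, le_antisymm (le_of_forall_pos_le_add fun ε hε => ?_) ?_⟩
    · obtain ⟨w, hw, a⟩ := key (dist x y + ε) (by linarith)
      have : dist z y ≤ dist w y := hm hw
      linarith
    · linarith [dist_triangle x z y]

end BridgeAux

theorem rm_of_metric (g : RMetric E M) (hd : IsGeodesicDist g) : RM (E := E) (M := M) g.inner :=
  BridgeAux.rm (isRM_of_metric g) (BridgeAux.facts g hd).1 (BridgeAux.facts g hd).2

end Vale.Agent.P234
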