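import Vale.Agent.P255.Geo3

/-! Smooth dependence of geodesics on parameters, any finite order. -/

open scoped Manifold ContDiff Topology
open Set Filter

set_option maxSynthPendingDepth 3
set_option linter.unusedSectionVars false

namespace Vale.Agent.P234.JointAux

open Vale.Agent.P255

/-- Local flows of smooth vector fields are jointly `Cⁿ`. -/
theorem exists_flowN (n : ℕ) (hn : 2 ≤ n) {B : Type} [NormedAddCommGroup B] [NormedSpace ℝ B]
    [FiniteDimensional ℝ B] (F : B → B) (U : Set B) (hU : IsOpen U) (hF : ContDiffOn ℝ ∞ F U)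
    (z₀ : B) (hz : z₀ ∈ U) :
    ∃ ε > 0, ∃ Φ : B × ℝ → B, ContDiffOn ℝ n Φ (Metric.ball z₀ ε ×ˢ Ioo (-ε) ε) ∧
      ∀ z ∈ Metric.ball z₀ ε, Φ (z, 0) = z ∧ ∀ r ∈ Ioo (-ε) ε, Φ (z, r) ∈ U ∧
        HasDerivAt (fun x => Φ (z, x)) (F (Φ (z, r))) r := by
  have : CompleteSpace B := FiniteDimensional.complete ℝ B
  obtain ⟨R, hR, hRU⟩ := Metric.nhds_basis_closedBall.mem_iff.1 (hU.mem_nhds hz)
  let b : ContDiffBump z₀ := ⟨R / 2, R, by positivity, by linarith⟩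
  have hG3 : ContDiff ℝ n (fun x => b x • F x) := by
    rw [contDiff_iff_contDiffAt]
    intro x
    by_cases hx : x ∈ U
    · exact b.contDiffAt.smul ((hF.contDiffAt (hU.mem_nhds hx)).of_le (by exact_mod_cast le_top))
    · have hx' : x ∉ tsupport b := by
        rw [b.tsupport_eq]
        exact fun h => hx (hRU h)
      refine (contDiffAt_const (c := (0 : B))).congr_of_eventuallyEq ?_
      filter_upwards [notMem_tsupport_iff_eventuallyEq.1 hx'] with y hy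
      simp [hy]
  have hGc : HasCompactSupport (fun x => b x • F x) := b.hasCompactSupport.smul_right
  let G : C(B, B) := ⟨fun x => b x • F x, hG3.continuous⟩
  have hG : ContDiff ℝ n G := hG3
  obtain ⟨L, hL⟩ := ContDiff.lipschitzWith_of_hasCompactSupport hGc hG3 (by exact_mod_cast (by omega : n ≠ 0))
  have hL' : LipschitzWith L G := hL
  have hGF : ∀ x ∈ Metric.closedBall z₀ (R / 2), G x = F x := by
    intro x hx
    have : b x = 1 := b.one_of_mem_closedBall hx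
    simp [G, this]
  obtain ⟨ψ, hψ, hψe⟩ := flow_exists_implicit n (by omega) G hG z₀
  have hG1 : ContDiffAt ℝ 1 G z₀ := hG.contDiffAt.of_le (by exact_mod_cast (by omega : 1 ≤ n))
  obtain ⟨ρ, hρ, η, hη, hsol⟩ :=
    hG1.exists_forall_mem_closedBall_exists_eq_forall_mem_Ioo_hasDerivAt 0
  let one : Icc (0 : ℝ) 1 := ⟨1, zero_le_one, le_rfl⟩
  let Φ : B × ℝ → B := fun x => ψ x one
  have hΦ : ContDiffAt ℝ n Φ (z₀, 0) :=
    (ContinuousMap.evalCLM ℝ one : C(Icc (0 : ℝ) 1, B) →L[ℝ] B).contDiff.contDiffAt.comp _ hψ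
  obtain ⟨W, hW, hΦW⟩ := hΦ.contDiffOn le_rfl (by simp)
  have hΦ0 : Φ (z₀, 0) = z₀ := by
    have := hψe.self_of_nhds one
    simpa using this
  have hV : ∀ᶠ x in 𝓝 ((z₀, 0) : B × ℝ), Φ x ∈ Metric.closedBall z₀ (R / 2) := by
    apply hΦ.continuousAt.eventually_mem
    rw [hΦ0]
    exact Metric.closedBall_mem_nhds _ (by positivity)
  obtain ⟨δ, hδ, hball⟩ := Metric.mem_nhds_iff.1 (inter_mem hW (hψe.and hV))
  let ε := min δ (min ρ η)
  have hε : 0 < ε := lt_min hδ (lt_min hρ hη)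
  have hεδ : ε ≤ δ := min_le_left _ _
  have hερ : ε ≤ ρ := (min_le_right _ _).trans (min_le_left _ _)
  have hεη : ε ≤ η := (min_le_right _ _).trans (min_le_right _ _)
  have hsub : Metric.ball z₀ ε ×ˢ Ioo (-ε) ε ⊆ Metric.ball ((z₀, 0) : B × ℝ) δ := by
    rintro ⟨z, r⟩ ⟨h1, h2⟩
    rw [← ball_prod_same]
    refine ⟨Metric.ball_subset_ball hεδ h1, ?_⟩
    rw [Real.ball_eq_Ioo]
    exact ⟨by linarith [h2.1], by linarith [h2.2]⟩
  refine ⟨ε, hε, Φ, hΦW.mono fun x hx => (hball (hsub hx)).1, fun z hz' => ?_⟩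
  obtain ⟨α, hα0, hα⟩ := hsol z
    (Metric.ball_subset_closedBall (Metric.ball_subset_ball hερ hz'))
  have hα' : ∀ t ∈ Ioo (-ε) ε, HasDerivAt α (G (α t)) t := fun t ht =>
    hα t ⟨by linarith [ht.1], by linarith [ht.2]⟩
  have heq : ∀ r ∈ Ioo (-ε) ε, Φ (z, r) = α r := fun r hr =>
    flow_eq_of_integral G hL' (ψ (z, r)) z r ε hr (hball (hsub ⟨hz', hr⟩)).2.1 α hα0 hα'
  refine ⟨by rw [heq 0 ⟨by linarith, hε⟩, hα0], fun r hr => ?_⟩
  have hin : Φ (z, r) ∈ Metric.closedBall z₀ (R / 2) := (hball (hsub ⟨hz', hr⟩)).2.2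
  refine ⟨hRU (Metric.closedBall_subset_closedBall (by linarith) hin), ?_⟩
  rw [← hGF _ hin, heq r hr]
  refine (hα' r hr).congr_of_eventuallyEq ?_
  filter_upwards [Ioo_mem_nhds hr.1 hr.2] with x hx using heq x hx

variable {E : Type} [NormedAddCommGroup E] [NormedSpace ℝ E] [FiniteDimensional ℝ E]
  {M : Type} [TopologicalSpace M] [ChartedSpace E M] [IsManifold 𝓘(ℝ, E) ∞ M]
  {g : M → E →L[ℝ] E →L[ℝ] ℝ}
  {A : Type} [NormedAddCommGroup A] [NormedSpace ℝ A]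

theorem leN (n : ℕ) : (n : WithTop ℕ∞) ≤ ∞ := by exact_mod_cast le_top

theorem leN1 (n : ℕ) : (n + 1 : WithTop ℕ∞) ≤ ∞ := by exact_mod_cast leN (n + 1)

/-- Position and velocity in the chart `e`. -/
noncomputable def ph (e : OpenPartialHomeomorph M E) (Γ : A × ℝ → M) (a : A × ℝ) : E × E :=
  (e (Γ a), deriv (e ∘ fun r => Γ (a.1, r)) a.2)

theorem changeN (n : ℕ) {Γ : A × ℝ → M} (geo : ∀ v, IsGeodesicOn g (fun r => Γ (v, r)) univ)
    {e e' : OpenPartialHomeomorph M E} (he : e ∈ atlas E M) (he' : e' ∈ atlas E M) {a : A × ℝ}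
    (hc : ContinuousAt Γ a) (ha : Γ a ∈ e.source) (ha' : Γ a ∈ e'.source)
    (h3 : ContDiffAt ℝ n (ph e Γ) a) : ContDiffAt ℝ n (ph e' Γ) a := by
  have hO : IsOpen (e.target ∩ e.symm ⁻¹' e'.source) := e.isOpen_inter_preimage_symm e'.open_source
  have hτ : ∀ m ∈ e.source, m ∈ e'.source → ContDiffAt ℝ ∞ (e' ∘ e.symm) (e m) := by
    intro m hm hm'
    refine (contDiffOn_trans he he').contDiffAt (hO.mem_nhds ⟨e.map_source hm, ?_⟩)
    rw [mem_preimage, e.left_inv hm]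
    exact hm'
  have hev : ph e' Γ =ᶠ[𝓝 a] fun b => ((e' ∘ e.symm) (ph e Γ b).1,
      fderiv ℝ (e' ∘ e.symm) (ph e Γ b).1 (ph e Γ b).2) := by
    filter_upwards [hc.preimage_mem_nhds (e.open_source.mem_nhds ha),
      hc.preimage_mem_nhds (e'.open_source.mem_nhds ha')] with b hb hb'
    have hb1 : Γ (b.1, b.2) ∈ e.source := hb
    have hγ : ContinuousAt (fun r => Γ (b.1, r)) b.2 :=
      (continuousOn_univ.1 (geo b.1).1).continuousAt
    have h4 : (e' ∘ fun r => Γ (b.1, r)) =ᶠ[𝓝 b.2]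
        (e' ∘ e.symm) ∘ (e ∘ fun r => Γ (b.1, r)) := by
      filter_upwards [hγ.preimage_mem_nhds (e.open_source.mem_nhds hb1)] with r hr
      simp only [Function.comp_apply]
      rw [e.left_inv hr]
    have h5 : DifferentiableAt ℝ (e ∘ fun r => Γ (b.1, r)) b.2 :=
      ((geo b.1).2 e he b.2 (mem_univ _) hb1).1.differentiableAt (by norm_num)
    have h6 : DifferentiableAt ℝ (e' ∘ e.symm) (e (Γ b)) :=
      (hτ _ hb hb').differentiableAt (by simp)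
    refine Prod.ext ?_ ?_
    · simp only [ph, Function.comp_apply]
      rw [e.left_inv hb]
    · simp only [ph]
      rw [h4.deriv_eq]
      exact (h6.hasFDerivAt.comp_hasDerivAt b.2 h5.hasDerivAt).deriv
  refine ContDiffAt.congr_of_eventuallyEq ?_ hev
  have h7 : ContDiffAt ℝ n (e' ∘ e.symm) (ph e Γ a).1 :=
    (hτ _ ha ha').of_le (leN n)
  have h8 : ContDiffAt ℝ n (fderiv ℝ (e' ∘ e.symm)) (ph e Γ a).1 :=
    (hτ _ ha ha').fderiv_right (leN1 n)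
  exact (h7.comp a h3.fst).prodMk ((h8.comp a h3.fst).clm_apply h3.snd)

theorem localN (n : ℕ) (hn : 2 ≤ n) [T2Space M] (h : IsRM g) {Γ : A × ℝ → M}
    (geo : ∀ v, IsGeodesicOn g (fun r => Γ (v, r)) univ) {e : OpenPartialHomeomorph M E}
    (he : e ∈ atlas E M) (v₀ : A) (r₁ : ℝ) (h₁ : Γ (v₀, r₁) ∈ e.source) :
    ∃ δ > 0, ∀ r₂ ∈ Metric.ball r₁ δ, Γ (v₀, r₂) ∈ e.source ∧
      (ContinuousAt (fun v => Γ (v, r₂)) v₀ → ContDiffAt ℝ n (fun v => ph e Γ (v, r₂)) v₀ →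
        ∀ r ∈ Metric.ball r₁ δ, ContinuousAt Γ (v₀, r) ∧ ContDiffAt ℝ n (ph e Γ) (v₀, r)) := by
  have hU : IsOpen (e.target ×ˢ (univ : Set E)) := e.open_target.prod isOpen_univ
  have hF : ContDiffOn ℝ ∞ (fun z : E × E => (z.2, -chrL (gc g e) z.1 z.2 z.2))
      (e.target ×ˢ (univ : Set E)) := by
    have h2 : ContDiffOn ℝ ∞ (fun z : E × E => chrL (gc g e) z.1) (e.target ×ˢ (univ : Set E)) :=
      (h.cm he).contDiffOn_chrL.comp contDiffOn_fst fun z hz => hz.1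
    exact contDiffOn_snd.prodMk ((h2.clm_apply contDiffOn_snd).clm_apply contDiffOn_snd).neg
  obtain ⟨ε, hε, Φ, hΦ, hΦ'⟩ := exists_flowN n hn _ _ hU hF (ph e Γ (v₀, r₁))
    ⟨e.map_source h₁, mem_univ _⟩
  have hO : IsOpen (Metric.ball (ph e Γ (v₀, r₁)) ε ×ˢ Ioo (-ε) ε) :=
    Metric.isOpen_ball.prod isOpen_Ioo
  have hγ : ∀ v r, ContinuousAt (fun r => Γ (v, r)) r := fun v r =>
    (continuousOn_univ.1 (geo v).1).continuousAt
  have hc1 : ContinuousAt (fun r => ph e Γ (v₀, r)) r₁ := by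
    have h2 := ((geo v₀).2 e he r₁ (mem_univ _) h₁).1
    have h3 : ContDiffAt ℝ 1 (deriv (e ∘ fun r => Γ (v₀, r))) r₁ := by
      have h4 := h2.fderiv_right (m := 1) (by norm_num)
      exact h4.clm_apply contDiffAt_const
    exact h2.continuousAt.prodMk h3.continuousAt
  have hev : ∀ᶠ r in 𝓝 r₁, Γ (v₀, r) ∈ e.source ∧
      ph e Γ (v₀, r) ∈ Metric.ball (ph e Γ (v₀, r₁)) ε :=
    ((hγ v₀ r₁).eventually (e.open_source.mem_nhds h₁)).and
      (hc1.eventually (Metric.ball_mem_nhds _ hε))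
  obtain ⟨δ, hδ, hδ'⟩ := Metric.eventually_nhds_iff_ball.1 hev
  refine ⟨min δ (ε / 2), lt_min hδ (half_pos hε), fun r₂ hr₂ => ?_⟩
  obtain ⟨h2, h3⟩ := hδ' r₂ (Metric.ball_subset_ball (min_le_left _ _) hr₂)
  refine ⟨h2, fun hc hs r hr => ?_⟩
  have hrI : r - r₂ ∈ Ioo (-ε) ε := by
    have h4 := Metric.ball_subset_ball (min_le_right _ _) hr₂
    have h5 := Metric.ball_subset_ball (min_le_right _ _) hr
    rw [Metric.mem_ball, Real.dist_eq, abs_lt] at h4 h5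
    constructor <;> linarith [h4.1, h4.2, h5.1, h5.2]
  have hI : IsOpen {x : ℝ | x - r₂ ∈ Ioo (-ε) ε} :=
    isOpen_Ioo.preimage (continuous_id.sub continuous_const)
  have hI' : IsPreconnected {x : ℝ | x - r₂ ∈ Ioo (-ε) ε} := by
    have h4 : {x : ℝ | x - r₂ ∈ Ioo (-ε) ε} = Ioo (r₂ - ε) (r₂ + ε) := by
      ext x
      simp only [mem_ofPred_eq, mem_Ioo]
      constructor <;> rintro ⟨h5, h6⟩ <;> constructor <;> linarith
    rw [h4]
    exact isPreconnected_Ioo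
  have h0 : r₂ ∈ {x : ℝ | x - r₂ ∈ Ioo (-ε) ε} := by
    simp only [mem_ofPred_eq, sub_self, mem_Ioo]
    exact ⟨by linarith, hε⟩
  have key : ∀ v, Γ (v, r₂) ∈ e.source →
      ph e Γ (v, r₂) ∈ Metric.ball (ph e Γ (v₀, r₁)) ε → ∀ x, x - r₂ ∈ Ioo (-ε) ε →
        Γ (v, x) = e.symm (Φ (ph e Γ (v, r₂), x - r₂)).1 ∧
          ph e Γ (v, x) = Φ (ph e Γ (v, r₂), x - r₂) := by
    intro v hv hz
    obtain ⟨hz0, hz1⟩ := hΦ' _ hz
    obtain ⟨k1, k2⟩ := h.flow_geo_Geo3 he (W := fun x => Φ (ph e Γ (v, r₂), x - r₂)) hI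
      (fun s hs => ContDiffAt.comp (f := fun x => (ph e Γ (v, r₂), x - r₂)) s
        ((hΦ.contDiffAt (x := (ph e Γ (v, r₂), s - r₂)) (hO.mem_nhds ⟨hz, hs⟩)).of_le
          (by exact_mod_cast hn))
        (contDiffAt_const.prodMk (contDiffAt_id.sub contDiffAt_const)))
      (fun s hs => (hz1 _ hs).1.1)
      (fun s hs => (hz1 _ hs).2.comp_sub_const s r₂)
    have k3 : Γ (v, r₂) = e.symm (Φ (ph e Γ (v, r₂), r₂ - r₂)).1 := by
      rw [sub_self, hz0]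
      exact (e.left_inv hv).symm
    have k4 : e.symm (Φ (ph e Γ (v, r₂), r₂ - r₂)).1 ∈ e.source := k3 ▸ hv
    have k5 : vel E (fun r => Γ (v, r)) r₂ =
        vel E (fun x => e.symm (Φ (ph e Γ (v, r₂), x - r₂)).1) r₂ := by
      apply dC_injective he hv
      have k6 := dC_vel (γ := fun r => Γ (v, r)) he hv (hγ v r₂)
        (((geo v).2 e he r₂ (mem_univ _) hv).1.differentiableAt (by norm_num))
      have k7 := dC_vel (γ := fun x => e.symm (Φ (ph e Γ (v, r₂), x - r₂)).1) he k4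
        (k1.1.continuousAt (hI.mem_nhds h0))
        ((k1.2 e he r₂ h0 k4).1.differentiableAt (by norm_num))
      rw [k2 r₂ h0, ← k3, sub_self, hz0] at k7
      rw [k6, k7]
      rfl
    have k8 := h.geo_unique hI hI' ⟨(geo v).1.mono (subset_univ _),
      fun e' he' s _ hs => (geo v).2 e' he' s (mem_univ _) hs⟩ k1 h0 k3 k5
    intro x hx
    have k9 : Γ (v, x) = e.symm (Φ (ph e Γ (v, r₂), x - r₂)).1 := k8 hx
    refine ⟨k9, Prod.ext ?_ ?_⟩
    · show e (Γ (v, x)) = _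
      rw [k9, e.right_inv (hz1 _ hx).1.1]
    · show deriv (e ∘ fun r => Γ (v, r)) x = _
      rw [← k2 x hx]
      refine Filter.EventuallyEq.deriv_eq ?_
      filter_upwards [hI.mem_nhds hx] with y hy
      exact congrArg e (k8 hy)
  have hev2 : ∀ᶠ a in 𝓝 (v₀, r), Γ a = e.symm (Φ (ph e Γ (a.1, r₂), a.2 - r₂)).1 ∧
      ph e Γ a = Φ (ph e Γ (a.1, r₂), a.2 - r₂) := by
    have k1 : ∀ᶠ v in 𝓝 v₀, Γ (v, r₂) ∈ e.source ∧
        ph e Γ (v, r₂) ∈ Metric.ball (ph e Γ (v₀, r₁)) ε :=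
      (hc.eventually (e.open_source.mem_nhds h2)).and
        (hs.continuousAt.eventually (Metric.isOpen_ball.mem_nhds h3))
    have k2 : ∀ᶠ x in 𝓝 r, x - r₂ ∈ Ioo (-ε) ε := hI.mem_nhds hrI
    filter_upwards [k1.prod_nhds k2] with a ha
    exact key a.1 ha.1.1 ha.1.2 a.2 ha.2
  have hsm : ContDiffAt ℝ n (fun a : A × ℝ => Φ (ph e Γ (a.1, r₂), a.2 - r₂)) (v₀, r) := by
    have k1 : ContDiffAt ℝ n (fun a : A × ℝ => ph e Γ (a.1, r₂)) (v₀, r) :=
      ContDiffAt.comp (g := fun v => ph e Γ (v, r₂)) (v₀, r) hs contDiffAt_fst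
    exact (hΦ.contDiffAt (hO.mem_nhds ⟨h3, hrI⟩)).comp (v₀, r)
      (k1.prodMk (contDiffAt_snd.sub contDiffAt_const))
  refine ⟨?_, hsm.congr_of_eventuallyEq (hev2.mono fun a ha => ha.2)⟩
  refine ContinuousAt.congr ?_ (hev2.mono fun a ha => ha.1.symm)
  exact ContinuousAt.comp (f := fun a : A × ℝ => (Φ (ph e Γ (a.1, r₂), a.2 - r₂)).1)
    (e.continuousAt_symm ((hΦ' _ h3).2 _ hrI).1.1) hsm.continuousAt.fst

/-- Smooth dependence of geodesics on the parameter. -/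
theorem smoothN (n : ℕ) (hn : 2 ≤ n) [T2Space M] (h : IsRM g) {Γ : A × ℝ → M}
    (geo : ∀ v, IsGeodesicOn g (fun r => Γ (v, r)) univ) (v₀ : A)
    (hc : ContinuousAt (fun v => Γ (v, 0)) v₀)
    (hs : ∀ e ∈ atlas E M, Γ (v₀, 0) ∈ e.source → ContDiffAt ℝ n (fun v => ph e Γ (v, 0)) v₀)
    (r₀ : ℝ) : ContinuousAt Γ (v₀, r₀) ∧
      ∀ e ∈ atlas E M, Γ (v₀, r₀) ∈ e.source → ContDiffAt ℝ n (ph e Γ) (v₀, r₀) := by
  let S : Set ℝ := {r | ContinuousAt Γ (v₀, r) ∧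
    ∀ e ∈ atlas E M, Γ (v₀, r) ∈ e.source → ContDiffAt ℝ n (ph e Γ) (v₀, r)}
  have hloc : ∀ r₁, ∃ δ > 0, ∀ r₂ ∈ Metric.ball r₁ δ,
      (ContinuousAt (fun v => Γ (v, r₂)) v₀ ∧ ∀ e ∈ atlas E M, Γ (v₀, r₂) ∈ e.source →
        ContDiffAt ℝ n (fun v => ph e Γ (v, r₂)) v₀) → Metric.ball r₁ δ ⊆ S := by
    intro r₁
    have he := chart_mem_atlas E (Γ (v₀, r₁))
    obtain ⟨δ, hδ, hδ'⟩ := localN n hn h geo he v₀ r₁ (mem_chart_source E _)
    refine ⟨δ, hδ, fun r₂ hr₂ hh r hr => ?_⟩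
    obtain ⟨h1, h2⟩ := hδ' r₂ hr₂
    obtain ⟨h3, h4⟩ := h2 hh.1 (hh.2 _ he h1) r hr
    exact ⟨h3, fun e' he' h5 => changeN n geo he he' h3 (hδ' r hr).1 h5 h4⟩
  have hfix : ∀ r ∈ S, ContinuousAt (fun v => Γ (v, r)) v₀ ∧ ∀ e ∈ atlas E M,
      Γ (v₀, r) ∈ e.source → ContDiffAt ℝ n (fun v => ph e Γ (v, r)) v₀ := by
    intro r hr
    refine ⟨ContinuousAt.comp (f := fun v => (v, r)) hr.1
      (continuousAt_id.prodMk continuousAt_const), fun e he h1 => ?_⟩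
    exact ContDiffAt.comp (f := fun v => (v, r)) v₀ (hr.2 e he h1)
      (contDiffAt_id.prodMk contDiffAt_const)
  have h0 : (0 : ℝ) ∈ S := by
    obtain ⟨δ, hδ, hδ'⟩ := hloc 0
    exact hδ' 0 (Metric.mem_ball_self hδ) ⟨hc, hs⟩ (Metric.mem_ball_self hδ)
  have hS : IsClopen S := by
    constructor
    · rw [← isOpen_compl_iff, Metric.isOpen_iff]
      intro r₁ hr₁
      obtain ⟨δ, hδ, hδ'⟩ := hloc r₁
      exact ⟨δ, hδ, fun r₂ hr₂ h2 => hr₁ (hδ' r₂ hr₂ (hfix r₂ h2) (Metric.mem_ball_self hδ))⟩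
    · rw [Metric.isOpen_iff]
      intro r₁ hr₁
      obtain ⟨δ, hδ, hδ'⟩ := hloc r₁
      exact ⟨δ, hδ, hδ' r₁ (Metric.mem_ball_self hδ) (hfix r₁ hr₁)⟩
  have hr₀ : r₀ ∈ S := by
    rw [hS.eq_univ ⟨0, h0⟩]
    exact mem_univ _
  exact hr₀

end Vale.Agent.P234.JointAux
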