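import Vale.Agent.P234.Joint

/-! Differential of the exponential map and the Gauss lemma. -/

open scoped Manifold ContDiff Topology
open Set Filter

set_option linter.unusedSectionVars false

namespace Vale.Agent.P234

open Vale.Agent.P255

variable {E : Type} [NormedAddCommGroup E] [NormedSpace ℝ E] [FiniteDimensional ℝ E]
  {M : Type} [MetricSpace M] [CompactSpace M] [ChartedSpace E M] [IsManifold 𝓘(ℝ, E) ∞ M]
  {g : M → E →L[ℝ] E →L[ℝ] ℝ}
  {A : Type} [NormedAddCommGroup A] [NormedSpace ℝ A]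
  {B : Type} [NormedAddCommGroup B] [NormedSpace ℝ B]
  {e e' : OpenPartialHomeomorph M E}


/-- Chain rule along `t ↦ t • v`. -/
theorem RM.dM_ex_self (h : RM g) (x : M) (v : E) (t : ℝ) : dM E (ex g x) (t • v) v = vl g x v t := by
  have h1 : geo g x v = fun s : ℝ => ex g x (s • v) := funext fun s => h.geo_eq x v s
  have h2 : HasDerivAt (fun s : ℝ => s • v) v t := by
    simpa using (hasDerivAt_id t).smul_const v
  have h3 := dM_comp (X := ex g x) (φ := fun s : ℝ => s • v) (b := t)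
    (h.smP_ex x contDiffAt_id) h2.differentiableAt 1
  rw [fderiv_apply_one_eq_deriv, h2.deriv] at h3
  rw [vl, h1, ← h3]
  rfl

theorem RM.dM_ex_zero (h : RM g) (x : M) (κ : E) : dM E (ex g x) 0 κ = κ := by
  have h1 := h.dM_ex_self x κ 0
  rwa [zero_smul, h.vl_zero] at h1

/-- From `GeoFam.gauss` with `Γ (v, r) = geo g x v r` (`IsRM.geo_smooth`). -/
theorem RM.gauss (h : RM g) (x : M) (v κ : E) :
    g (ex g x v) (vl g x v 1) (dM E (ex g x) v κ) = g x v κ := by
  let Γ : E × ℝ → M := fun p => geo g x p.1 p.2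
  have hs : ∀ p, SmP E Γ p := fun p => ((smV_const x contDiffAt_fst).flow h contDiffAt_snd).1
  have hΓ : GeoFam g x Γ :=
    ⟨fun p => ContMDiffAt.of_le (hs p) le3_Geo3, fun v => (h.geo_spec x v).1,
      fun v => h.geo_zero x v, fun v => h.vl_zero x v⟩
  have h1 := hΓ.gauss h.toIsRM v κ 1
  have h2 : HasFDerivAt (fun w : E => ((w, 1) : E × ℝ)) (ContinuousLinearMap.inl ℝ E ℝ) v :=
    hasFDerivAt_prodMk_left v 1
  have h3 := dM_comp (X := Γ) (φ := fun w : E => ((w, 1) : E × ℝ)) (b := v) (hs _)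
    h2.differentiableAt κ
  have h4 : HasFDerivAt (fun r : ℝ => ((v, r) : E × ℝ)) (ContinuousLinearMap.inr ℝ E ℝ) 1 :=
    hasFDerivAt_prodMk_right v 1
  have h5 := dM_comp (X := Γ) (φ := fun r : ℝ => ((v, r) : E × ℝ)) (b := 1) (hs _)
    h4.differentiableAt 1
  rw [h2.fderiv] at h3
  rw [h4.fderiv] at h5
  rw [one_mul, pb] at h1
  rw [← h1]
  exact congrArg₂ (fun a b => g (ex g x v) a b) h5 h3

end Vale.Agent.P234
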