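import Vale.Agent.P234.Cpt
import Vale.Agent.P234.Gauss

/-! Local inverse of the exponential map at non-conjugate vectors. -/

open scoped Manifold ContDiff Topology
open Set Filter

set_option linter.unusedSectionVars false

namespace Vale.Agent.P234

open Vale.Agent.P255

variable {E : Type} [NormedAddCommGroup E] [NormedSpace ℝ E] [FiniteDimensional ℝ E]
  {M : Type} [MetricSpace M] [CompactSpace M] [ChartedSpace E M] [IsManifold 𝓘(ℝ, E) ∞ M]
  {g : M → E →L[ℝ] E →L[ℝ] ℝ}


namespace LocInvAux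

theorem inv {A : Type} [NormedAddCommGroup A] [NormedSpace ℝ A] [FiniteDimensional ℝ A]
    {F : A → A} {a : A} (hF : ∀ᶠ p in 𝓝 a, ContDiffAt ℝ ∞ F p)
    (hi : ∀ u, fderiv ℝ F a u = 0 → u = 0) : ∃ G : A → A, (∀ᶠ p in 𝓝 a, G (F p) = p) ∧
      ∀ᶠ q in 𝓝 (F a), F (G q) = q ∧ ContDiffAt ℝ ∞ G q := by
  have := FiniteDimensional.complete ℝ A
  have h0 := hF.self_of_nhds
  have h1 : fderiv ℝ F a ∈ range ((↑) : (A ≃L[ℝ] A) → A →L[ℝ] A) :=
    ⟨(LinearEquiv.ofInjectiveEndo (fderiv ℝ F a : A →ₗ[ℝ] A)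
      ((injective_iff_map_eq_zero _).2 hi)).toContinuousLinearEquiv, by ext u; rfl⟩
  have h2 := (h0.continuousAt_fderiv (by simp)).eventually
    (ContinuousLinearEquiv.isOpen.mem_nhds h1)
  obtain ⟨L, hL⟩ := h1
  have h3 : HasFDerivAt F (L : A →L[ℝ] A) a := hL ▸ (h0.differentiableAt (by simp)).hasFDerivAt
  obtain ⟨Φ, h4, h5⟩ : ∃ Φ : OpenPartialHomeomorph A A, ⇑Φ = F ∧ a ∈ Φ.source :=
    ⟨h0.toOpenPartialHomeomorph F h3 (by simp), rfl,
      h0.mem_toOpenPartialHomeomorph_source h3 (by simp)⟩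
  subst h4
  refine ⟨Φ.symm, Φ.eventually_left_inverse h5, ?_⟩
  filter_upwards [Φ.open_target.mem_nhds (Φ.map_source h5),
    (Φ.tendsto_symm h5).eventually (hF.and h2)] with q h6 ⟨h7, L', h8⟩
  exact ⟨Φ.right_inv h6, Φ.contDiffAt_symm (f₀' := L') h6
    (h8 ▸ (h7.differentiableAt (by simp)).hasFDerivAt) h7⟩

end LocInvAux

theorem RM.nc_zero (h : RM g) (x : M) : NC g x 0 := fun κ hκ => (h.dM_ex_zero x κ).symm.trans hκ

/-- Charts `e` at `x`, `e'` at `z = ex g x v`; `Fm p = (p.1, e' (ex g (e.symm p.1) (dS e p.1 p.2)))` is smooth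
at all points near `(e x, dC e x v)`, its derivative there is injective (first component, then `NC`), hence
an equivalence, and invertible nearby. `ContDiffAt.toOpenPartialHomeomorph`,
`OpenPartialHomeomorph.contDiffAt_symm`. Put `Lg x' y' = dS e (e x') (Fm.symm (e x', e' y')).2`. -/
theorem RM.exists_locInv (h : RM g) {x : M} {v : E} (hv : NC g x v) : ∃ Lg, LocInv g x v Lg := by
  obtain ⟨e, he, hx⟩ : ∃ e ∈ atlas E M, x ∈ e.source :=
    ⟨_, chart_mem_atlas E x, mem_chart_source E x⟩
  obtain ⟨e', he', hz⟩ : ∃ e ∈ atlas E M, ex g x v ∈ e.source :=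
    ⟨_, chart_mem_atlas E _, mem_chart_source E _⟩
  have h1 : ∀ p : E × E, p.1 ∈ e.target →
      SmP E (fun p : E × E => ex g (e.symm p.1) (dS e p.1 p.2)) p := fun p hp =>
    (smV_symm he contDiffAt_fst hp contDiffAt_snd).ex h
  have h2 : ex g (e.symm (e x)) (dS e (e x) (dC e x v)) = ex g x v := by
    rw [e.left_inv hx, dS_dC he hx]
  have h3 : ∀ᶠ p : E × E in 𝓝 (e x, dC e x v), p.1 ∈ e.target ∧
      ex g (e.symm p.1) (dS e p.1 p.2) ∈ e'.source :=
    (continuousAt_fst.eventually (e.open_target.mem_nhds (e.map_source hx))).and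
      ((h1 (e x, dC e x v) (e.map_source hx)).continuousAt.eventually
        (e'.open_source.mem_nhds (mem_of_eq_of_mem h2 hz)))
  obtain ⟨F, hF⟩ : ∃ F : E × E → E × E,
      F = fun p => (p.1, e' (ex g (e.symm p.1) (dS e p.1 p.2))) := ⟨_, rfl⟩
  have h4 : ∀ᶠ p in 𝓝 (e x, dC e x v), ContDiffAt ℝ ∞ F p := h3.mono fun p hp =>
    hF ▸ contDiffAt_fst.prodMk ((h1 p hp.1).chart he' hp.2)
  have h5 : F (e x, dC e x v) = (e x, e' (ex g x v)) := by simp only [hF, h2]
  obtain ⟨G, g1, g2⟩ := LocInvAux.inv h4 fun u hu => by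
    have hd := (h4.self_of_nhds.differentiableAt (by simp)).hasFDerivAt
    have a1 : u.1 = 0 := by
      have a2 := hd.fst.unique (show HasFDerivAt (fun p => (F p).1) (ContinuousLinearMap.fst ℝ E E)
        (e x, dC e x v) by rw [hF]; exact hasFDerivAt_fst)
      simpa [hu] using (congrArg (fun T : E × E →L[ℝ] E => T u) a2).symm
    have a2 : HasFDerivAt (fun w : E => (e x, dC e x w))
        ((0 : E →L[ℝ] E).prod (dC e x)) v := (hasFDerivAt_const _ _).prodMk (dC e x).hasFDerivAt
    have a3 := (HasFDerivAt.comp (f := fun w : E => (e x, dC e x w)) v hd a2).snd.fderiv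
    have a4 : (fun w : E => ((F ∘ fun w : E => (e x, dC e x w)) w).2) =
        fun w => e' (ex g x w) := by
      funext w
      simp only [hF, Function.comp, e.left_inv hx, dS_dC he hx]
    have a5 : dC e x (dS e (e x) u.2) = u.2 := by
      simpa only [e.left_inv hx] using dC_dS he (e.map_source hx) u.2
    have a6 := (h.smP_ex x (V := fun w : E => w) (a := v) contDiffAt_id).dC_dM he' hz
      (dS e (e x) u.2)
    have a7 : ((0 : E), u.2) = u := Prod.ext a1.symm rfl
    rw [← a4, a3] at a6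
    simp only [ContinuousLinearMap.comp_apply, ContinuousLinearMap.prod_apply,
      zero_apply, a5, a7, hu, map_zero] at a6
    have a8 := hv _ (dC_injective he' hz (a6.trans (map_zero _).symm))
    rw [a8, map_zero] at a5
    exact Prod.ext a1 a5.symm
  have g3 : Tendsto G (𝓝 (F (e x, dC e x v))) (𝓝 (e x, dC e x v)) := by
    simpa only [ContinuousAt, g1.self_of_nhds] using g2.self_of_nhds.2.continuousAt
  have g4 : Tendsto (fun p : M × M => (e p.1, e' p.2)) (𝓝 (x, ex g x v))
      (𝓝 (F (e x, dC e x v))) := h5 ▸ (e.continuousAt hx).prodMap' (e'.continuousAt hz)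
  have g5 : ∀ᶠ p : M × M in 𝓝 (x, ex g x v), p.1 ∈ e.source ∧ p.2 ∈ e'.source :=
    (continuousAt_fst.eventually (e.open_source.mem_nhds hx)).and
      (continuousAt_snd.eventually (e'.open_source.mem_nhds hz))
  refine ⟨fun x' y' => dS e (e x') (G (e x', e' y')).2, ?_, ?_, ?_⟩
  · filter_upwards [g4.eventually g2, (g3.comp g4).eventually h3, g5] with p b1 b2 b3
    have b4 := b1.1
    rw [hF, Prod.ext_iff] at b4
    have b5 := e'.injOn b2.2 b3.2 b4.2
    rw [Function.comp_apply, show (G (e p.1, e' p.2)).1 = e p.1 from b4.1, e.left_inv b3.1] at b5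
    exact b5
  · filter_upwards [g4.eventually g2, g5] with p b1 b3 A _ _ X Y a hX hY b4 b5
    rw [← b4, ← b5] at b1 b3
    exact smV_dS he hX b3.1 (ContDiffAt.comp (f := fun b => (e (X b), e' (Y b))) a b1.2
      ((hX.chart he b3.1).prodMk (hY.chart he' b3.2))).snd
  · refine eventually_of_chart he hx
      (P := fun x' w => dS e (e x') (G (e x', e' (ex g x' w))).2 = w) ?_
    filter_upwards [g1, h3] with p b1 b2
    rw [hF] at b1
    rw [e.right_inv b2.1, b1]

theorem LocInv.self {x : M} {v : E} {Lg : M → M → E} (hL : LocInv g x v Lg) :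
    Lg x (ex g x v) = v := by
  simpa using hL.left.self_of_nhds

/-- All three properties propagate to nearby vectors (`eventually_eventually_nhds`, `CtV.ex`). -/
theorem LocInv.eventually (h : RM g) {x : M} {v : E} {Lg : M → M → E} (hL : LocInv g x v Lg) :
    ∀ᶠ p in 𝓝 (tv x v), LocInv g (pt p) (vc p) Lg := by
  have hc : ContinuousAt (fun p : TB E M => (pt p, ex g (pt p) (vc p))) (tv x v) :=
    continuous_pt.continuousAt.prodMk ((ctV_id _).ex h)
  filter_upwards [hc.eventually hL.right.eventually_nhds, hc.eventually hL.smooth.eventually_nhds,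
    hL.left.eventually_nhds] with p h1 h2 h3 using ⟨h1, h2, h3⟩

/-- Differentiate `Lg x (ex g x w) = w` near `v` in a chart at `ex g x v`. -/
theorem LocInv.nc (h : RM g) {x : M} {v : E} {Lg : M → M → E} (hL : LocInv g x v Lg) : NC g x v := by
  intro κ hκ
  obtain ⟨e, he, hz⟩ : ∃ e ∈ atlas E M, ex g x v ∈ e.source :=
    ⟨_, chart_mem_atlas E _, mem_chart_source E _⟩
  have h1 := h.smP_ex x (V := fun w : E => w) (a := v) contDiffAt_id
  have h2 : ContDiffAt ℝ ∞ (fun y => Lg x (e.symm y)) (e (ex g x v)) :=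
    (hL.smooth.self_of_nhds E (fun _ => x) (fun y => e.symm y) _ (smP_const x _)
      (smP_symm he contDiffAt_id (e.map_source hz)) rfl (e.left_inv hz)).of_const
  have h3 := HasFDerivAt.comp (f := fun w => e (ex g x w)) v
    (h2.differentiableAt (by simp)).hasFDerivAt
    ((h1.chart he hz).differentiableAt (by simp)).hasFDerivAt
  have h4 : (fun w : E => w) =ᶠ[𝓝 v] (fun y => Lg x (e.symm y)) ∘ fun w => e (ex g x w) := by
    filter_upwards [Tendsto.eventually (ctV_const x (V := fun w : E => w) (t := v) continuousAt_id)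
      hL.left, h1.continuousAt.eventually (e.open_source.mem_nhds hz)] with w h4 h5
    rw [Function.comp_apply, e.left_inv h5]
    exact h4.symm
  have h5 := congrArg (fun T : E →L[ℝ] E => T κ)
    ((hasFDerivAt_id v).unique (h3.congr_of_eventuallyEq h4))
  have h6 := h1.dC_dM he hz κ
  rw [show dM E (fun b => ex g x b) v κ = 0 from hκ, map_zero] at h6
  simpa [← h6] using h5

theorem RM.nc_open (h : RM g) {x : M} {v : E} (hv : NC g x v) :
    ∀ᶠ p in 𝓝 (tv x v), NC g (pt p) (vc p) := by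
  obtain ⟨Lg, hL⟩ := h.exists_locInv hv
  exact (hL.eventually h).mono fun p hp => hp.nc h

theorem LocInv.smF (h : RM g) {x : M} {v : E} {Lg : M → M → E} (hL : LocInv g x v Lg) :
    ∀ᶠ p in 𝓝 (x, ex g x v), SmF E (fun x y => g x (Lg x y) (Lg x y) / 2) p.1 p.2 := by
  filter_upwards [hL.smooth] with p hp
  have h1 := mem_chart_source E p.1
  have h2 := mem_chart_source E p.2
  have h3 := hp (E × E) (fun q => (chartAt E p.1).symm q.1) (fun q => (chartAt E p.2).symm q.2)
    (chartAt E p.1 p.1, chartAt E p.2 p.2)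
    (smP_symm (chart_mem_atlas E _) contDiffAt_fst ((chartAt E p.1).map_source h1))
    (smP_symm (chart_mem_atlas E _) contDiffAt_snd ((chartAt E p.2).map_source h2))
    ((chartAt E p.1).left_inv h1) ((chartAt E p.2).left_inv h2)
  exact SmF.of_chart (chart_mem_atlas E _) (chart_mem_atlas E _) h1 h2
    ((h3.inner h h3).div_const 2)

end Vale.Agent.P234
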