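import Vale.Agent.P234.Nonconj

/-! Smoothness of the cost on the injectivity domain. -/

open scoped Manifold ContDiff Topology
open Set Filter

set_option linter.unusedSectionVars false

namespace Vale.Agent.P234

open Vale.Agent.P255

variable {E : Type} [NormedAddCommGroup E] [NormedSpace ℝ E] [FiniteDimensional ℝ E]
  {M : Type} [MetricSpace M] [CompactSpace M] [ChartedSpace E M] [IsManifold 𝓘(ℝ, E) ∞ M]
  {g : M → E →L[ℝ] E →L[ℝ] ℝ}


/-- `IsCompact.eventually_forall_of_forall_eventually` on `isCompact_TB D`, `mn_unique`,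
`isClosed_mn`. -/
theorem RM.mn_near (h : RM g) {x : M} {v : E} (hv : v ∈ Inj g x) {W : Set (TB E M)}
    (hW : W ∈ 𝓝 (tv x v)) :
    ∀ᶠ p in 𝓝 (x, ex g x v), ∀ w, Mn g p.1 w → ex g p.1 w = p.2 → tv p.1 w ∈ W := by
  obtain ⟨D, -, hD⟩ := exists_diam (M := M)
  have hex : Continuous fun q : TB E M => ex g (pt q) (vc q) :=
    continuous_iff_continuousAt.2 fun q => (ctV_id q).ex h
  have hC : IsClosed {z : (M × M) × TB E M | Mn g (pt z.2) (vc z.2) ∧ pt z.2 = z.1.1 ∧
      ex g (pt z.2) (vc z.2) = z.1.2} :=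
    (h.isClosed_mn.preimage continuous_snd).inter
      ((isClosed_eq (continuous_pt.comp continuous_snd) continuous_fst.fst).inter
        (isClosed_eq (hex.comp continuous_snd) continuous_fst.snd))
  have key := (h.isCompact_TB D).eventually_forall_of_forall_eventually (x₀ := (x, ex g x v))
    (P := fun p q => Mn g (pt q) (vc q) ∧ pt q = p.1 ∧ ex g (pt q) (vc q) = p.2 → q ∈ W)
    fun q _ => by
      by_cases hq : Mn g (pt q) (vc q) ∧ pt q = x ∧ ex g (pt q) (vc q) = ex g x v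
      · obtain ⟨h1, rfl, h3⟩ := hq
        rw [← h.mn_unique hv h1 h3, tv_pt_vc] at hW
        filter_upwards [continuousAt_snd.preimage_mem_nhds
          (show W ∈ 𝓝 ((pt q, ex g (pt q) v), q).2 from hW)] with z hz _ using hz
      · filter_upwards [hC.isOpen_compl.mem_nhds
          (show ((x, ex g x v), q) ∈ _ from hq)] with z hz h1 using absurd h1 hz
  filter_upwards [key] with p hp w h1 h2
  refine hp (tv p.1 w) ?_ ⟨h1, rfl, h2⟩
  show g p.1 w w ≤ D
  rw [← h.nr_sq, ← show _ = nr g p.1 w from h1]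
  exact hD _ _

theorem LocInv.cost_eq (h : RM g) {x : M} {v : E} {Lg : M → M → E} (hL : LocInv g x v Lg)
    (hv : v ∈ Inj g x) : ∀ᶠ p in 𝓝 (x, ex g x v),
      Mn g p.1 (Lg p.1 p.2) ∧ cost p.1 p.2 = g p.1 (Lg p.1 p.2) (Lg p.1 p.2) / 2 := by
  filter_upwards [h.mn_near hv hL.left] with p hp
  obtain ⟨w, h1, h2⟩ := h.hopf_rinow p.1 p.2
  have h3 : Lg p.1 (ex g p.1 w) = w := hp w h1 h2
  rw [← h2, h3]
  exact ⟨h1, h.cost_of_mn h1⟩

theorem RM.smF_inj (h : RM g) {x : M} {v : E} (hv : v ∈ Inj g x) : SmF E cost x (ex g x v) := by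
  obtain ⟨Lg, hL⟩ := h.exists_locInv (h.nc_of_inj hv)
  exact (hL.smF h).self_of_nhds.congr ((hL.cost_eq h hv).mono fun p hp => hp.2)

theorem RM.inj_open (h : RM g) {x : M} {v : E} (hv : v ∈ Inj g x) : ∀ᶠ w in 𝓝 v, w ∈ Inj g x := by
  obtain ⟨a, ha, h1⟩ := mem_inj_iff.1 hv
  have h2 := h.inj_of_mn h1 (s := (1 + a) / 2 / a) (by positivity)
    ((div_lt_one (by linarith)).2 (by linarith))
  rw [smul_smul, div_mul_cancel₀ _ (by linarith)] at h2
  obtain ⟨Lg, hL⟩ := h.exists_locInv (h.nc_of_inj h2)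
  have hc : ContinuousAt (fun w : E => ((1 + a) / 2) • w) v := by fun_prop
  have h3 : ContinuousAt (fun w : E => (x, ex g x (((1 + a) / 2) • w))) v :=
    continuousAt_const.prodMk ((ctV_const x hc).ex h)
  filter_upwards [h3.eventually (hL.cost_eq h h2), (ctV_const x hc).eventually hL.left]
    with w h4 h5
  have h6 : Lg x (ex g x (((1 + a) / 2) • w)) = ((1 + a) / 2) • w := h5
  exact mem_inj_iff.2 ⟨(1 + a) / 2, by linarith, h6 ▸ h4.1⟩

/-- `hess_bdd` for the local branch of the cost, `LocInv.eventually`, `cost_eq`, `hs_congr`. -/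
theorem RM.hess_unif (h : RM g) {x : M} {v : E} (hv : NC g x v) : ∃ K, ∀ᶠ p in 𝓝 (tv x v),
    vc p ∈ Inj g (pt p) → HB g cost (pt p) (ex g (pt p) (vc p)) K := by
  obtain ⟨Lg, hL⟩ := h.exists_locInv hv
  obtain ⟨K, hK⟩ := h.hess_bdd (hL.smF h).self_of_nhds
  have h1 : ContinuousAt (fun q : TB E M => (pt q, ex g (pt q) (vc q))) (tv x v) :=
    continuous_pt.continuousAt.prodMk ((ctV_id _).ex h)
  refine ⟨K, ?_⟩
  filter_upwards [h1.eventually hK, hL.eventually h] with q h2 h3 h4 a b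
  rw [h.hs_congr (C' := fun x y => g x (Lg x y) (Lg x y) / 2)
    ((h3.cost_eq h h4).mono fun p hp => hp.2)]
  exact h2 a b

end Vale.Agent.P234
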