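import Vale.Agent.P234.FV

/-! Second variation along a kernel direction. -/

open scoped Manifold ContDiff Topology
open Set Filter

set_option linter.unusedSectionVars false

namespace Vale.Agent.P234

open Vale.Agent.P255

variable {E : Type} [NormedAddCommGroup E] [NormedSpace ℝ E] [FiniteDimensional ℝ E]
  {M : Type} [MetricSpace M] [CompactSpace M] [ChartedSpace E M] [IsManifold 𝓘(ℝ, E) ∞ M]
  {g : M → E →L[ℝ] E →L[ℝ] ℝ}


theorem RM.ker_orth (h : RM g) {x : M} {w κ : E} (hκ : dM E (ex g x) w κ = 0) : g x w κ = 0 := by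
  rw [← h.gauss, hκ, map_zero]

namespace KerAux

theorem two_le : (2 : WithTop ℕ∞) ≤ ∞ := WithTop.coe_le_coe.2 (le_top (a := (2 : ℕ∞)))

theorem touch {G : ℝ × E → ℝ} {β : ℝ → E} {F : ℝ → ℝ} (hG : ContDiffAt ℝ 2 G (0, β 0))
    (hβ : ContDiffAt ℝ 2 β 0) (hβ0 : deriv β 0 = 0) (hF : ContDiffAt ℝ 2 F 0)
    (h0 : G (0, β 0) = F 0) (hle : ∀ᶠ s in 𝓝 (0 : ℝ), G (s, β s) ≤ F s) :
    deriv (deriv fun s : ℝ => G (s, β 0)) 0 +
      fderiv ℝ (fun b => G (0, b)) (β 0) (deriv (deriv β) 0) ≤ deriv (deriv F) 0 := by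
  have hγ : ContDiffAt ℝ 2 (fun s : ℝ => (s, β s)) 0 := contDiffAt_id.prodMk hβ
  have h1 := deriv2_le_of_le (f := fun s => G (s, β s)) (hG.comp 0 hγ) hF h0 hle
  have h2 := deriv2_comp (f := G) (β := fun s : ℝ => (s, β s)) (s := 0) hG hγ
  have e1 : (deriv fun s : ℝ => (s, β s)) =ᶠ[𝓝 0] fun s => (1, deriv β s) := by
    filter_upwards [hβ.eventually (by simp)] with s hs
    exact ((hasDerivAt_id' s).prodMk (hs.differentiableAt (by norm_num)).hasDerivAt).deriv
  have d2 : HasDerivAt (deriv β) (deriv (deriv β) 0) 0 :=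
    ((hβ.derivWithin (m := 1) (by norm_num)).differentiableAt (by norm_num)).hasDerivAt
  rw [e1.deriv_eq, e1.eq_of_nhds, ((hasDerivAt_const (0 : ℝ) (1 : ℝ)).prodMk d2).deriv, hβ0] at h2
  have h3 := deriv2_line hG ((1 : ℝ), (0 : E))
  simp only [Prod.smul_mk, smul_eq_mul, mul_one, smul_zero, Prod.mk_add_mk, zero_add,
    add_zero] at h3
  have h4 : fderiv ℝ (fun b => G (0, b)) (β 0) (deriv (deriv β) 0) =
      fderiv ℝ G (0, β 0) (0, deriv (deriv β) 0) := by
    have := ((hG.differentiableAt (by norm_num)).hasFDerivAt.comp (β 0)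
      (hasFDerivAt_prodMk_right (𝕜 := ℝ) (0 : ℝ) (β 0))).fderiv
    exact congrArg (fun T : E →L[ℝ] ℝ => T (deriv (deriv β) 0)) this
  rw [h3, h4, ← h2]
  exact h1

theorem deriv2_quad (T : E →L[ℝ] E →L[ℝ] ℝ) (w κ : E) :
    deriv (deriv fun s : ℝ => T (w + s • κ) (w + s • κ) / 2) 0 = T κ κ := by
  have l : ∀ s : ℝ, HasDerivAt (fun s : ℝ => w + s • κ) κ s := fun s => by
    simpa using ((hasDerivAt_id s).smul_const κ).const_add w
  have l2 : ∀ s : ℝ, HasDerivAt (fun s : ℝ => T (w + s • κ)) (T κ) s := fun s =>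
    T.hasFDerivAt.comp_hasDerivAt s (l s)
  have e : (deriv fun s : ℝ => T (w + s • κ) (w + s • κ) / 2) =
      fun s => (T κ (w + s • κ) + T (w + s • κ) κ) / 2 := funext fun s =>
    (((l2 s).clm_apply (l s)).div_const 2).deriv
  rw [e]
  have := ((((T κ).hasFDerivAt.comp_hasDerivAt (0 : ℝ) (l 0)).add
    ((l2 0).clm_apply (hasDerivAt_const (0 : ℝ) κ))).div_const 2).deriv
  simp only [map_zero, add_zero] at this
  rw [show T κ κ = (T κ κ + T κ κ) / 2 by ring]
  exact this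

/-- Derivative of the Gauss identity. -/
theorem gauss2 (h : RM g) {x : M} {w κ : E} (hκ : dM E (ex g x) w κ = 0)
    {e : OpenPartialHomeomorph M E} (he : e ∈ atlas E M) (hm : ex g x w ∈ e.source) :
    deriv (fun r : ℝ => e (ex g x (w + r • κ))) 0 = 0 ∧
      gc g e (e (ex g x w)) (dC e (ex g x w) (vl g x w 1))
        (deriv (deriv fun r : ℝ => e (ex g x (w + r • κ))) 0) = g x κ κ := by
  have l : ∀ s : ℝ, HasDerivAt (fun s : ℝ => w + s • κ) κ s := fun s => by
    simpa using ((hasDerivAt_id s).smul_const κ).const_add w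
  have hV : ∀ r : ℝ, SmV (fun r : ℝ => ex g x (w + r • κ)) (fun r => vl g x (w + r • κ) 1) r :=
    fun r => (smV_const x (V := fun r : ℝ => w + r • κ) (by fun_prop)).flow1 h
  have hm0 : ex g x (w + (0 : ℝ) • κ) ∈ e.source := by simpa using hm
  set β : ℝ → E := fun r => e (ex g x (w + r • κ)) with hβ
  have hd : ∀ r : ℝ, ex g x (w + r • κ) ∈ e.source →
      deriv β r = dC e (ex g x (w + r • κ)) (dM E (ex g x) (w + r • κ) κ) := by
    intro r hr
    have h1 := (hV r).1.dC_dM he hr 1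
    have h2 := dM_comp (X := ex g x) (φ := fun r : ℝ => w + r • κ) (b := r)
      (h.smP_ex x contDiffAt_id) (l r).differentiableAt 1
    rw [fderiv_apply_one_eq_deriv, (l r).deriv] at h2
    rw [h2, fderiv_apply_one_eq_deriv] at h1
    exact h1.symm
  have hβ0 : deriv β 0 = 0 := by
    rw [hd 0 hm0]
    simp only [zero_smul, add_zero, hκ, map_zero]
  refine ⟨hβ0, ?_⟩
  have e1 : (fun r : ℝ => g x (w + r • κ) κ) =ᶠ[𝓝 0] fun r =>
      gc g e (β r) (dC e (ex g x (w + r • κ)) (vl g x (w + r • κ) 1)) (deriv β r) := by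
    filter_upwards [(hV 0).1.continuousAt.preimage_mem_nhds (e.open_source.mem_nhds hm0)] with r hr
    rw [hd r hr, gc_dC g he hr, h.gauss]
  have cβ : ContDiffAt ℝ ∞ β 0 := (hV 0).1.chart he hm0
  have d2 : HasDerivAt (deriv β) (deriv (deriv β) 0) 0 :=
    (((cβ.of_le two_le).derivWithin (m := 1) (by norm_num)).differentiableAt
      (by norm_num)).hasDerivAt
  have c1 : ContDiffAt ℝ ∞ (gc g e) (β 0) :=
    (h.smooth e he).contDiffAt (e.open_target.mem_nhds (e.map_source hm0))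
  have c2 : ContDiffAt ℝ ∞
      (fun r => gc g e (β r) (dC e (ex g x (w + r • κ)) (vl g x (w + r • κ) 1))) 0 :=
    (ContDiffAt.comp (f := β) 0 c1 cβ).clm_apply ((hV 0).2 e he hm0)
  have d3 := ((c2.differentiableAt (by simp)).hasDerivAt.clm_apply d2).deriv
  have d4 := (((g x).hasFDerivAt.comp_hasDerivAt (0 : ℝ) (l 0)).clm_apply
    (hasDerivAt_const (0 : ℝ) κ)).deriv
  simp only [Function.comp_def, map_zero, add_zero] at d4
  rw [← e1.deriv_eq, d4, hβ0, map_zero, zero_add] at d3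
  rw [d3]
  simp only [hβ, zero_smul, add_zero]

end KerAux

/-- `m s = ex g x ((1 - τ) • (w + s • κ))`, `y r = ex g x (w + r • κ)`, chart `e'` at `y 0`,
`β r = e' (y r)`, `β' 0 = 0`. `C (s, b) = cost (m s) (e'.symm b) / τ`. `C (s, β s) ≤ τ g (w + sκ)(w + sκ) / 2`
with equality at `0` (`cost_ex_ex`, `mn_dist`), so `deriv2_comp` with the curve `s ↦ (s, β s)` gives
`C_ss + D_b C (β'' 0) ≤ τ g κ κ`. `D_b C (0, β 0) = gc (β 0) ũ ·`, `ũ = dC e' (vl g x w 1)` (`fv_fam` at
`y 0` with the vector `τ • -vl g x w 1`). Differentiating the Gauss identity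
`g x (w + rκ) κ = gc (β r) (ũ r) (β' r)` at `0` gives `gc (β 0) ũ (β'' 0) = g κ κ`. -/
theorem RM.ker_second (h : RM g) {x : M} {w κ : E} (hw : Mn g x w) (hκ : dM E (ex g x) w κ = 0)
    {τ : ℝ} (h0 : 0 < τ) (h1 : τ < 1) (hs : SmF E cost (ex g x ((1 - τ) • w)) (ex g x w)) :
    deriv (deriv fun s : ℝ => (1 - τ) * g x (w + s • κ) (w + s • κ) / 2 +
      cost (ex g x ((1 - τ) • (w + s • κ))) (ex g x w) / τ) 0 ≤ 0 := by
  have he := chart_mem_atlas E (ex g x w)
  have hm := mem_chart_source E (ex g x w)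
  set e := chartAt E (ex g x w)
  obtain ⟨k1, k2⟩ := KerAux.gauss2 h hκ he hm
  set β : ℝ → E := fun r => e (ex g x (w + r • κ)) with hβ
  have hm0 : ex g x (w + (0 : ℝ) • κ) ∈ e.source := by simpa using hm
  have b0 : β 0 = e (ex g x w) := by simp [hβ]
  have b1 : e.symm (β 0) = ex g x w := by rw [b0, e.left_inv hm]
  have hy : SmP E (fun r : ℝ => ex g x (w + r • κ)) 0 := h.smP_ex x (by fun_prop)
  have cβ : ContDiffAt ℝ ∞ β 0 := hy.chart he hm0
  have ht : β 0 ∈ e.target := e.map_source hm0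
  have hC : ContDiffAt ℝ ∞
      (fun p : ℝ × E => cost (ex g x ((1 - τ) • (w + p.1 • κ))) (e.symm p.2)) (0, β 0) :=
    SmF.comp (X := fun p : ℝ × E => ex g x ((1 - τ) • (w + p.1 • κ)))
      (Y := fun p : ℝ × E => e.symm p.2) (by simpa only [b1, zero_smul, add_zero] using hs)
      (h.smP_ex x (by fun_prop)) (smP_symm he contDiffAt_snd ht)
  have hG : ContDiffAt ℝ ∞ (fun p : ℝ × E => (1 - τ) * g x (w + p.1 • κ) (w + p.1 • κ) / 2 +
      cost (ex g x ((1 - τ) • (w + p.1 • κ))) (e.symm p.2) / τ) (0, β 0) :=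
    ContDiffAt.add (by fun_prop) (hC.div_const τ)
  have key := KerAux.touch (F := fun s : ℝ => g x (w + s • κ) (w + s • κ) / 2)
    (hG.of_le KerAux.two_le) (cβ.of_le KerAux.two_le) k1 (by fun_prop) (by
      have h2 := h.mn_dist hw (s := 1 - τ) (t := 1) (by linarith) (by linarith) le_rfl
      simp only [b1, zero_smul, add_zero, cost]
      rw [one_smul] at h2
      rw [h2, mul_pow, h.nr_sq]
      field_simp
      ring) (by
      filter_upwards [hy.continuousAt.preimage_mem_nhds (e.open_source.mem_nhds hm0)] with s hs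
      have h2 := h.cost_ex_ex x (w + s • κ) (1 - τ) 1
      rw [one_smul] at h2
      simp only [hβ]
      rw [e.left_inv hs]
      have h3 : cost (ex g x ((1 - τ) • (w + s • κ))) (ex g x (w + s • κ)) / τ ≤
          τ * g x (w + s • κ) (w + s • κ) / 2 := by
        rw [div_le_iff₀ h0]
        refine h2.trans (le_of_eq ?_)
        ring
      linarith)
  rw [KerAux.deriv2_quad] at key
  simp only [b1, zero_smul, add_zero] at key
  have hb := (h.inj_back hw h0.le h1).2
  have hf := h.fv_fam (x := ex g x w) (v := τ • -vl g x w 1)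
    (h.mn_smul (h.mn_back hw) h0.le h1.le) (by rw [hb]; exact hs.swap)
    (X := fun b => e.symm b) (a := β 0) (smP_symm he contDiffAt_id ht) b1 (deriv (deriv β) 0)
  rw [hb] at hf
  have hd : DifferentiableAt ℝ (fun b => cost (e.symm b) (ex g x ((1 - τ) • w))) (β 0) :=
    (SmF.comp (X := fun b => e.symm b) (Y := fun _ => ex g x ((1 - τ) • w))
      (by rw [b1]; exact hs.swap) (smP_symm he contDiffAt_id ht)
      (smP_const _ _)).differentiableAt (by simp)
  have e2 : (fun b => (1 - τ) * g x w w / 2 + cost (ex g x ((1 - τ) • w)) (e.symm b) / τ) =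
      fun b => (1 - τ) * g x w w / 2 + τ⁻¹ * cost (e.symm b) (ex g x ((1 - τ) • w)) := by
    funext b
    rw [cost_comm, div_eq_inv_mul (cost _ _)]
  rw [e2, ((hd.hasFDerivAt.const_mul τ⁻¹).const_add _).fderiv, smul_apply, hf] at key
  rw [gc_apply, dS_dC he hm, e.left_inv hm, ← b0] at k2
  have k3 : dM E (fun b => e.symm b) (β 0) (deriv (deriv β) 0) =
    dS e (β 0) (deriv (deriv β) 0) := rfl
  rw [k3] at key
  simp only [map_smul, map_neg, smul_apply, neg_apply, k2, smul_eq_mul] at key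
  have : τ⁻¹ * -(τ * -g x κ κ) = g x κ κ := by field_simp
  linarith


end Vale.Agent.P234
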