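import Vale.Agent.P234.HR

/-! The gap inequality. -/

open scoped Manifold ContDiff Topology
open Set Filter

set_option linter.unusedSectionVars false

namespace Vale.Agent.P234

open Vale.Agent.P255

variable {E : Type} [NormedAddCommGroup E] [NormedSpace ℝ E] [FiniteDimensional ℝ E]
  {M : Type} [MetricSpace M] [CompactSpace M] [ChartedSpace E M] [IsManifold 𝓘(ℝ, E) ∞ M]
  {g : M → E →L[ℝ] E →L[ℝ] ℝ}


namespace GapAux

theorem chart_bound (h : RM g) {e e' : OpenPartialHomeomorph M E} (he : e ∈ atlas E M)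
    (he' : e' ∈ atlas E M) {x : M} {v : E} (hx : x ∈ e.source) (hz : ex g x v ∈ e'.source) :
    ∃ K ≥ 0, ∀ᶠ p in 𝓝 (tv x v), ∀ κ, ‖dC e' (ex g (pt p) (vc p)) (dM E (ex g (pt p)) (vc p) κ)‖ ≤
      K * ‖dC e (pt p) κ‖ := by
  have h1 := (smV_symm (A := E × E) (a := (e x, dC e x v)) he (β := fun p => p.1)
    (W := fun p => p.2) contDiffAt_fst (e.map_source hx) contDiffAt_snd).ex h
  have h2 : ex g (e.symm (e x)) (dS e (e x) (dC e x v)) ∈ e'.source := by
    rwa [e.left_inv hx, dS_dC he hx]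
  have h3 := h1.chart he' h2
  set F : E × E → E := fun p => e' (ex g (e.symm p.1) (dS e p.1 p.2)) with hF
  refine ⟨‖fderiv ℝ F (e x, dC e x v)‖ + 1, by positivity, ?_⟩
  refine eventually_of_chart he hx (P := fun y u => ∀ κ, ‖dC e' (ex g y u) (dM E (ex g y) u κ)‖ ≤
    (‖fderiv ℝ F (e x, dC e x v)‖ + 1) * ‖dC e y κ‖) ?_
  have h4 : ContDiffAt ℝ 1 F (e x, dC e x v) := h3.of_le (by simp)
  have h5 := (h4.continuousAt_fderiv (by simp)).norm.eventually_lt_const (lt_add_one _)
  filter_upwards [h4.eventually (by simp), h5,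
    h1.continuousAt.preimage_mem_nhds (e'.open_source.mem_nhds h2),
    continuousAt_fst.preimage_mem_nhds (e.open_target.mem_nhds (e.map_source hx))]
    with z h6 h7 h8 h9 κ
  have h10 : SmP E (ex g (e.symm z.1)) (dS e z.1 z.2) := h.smP_ex _ contDiffAt_id
  have h11 : dS e z.1 (dC e (e.symm z.1) κ) = κ := by
    have := dS_dC he (e.map_target h9) κ
    rwa [e.right_inv h9] at this
  have h12 := (((h10.chart he' h8).differentiableAt (by simp)).hasFDerivAt).comp z.2
    (dS e z.1).hasFDerivAt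
  have h13 := ((h6.differentiableAt (by simp)).hasFDerivAt).comp z.2
    (hasFDerivAt_prodMk_right (𝕜 := ℝ) z.1 z.2)
  have h14 := congrArg (fun T : E →L[ℝ] E => T (dC e (e.symm z.1) κ)) (h12.unique h13)
  simp only [ContinuousLinearMap.comp_apply, h11] at h14
  rw [h10.dC_dM he' h8, h14]
  refine (ContinuousLinearMap.le_opNorm _ _).trans ?_
  have h15 : ‖ContinuousLinearMap.inr ℝ E E (dC e (e.symm z.1) κ)‖ = ‖dC e (e.symm z.1) κ‖ := by
    simp
  rw [h15]
  gcongr

theorem bound (h : RM g) (R : ℝ) : ∃ Λ > 0, ∀ m a, g m a a ≤ R → ∀ κ,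
    nr g (ex g m a) (dM E (ex g m) a κ) ≤ Λ * nr g m κ := by
  obtain ⟨Λ, h0, h1⟩ := unif_of_compact (h.isCompact_TB R) (P := fun p Λ => ∀ κ,
    nr g (ex g (pt p) (vc p)) (dM E (ex g (pt p)) (vc p) κ) ≤ Λ * nr g (pt p) κ)
    (fun p C C' hC hp κ => (hp κ).trans (mul_le_mul_of_nonneg_right hC (nr_nonneg _ _))) (by
      intro p _
      have he := chart_mem_atlas E (pt p)
      have hx := mem_chart_source E (pt p)
      have he' := chart_mem_atlas E (ex g (pt p) (vc p))
      have hz := mem_chart_source E (ex g (pt p) (vc p))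
      obtain ⟨K, hK, h2⟩ := chart_bound h he he' hx hz
      obtain ⟨K₁, hK₁, h3⟩ := h.chart_coercive he hx
      obtain ⟨K₂, hK₂, h4⟩ := h.chart_coercive he' hz
      refine ⟨K₂ * K * K₁, ?_⟩
      filter_upwards [h2, continuous_pt.continuousAt.eventually h3,
        ((ctV_id p).ex h).eventually h4] with q h5 h6 h7 κ
      calc _ ≤ K₂ * (K * (K₁ * nr g (pt q) κ)) := by
            refine (h7 _).2.trans ?_
            gcongr
            refine (h5 κ).trans ?_
            gcongr
            exact (h6 κ).1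
        _ = _ := by ring)
  exact ⟨Λ, h0, fun m a ha => h1 (tv m a) ha⟩

end GapAux

/-- Bound `nr g (ex g m a) (dM E (ex g m) a κ) ≤ Λ * nr g m κ` for `g m a a ≤ R` (`unif_of_compact` on
`isCompact_TB`; in charts the derivative of `w ↦ e' (ex g (e.symm b) (dS e b w))` is continuous in `(b, w)`),
then `h.len` along the segment (`convex_ball`). -/
theorem RM.ex_lip (h : RM g) (R : ℝ) : ∃ Λ > 0, ∀ m a b, g m a a ≤ R → g m b b ≤ R →
    dist (ex g m a) (ex g m b) ≤ Λ * nr g m (a - b) := by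
  obtain ⟨Λ, h0, h1⟩ := GapAux.bound h R
  refine ⟨Λ, h0, fun m a b ha hb => ?_⟩
  have h2 := h.len (fun t => ex g m (b + t • (a - b))) 0 1 (Λ * nr g m (a - b)) zero_le_one (by
    intro t ht
    have h3 : SmP E (fun t : ℝ => ex g m (b + t • (a - b))) t := h.smP_ex m (by fun_prop)
    refine ⟨ContMDiffAt.of_le h3 (by simp), ?_⟩
    have h4 : HasDerivAt (fun s : ℝ => b + s • (a - b)) (a - b) t := by
      simpa using ((hasDerivAt_id t).smul_const (a - b)).const_add b
    have h5 := dM_comp (X := ex g m) (φ := fun s : ℝ => b + s • (a - b)) (b := t)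
      (h.smP_ex m contDiffAt_id) h4.differentiableAt 1
    rw [fderiv_apply_one_eq_deriv, h4.deriv] at h5
    rw [vel, h5]
    exact h1 m _ ((h.convex_ball m R).add_smul_sub_mem hb ha ht) _)
  rw [dist_comm]
  simpa using h2

end Vale.Agent.P234
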