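import Vale.Agent.P234.Base

/-! Algebra of the metric and of the cost. -/

open scoped Manifold ContDiff Topology
open Set Filter

set_option linter.unusedSectionVars false

namespace Vale.Agent.P234

open Vale.Agent.P255

variable {E : Type} [NormedAddCommGroup E] [NormedSpace ℝ E] [FiniteDimensional ℝ E]
  {M : Type} [MetricSpace M] [CompactSpace M] [ChartedSpace E M] [IsManifold 𝓘(ℝ, E) ∞ M]
  {g : M → E →L[ℝ] E →L[ℝ] ℝ}


theorem RM.nonneg (h : RM g) (x : M) (v : E) : 0 ≤ g x v v := by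
  by_cases hv : v = 0
  · simp [hv]
  · exact (h.pos x v hv).le

theorem nr_nonneg (x : M) (v : E) : 0 ≤ nr g x v := Real.sqrt_nonneg _

theorem RM.nr_sq (h : RM g) (x : M) (v : E) : nr g x v ^ 2 = g x v v := Real.sq_sqrt (h.nonneg x v)

theorem RM.cs (h : RM g) (x : M) (v w : E) : |g x v w| ≤ nr g x v * nr g x w := by
  have h1 : ∀ t : ℝ, 0 ≤ g x w w * (t * t) + (2 * g x v w) * t + g x v v := by
    intro t
    have h2 := h.nonneg x (v + t • w)
    have h3 := h.symm x w v
    simp only [map_add, map_smul, add_apply, smul_apply, smul_eq_mul] at h2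
    rw [h3] at h2
    linarith
  have h2 := discrim_le_zero h1
  rw [discrim] at h2
  rw [nr, nr, ← Real.sqrt_mul (h.nonneg x v)]
  exact Real.abs_le_sqrt (by nlinarith)

theorem nr_smul (x : M) (t : ℝ) (v : E) : nr g x (t • v) = |t| * nr g x v := by
  simp only [nr, map_smul, smul_apply, smul_eq_mul]
  rw [← mul_assoc, Real.sqrt_mul (mul_self_nonneg t), Real.sqrt_mul_self_eq_abs]

theorem nr_neg (x : M) (v : E) : nr g x (-v) = nr g x v := by simp [nr]

theorem nr_zero (x : M) : nr g x 0 = 0 := by simp [nr]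

theorem RM.nr_add_le (h : RM g) (x : M) (v w : E) : nr g x (v + w) ≤ nr g x v + nr g x w := by
  refine (sq_le_sq₀ (nr_nonneg _ _) (add_nonneg (nr_nonneg _ _) (nr_nonneg _ _))).1 ?_
  have h1 := (le_abs_self _).trans (h.cs x v w)
  have h2 := h.symm x w v
  rw [add_sq, h.nr_sq, h.nr_sq, h.nr_sq]
  simp only [map_add, add_apply]
  linarith

theorem RM.eq_zero_of_nr (h : RM g) {x : M} {v : E} (hv : nr g x v = 0) : v = 0 := by
  by_contra h0
  exact (Real.sqrt_pos.2 (h.pos x v h0)).ne' hv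

theorem RM.coercive (h : RM g) (x : M) : ∃ c > 0, ∀ v, c * ‖v‖ ^ 2 ≤ g x v v := by
  have hc : CM (fun _ : E => g x) univ :=
    ⟨isOpen_univ, contDiffOn_const, fun _ _ => h.symm x, fun _ _ => h.pos x⟩
  obtain ⟨c, hc0, hc1⟩ := coercive_Geo2 hc (mem_univ 0)
  exact ⟨c, hc0, hc1.self_of_nhds⟩

theorem RM.convex_ball (h : RM g) (x : M) (R : ℝ) : Convex ℝ {v | g x v v ≤ R} := by
  intro u hu v hv a b ha hb hab
  have h1 := h.nonneg x (u - v)
  have h2 := h.symm x u v
  simp only [mem_ofPred_eq, map_add, map_smul, add_apply, smul_apply, smul_eq_mul, map_sub,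
    sub_apply] at *
  obtain rfl : b = 1 - a := by linarith
  nlinarith [mul_nonneg (mul_nonneg ha hb) h1]

theorem RM.isCompact_ball (h : RM g) (x : M) (R : ℝ) : IsCompact {v | g x v v ≤ R} := by
  obtain ⟨c, hc, h1⟩ := h.coercive x
  refine Metric.isCompact_of_isClosed_isBounded (isClosed_le (by fun_prop) continuous_const) ?_
  refine (Metric.isBounded_closedBall (x := (0 : E)) (r := √(R / c))).subset fun v hv => ?_
  rw [mem_closedBall_zero_iff]
  refine Real.le_sqrt_of_sq_le ?_
  rw [le_div_iff₀ hc, mul_comm]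
  exact (h1 v).trans hv

theorem RM.riesz (h : RM g) (x : M) (f : E →L[ℝ] ℝ) : ∃ ξ, ∀ w, g x ξ w = f w := by
  have hc : CM (fun _ : E => g x) univ :=
    ⟨isOpen_univ, contDiffOn_const, fun _ _ => h.symm x, fun _ _ => h.pos x⟩
  obtain ⟨e, he⟩ := hc.exists_equiv (mem_univ 0)
  refine ⟨e.symm f, fun w => ?_⟩
  have h1 : g x (e.symm f) = e (e.symm f) := by rw [← he]; rfl
  rw [h1, e.apply_symm_apply]

theorem cost_comm (x y : M) : cost x y = cost y x := by rw [cost, cost, dist_comm]

theorem cost_self (x : M) : cost x x = 0 := by simp [cost]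

theorem cost_nonneg (x y : M) : 0 ≤ cost x y := by rw [cost]; positivity

theorem continuous_cost : Continuous fun p : M × M => cost p.1 p.2 := by unfold cost; fun_prop

theorem cost_tri {s t : ℝ} (hs : 0 < s) (ht : 0 < t) (x y z : M) :
    cost x z / (s + t) ≤ cost x y / s + cost y z / t := by
  have h1 := dist_triangle x y z
  have h2 : dist x z ^ 2 ≤ (dist x y + dist y z) ^ 2 := by gcongr
  have h3 : (dist x y + dist y z) ^ 2 / 2 / (s + t) ≤ dist x y ^ 2 / 2 / s + dist y z ^ 2 / 2 / t := by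
    rw [div_add_div _ _ hs.ne' ht.ne', div_le_div_iff₀ (by positivity) (by positivity)]
    nlinarith [sq_nonneg (t * dist x y - s * dist y z)]
  refine le_trans ?_ h3
  unfold cost
  gcongr

theorem exists_diam : ∃ D > 0, ∀ x y : M, dist x y ^ 2 ≤ D := by
  obtain ⟨C, hC⟩ := Metric.isBounded_iff.1 (isCompact_univ (X := M)).isBounded
  refine ⟨C ^ 2 + 1, by positivity, fun x y => ?_⟩
  have h1 : dist x y ^ 2 ≤ C ^ 2 := by
    have := hC (mem_univ x) (mem_univ y)
    gcongr
  linarith

end Vale.Agent.P234
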