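import Vale.Agent.P234.Base

/-! Calculus lemmas. -/

open scoped Manifold ContDiff Topology
open Set Filter

set_option linter.unusedSectionVars false

namespace Vale.Agent.P234

open Vale.Agent.P255

variable {E : Type} [NormedAddCommGroup E] [NormedSpace ℝ E] [FiniteDimensional ℝ E]
  {M : Type} [MetricSpace M] [CompactSpace M] [ChartedSpace E M] [IsManifold 𝓘(ℝ, E) ∞ M]
  {g : M → E →L[ℝ] E →L[ℝ] ℝ}
  {A : Type} [NormedAddCommGroup A] [NormedSpace ℝ A]
  {B : Type} [NormedAddCommGroup B] [NormedSpace ℝ B]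
  {e e' : OpenPartialHomeomorph M E}


/-- One dimensional Taylor formula on `[0, 1]`. -/
theorem taylor_unit {φ : ℝ → ℝ} {c b : ℝ} (hφ : ∀ s ∈ Icc (0 : ℝ) 1, ContDiffAt ℝ 2 φ s)
    (hb : ∀ s ∈ Icc (0 : ℝ) 1, |deriv (deriv φ) s - c| ≤ b) :
    |φ 1 - φ 0 - deriv φ 0 - c / 2| ≤ b / 2 := by
  have h1 : ∀ s ∈ Icc (0 : ℝ) 1, HasDerivAt φ (deriv φ s) s := fun s hs =>
    ((hφ s hs).differentiableAt (by norm_num)).hasDerivAt
  have h2 : ∀ s ∈ Icc (0 : ℝ) 1, HasDerivAt (deriv φ) (deriv (deriv φ) s) s := fun s hs =>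
    (((hφ s hs).derivWithin (m := 1) (by norm_num)).differentiableAt (by norm_num)).hasDerivAt
  have k2 : ∀ s ∈ Icc (0 : ℝ) 1, HasDerivAt (fun s => deriv φ s - deriv φ 0 - c * s)
      (deriv (deriv φ) s - c) s := fun s hs => by
    exact (((h2 s hs).sub_const (deriv φ 0)).fun_sub
      ((hasDerivAt_id' s).const_mul c)).congr_deriv (by ring)
  have k1 : ∀ s ∈ Icc (0 : ℝ) 1, HasDerivAt (fun s => φ s - φ 0 - deriv φ 0 * s - c * s ^ 2 / 2)
      (deriv φ s - deriv φ 0 - c * s) s := fun s hs => by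
    exact ((((h1 s hs).sub_const (φ 0)).fun_sub ((hasDerivAt_id' s).const_mul (deriv φ 0))).fun_sub
      (((hasDerivAt_pow 2 s).const_mul c).div_const 2)).congr_deriv (by simp; ring)
  have b2 : ∀ ⦃s⦄, s ∈ Icc (0 : ℝ) 1 → ‖deriv φ s - deriv φ 0 - c * s‖ ≤ b * s :=
    image_norm_le_of_norm_deriv_right_le_deriv_boundary
      (f := fun s => deriv φ s - deriv φ 0 - c * s) (f' := fun s => deriv (deriv φ) s - c)
      (fun s hs => (k2 s hs).continuousAt.continuousWithinAt)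
      (fun s hs => (k2 s (Ico_subset_Icc_self hs)).hasDerivWithinAt) (B := fun s => b * s)
      (B' := fun _ => b) (by simp) (fun s => by simpa using (hasDerivAt_id s).const_mul b)
      (fun s hs => hb s (Ico_subset_Icc_self hs))
  have b1 : ∀ ⦃s⦄, s ∈ Icc (0 : ℝ) 1 →
      ‖φ s - φ 0 - deriv φ 0 * s - c * s ^ 2 / 2‖ ≤ b * s ^ 2 / 2 :=
    image_norm_le_of_norm_deriv_right_le_deriv_boundary
      (f := fun s => φ s - φ 0 - deriv φ 0 * s - c * s ^ 2 / 2)
      (f' := fun s => deriv φ s - deriv φ 0 - c * s)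
      (fun s hs => (k1 s hs).continuousAt.continuousWithinAt)
      (fun s hs => (k1 s (Ico_subset_Icc_self hs)).hasDerivWithinAt) (B := fun s => b * s ^ 2 / 2)
      (B' := fun s => b * s) (by simp) (fun s =>
        (((hasDerivAt_pow 2 s).const_mul b).div_const 2).congr_deriv (by simp; ring))
      (fun s hs => b2 (Ico_subset_Icc_self hs))
  simpa using b1 (right_mem_Icc.2 zero_le_one)

/-- Second derivative along a curve. -/
theorem deriv2_comp {f : A → ℝ} {β : ℝ → A} {s : ℝ} (hf : ContDiffAt ℝ 2 f (β s))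
    (hβ : ContDiffAt ℝ 2 β s) : deriv (deriv fun t => f (β t)) s =
      fderiv ℝ (fderiv ℝ f) (β s) (deriv β s) (deriv β s) +
        fderiv ℝ f (β s) (deriv (deriv β) s) := by
  have e1 : (deriv fun t => f (β t)) =ᶠ[𝓝 s] fun t => fderiv ℝ f (β t) (deriv β t) := by
    filter_upwards [hβ.eventually (by simp),
      hβ.continuousAt.eventually (hf.eventually (by simp))] with t h1 h2
    exact ((h2.differentiableAt (by norm_num)).hasFDerivAt.comp_hasDerivAt t
      (h1.differentiableAt (by norm_num)).hasDerivAt).deriv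
  rw [e1.deriv_eq]
  have d1 : HasDerivAt β (deriv β s) s := (hβ.differentiableAt (by norm_num)).hasDerivAt
  have d2 : HasDerivAt (deriv β) (deriv (deriv β) s) s :=
    ((hβ.derivWithin (m := 1) (by norm_num)).differentiableAt (by norm_num)).hasDerivAt
  have d3 : HasFDerivAt (fderiv ℝ f) (fderiv ℝ (fderiv ℝ f) (β s)) (β s) :=
    ((hf.fderiv_right (m := 1) (by norm_num)).differentiableAt (by norm_num)).hasFDerivAt
  exact ((d3.comp_hasDerivAt s d1).clm_apply d2).deriv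

namespace AnalAux

theorem deriv_line (a u : A) : (deriv fun t : ℝ => a + t • u) = fun _ => u := by
  funext t
  simpa using (((hasDerivAt_id t).smul_const u).const_add a).deriv

theorem deriv2_line' {f : A → ℝ} {a u : A} {s : ℝ} (hf : ContDiffAt ℝ 2 f (a + s • u)) :
    deriv (deriv fun t : ℝ => f (a + t • u)) s = fderiv ℝ (fderiv ℝ f) (a + s • u) u u := by
  have := deriv2_comp (f := f) (β := fun t : ℝ => a + t • u) (s := s) hf (by fun_prop)
  rw [this, deriv_line]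
  simp

theorem deriv2_eq {f : ℝ → ℝ} {a : ℝ} (hf : ContDiffAt ℝ 2 f a) (u : ℝ) :
    fderiv ℝ (fderiv ℝ f) a u u = u ^ 2 * deriv (deriv f) a := by
  have := deriv2_comp (f := f) (β := fun t : ℝ => t) (s := a) hf (by fun_prop)
  have e : (deriv fun t : ℝ => t) = fun _ => 1 := by funext t; simp
  rw [e] at this
  simp only [deriv_const', map_zero, add_zero] at this
  have e2 : fderiv ℝ (fderiv ℝ f) a (u • 1) (u • 1) = u • u • fderiv ℝ (fderiv ℝ f) a 1 1 := by
    rw [map_smul, map_smul]; rfl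
  rw [this]
  simp only [smul_eq_mul, mul_one] at e2
  rw [e2]; ring

end AnalAux

theorem deriv2_line {f : A → ℝ} {a : A} (hf : ContDiffAt ℝ 2 f a) (u : A) :
    deriv (deriv fun t : ℝ => f (a + t • u)) 0 = fderiv ℝ (fderiv ℝ f) a u u := by
  have := AnalAux.deriv2_line' (f := f) (a := a) (u := u) (s := 0) (by simpa using hf)
  simpa using this

/-- Second order Taylor formula. -/
theorem taylor2 {f : A → ℝ} {a : A} (hf : ContDiffAt ℝ 2 f a) {ε : ℝ} (hε : 0 < ε) :
    ∀ᶠ u in 𝓝 (0 : A), |f (a + u) - f a - fderiv ℝ f a u - fderiv ℝ (fderiv ℝ f) a u u / 2| ≤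
      ε * ‖u‖ ^ 2 := by
  have c2 : ContinuousAt (fderiv ℝ (fderiv ℝ f)) a :=
    ((hf.fderiv_right (m := 1) (by norm_num)).fderiv_right (m := 0) (by norm_num)).continuousAt
  have c3 : ContinuousAt (fun b => ‖fderiv ℝ (fderiv ℝ f) b - fderiv ℝ (fderiv ℝ f) a‖) a :=
    ContinuousAt.norm (E := A →L[ℝ] A →L[ℝ] ℝ) (c2.sub continuousAt_const)
  have e1 : ∀ᶠ b in 𝓝 a, ContDiffAt ℝ 2 f b ∧
      ‖fderiv ℝ (fderiv ℝ f) b - fderiv ℝ (fderiv ℝ f) a‖ < ε :=
    (hf.eventually (by simp)).and (c3.eventually (gt_mem_nhds (by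
      simp only [sub_self, ContinuousLinearMap.opNorm_zero]; exact hε)))
  obtain ⟨δ, hδ, hb⟩ := Metric.eventually_nhds_iff.1 e1
  filter_upwards [Metric.ball_mem_nhds (0 : A) hδ] with u hu
  have hu' : ‖u‖ < δ := by simpa using hu
  have hs : ∀ s ∈ Icc (0 : ℝ) 1, dist (a + s • u) a < δ := fun s hs => by
    rw [dist_eq_norm, add_sub_cancel_left, norm_smul, Real.norm_of_nonneg hs.1]
    nlinarith [hs.1, hs.2, norm_nonneg u]
  have := taylor_unit (φ := fun t : ℝ => f (a + t • u)) (c := fderiv ℝ (fderiv ℝ f) a u u)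
    (b := ε * ‖u‖ ^ 2) (fun s h => (hb (hs s h)).1.comp s (by fun_prop)) (fun s h => by
      rw [AnalAux.deriv2_line' (hb (hs s h)).1]
      have h1 := (hb (hs s h)).2
      have h2 := (fderiv ℝ (fderiv ℝ f) (a + s • u) - fderiv ℝ (fderiv ℝ f) a).le_opNorm₂ u u
      simp only [sub_apply, Real.norm_eq_abs] at h2
      refine h2.trans ?_
      rw [mul_assoc, ← sq]
      exact mul_le_mul_of_nonneg_right h1.le (sq_nonneg _))
  have d1 : deriv (fun t : ℝ => f (a + t • u)) 0 = fderiv ℝ f a u := by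
    have h1 : HasDerivAt (fun t : ℝ => a + t • u) u 0 := by
      simpa using ((hasDerivAt_id (0 : ℝ)).smul_const u).const_add a
    have h2 : HasFDerivAt f (fderiv ℝ f a) (a + (0 : ℝ) • u) := by
      simpa using (hf.differentiableAt (by norm_num)).hasFDerivAt
    exact (h2.comp_hasDerivAt (0 : ℝ) h1).deriv
  rw [d1] at this
  simp only [one_smul, zero_smul, add_zero] at this
  have : 0 ≤ ε * ‖u‖ ^ 2 := by positivity
  linarith

theorem hess_symm {f : A → ℝ} {a : A} (hf : ContDiffAt ℝ 2 f a) (u w : A) :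
    fderiv ℝ (fderiv ℝ f) a u w = fderiv ℝ (fderiv ℝ f) a w u :=
  (hf.isSymmSndFDerivAt (by simp)).eq u w

/-- Hessian of a composition with an affine map. -/
theorem hess_comp_affine {f : A → ℝ} (L : B →L[ℝ] A) {a : A} {b : B}
    (hf : ContDiffAt ℝ 2 f (a + L b)) (u w : B) :
    fderiv ℝ (fderiv ℝ fun c => f (a + L c)) b u w =
      fderiv ℝ (fderiv ℝ f) (a + L b) (L u) (L w) := by
  have hL : ∀ c, HasFDerivAt (fun c => a + L c) L c := fun c => L.hasFDerivAt.const_add a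
  have e1 : (fderiv ℝ fun c => f (a + L c)) =ᶠ[𝓝 b] fun c => (fderiv ℝ f (a + L c)).comp L := by
    filter_upwards [(hL b).continuousAt.eventually (hf.eventually (by simp))] with c h2
    exact ((h2.differentiableAt (by norm_num)).hasFDerivAt.comp c (hL c)).fderiv
  rw [e1.fderiv_eq]
  have d3 : HasFDerivAt (fderiv ℝ f) (fderiv ℝ (fderiv ℝ f) (a + L b)) (a + L b) :=
    ((hf.fderiv_right (m := 1) (by norm_num)).differentiableAt (by norm_num)).hasFDerivAt
  have := ((d3.comp b (hL b)).clm_comp (hasFDerivAt_const L b)).fderiv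
  simp only [Function.comp_def] at this
  rw [this]
  simp

namespace AnalAux

theorem hess_nonneg {f : A → ℝ} {a : A} (hf : ContDiffAt ℝ 2 f a) (hle : ∀ᶠ b in 𝓝 a, f a ≤ f b)
    (u : A) : 0 ≤ fderiv ℝ (fderiv ℝ f) a u u := by
  have h0 : fderiv ℝ f a = 0 := IsLocalMin.fderiv_eq_zero hle
  refine le_of_forall_pos_le_add fun η hη => ?_
  have hε : 0 < η / (2 * (‖u‖ ^ 2 + 1)) := by positivity
  have t1 : Tendsto (fun t : ℝ => t • u) (𝓝[>] 0) (𝓝 0) := by
    have : Tendsto (fun t : ℝ => t • u) (𝓝 0) (𝓝 ((0 : ℝ) • u)) :=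
      (by fun_prop : Continuous fun t : ℝ => t • u).tendsto 0
    rw [zero_smul] at this
    exact this.mono_left nhdsWithin_le_nhds
  have t2 : Tendsto (fun t : ℝ => a + t • u) (𝓝[>] 0) (𝓝 a) := by
    simpa using t1.const_add a
  obtain ⟨t, ⟨h1, h2⟩, h3⟩ := (((t1.eventually (taylor2 hf hε)).and (t2.eventually hle)).and
    self_mem_nhdsWithin).exists
  have h3 : 0 < t := h3
  rw [h0] at h1
  simp only [zero_apply, map_smul, smul_apply,
    smul_eq_mul, norm_smul, mul_pow, Real.norm_eq_abs, sq_abs] at h1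
  have h4 := (abs_le.1 h1).2
  have h5 : η / (2 * (‖u‖ ^ 2 + 1)) * ‖u‖ ^ 2 ≤ η / 2 := by
    rw [div_mul_eq_mul_div, div_le_div_iff₀ (by positivity) (by positivity)]
    nlinarith [sq_nonneg ‖u‖]
  have h6 : 0 ≤ t ^ 2 * (fderiv ℝ (fderiv ℝ f) a u u + η) := by
    have := mul_le_mul_of_nonneg_left h5 (sq_nonneg t)
    nlinarith
  exact nonneg_of_mul_nonneg_right h6 (by positivity) |> fun h => by simpa using h

theorem hess_sub {f f' : A → ℝ} {a : A} (hf : ContDiffAt ℝ 2 f a) (hf' : ContDiffAt ℝ 2 f' a) :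
    fderiv ℝ (fderiv ℝ fun b => f' b - f b) a =
      fderiv ℝ (fderiv ℝ f') a - fderiv ℝ (fderiv ℝ f) a := by
  have e1 : (fderiv ℝ fun b => f' b - f b) =ᶠ[𝓝 a] fun b => fderiv ℝ f' b - fderiv ℝ f b := by
    filter_upwards [hf.eventually (by simp), hf'.eventually (by simp)] with c h1 h2
    exact fderiv_fun_sub (h2.differentiableAt (by norm_num)) (h1.differentiableAt (by norm_num))
  rw [e1.fderiv_eq]
  exact fderiv_fun_sub
    ((hf'.fderiv_right (m := 1) (by norm_num)).differentiableAt (by norm_num))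
    ((hf.fderiv_right (m := 1) (by norm_num)).differentiableAt (by norm_num))

end AnalAux

/-- Touching functions. -/
theorem hess_le_of_le {f f' : A → ℝ} {a : A} (hf : ContDiffAt ℝ 2 f a) (hf' : ContDiffAt ℝ 2 f' a)
    (h0 : f a = f' a) (hle : ∀ᶠ b in 𝓝 a, f b ≤ f' b) :
    fderiv ℝ f a = fderiv ℝ f' a ∧
      ∀ u, fderiv ℝ (fderiv ℝ f) a u u ≤ fderiv ℝ (fderiv ℝ f') a u u := by
  have hm : ∀ᶠ b in 𝓝 a, f' a - f a ≤ f' b - f b := hle.mono fun b hb => by linarith
  refine ⟨?_, fun u => ?_⟩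
  · have h1 : fderiv ℝ (fun b => f' b - f b) a = 0 := IsLocalMin.fderiv_eq_zero hm
    rw [fderiv_fun_sub (hf'.differentiableAt (by norm_num)) (hf.differentiableAt (by norm_num))]
      at h1
    exact (sub_eq_zero.1 h1).symm
  · have h1 := AnalAux.hess_nonneg (f := fun b => f' b - f b) (hf'.sub hf) hm u
    rw [AnalAux.hess_sub hf hf'] at h1
    simpa using h1

theorem deriv2_le_of_le {f f' : ℝ → ℝ} {a : ℝ} (hf : ContDiffAt ℝ 2 f a) (hf' : ContDiffAt ℝ 2 f' a)
    (h0 : f a = f' a) (hle : ∀ᶠ b in 𝓝 a, f b ≤ f' b) :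
    deriv (deriv f) a ≤ deriv (deriv f') a := by
  have := (hess_le_of_le hf hf' h0 hle).2 1
  rw [AnalAux.deriv2_eq hf, AnalAux.deriv2_eq hf'] at this
  simpa using this

namespace AnalAux

theorem taylor_min {f : ℝ → ℝ} (hf : ContDiffAt ℝ 2 f 0) (hmin : ∀ᶠ s in 𝓝 (0 : ℝ), f 0 ≤ f s)
    {ε : ℝ} (hε : 0 < ε) :
    ∀ᶠ s in 𝓝 (0 : ℝ), f s - f 0 ≤ (deriv (deriv f) 0 / 2 + ε) * s ^ 2 := by
  have h0 : fderiv ℝ f 0 = 0 := IsLocalMin.fderiv_eq_zero hmin
  filter_upwards [taylor2 hf hε] with s hs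
  rw [h0, deriv2_eq hf] at hs
  simp only [zero_add, zero_apply, sub_zero, Real.norm_eq_abs, sq_abs] at hs
  have := (abs_le.1 hs).2
  linarith

end AnalAux

/-- A function with a local minimum and nonpositive second derivative is `o(s²)`. -/
theorem small_of_min {f : ℝ → ℝ} (hf : ContDiffAt ℝ 2 f 0) (hmin : ∀ᶠ s in 𝓝 (0 : ℝ), f 0 ≤ f s)
    (h2 : deriv (deriv f) 0 ≤ 0) {ε : ℝ} (hε : 0 < ε) :
    ∀ᶠ s in 𝓝 (0 : ℝ), f s - f 0 ≤ ε * s ^ 2 := by
  filter_upwards [AnalAux.taylor_min hf hmin hε] with s hs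
  nlinarith [sq_nonneg s]

/-- A function with a local minimum is `O(s²)`. -/
theorem quad_of_min {f : ℝ → ℝ} (hf : ContDiffAt ℝ 2 f 0) (hmin : ∀ᶠ s in 𝓝 (0 : ℝ), f 0 ≤ f s) :
    ∃ C > 0, ∀ᶠ s in 𝓝 (0 : ℝ), f s - f 0 ≤ C * s ^ 2 := by
  refine ⟨|deriv (deriv f) 0| + 1, by positivity, ?_⟩
  filter_upwards [AnalAux.taylor_min hf hmin one_pos] with s hs
  refine hs.trans (mul_le_mul_of_nonneg_right ?_ (sq_nonneg s))
  have := le_abs_self (deriv (deriv f) 0)
  have := abs_nonneg (deriv (deriv f) 0)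
  linarith

/-- Partial Hessians depend smoothly on parameters (`ContDiffAt.fderiv` twice). -/
theorem contDiffAt_hess {F : B × A → ℝ} {b : B} {a : A} (hF : ContDiffAt ℝ ∞ F (b, a)) :
    ContDiffAt ℝ ∞ (fun c => fderiv ℝ (fderiv ℝ fun x => F (c, x)) a) b := by
  have h1 : ContDiffAt ℝ ∞ (fun p : B × A => fderiv ℝ (fun x => F (p.1, x)) p.2) (b, a) :=
    ContDiffAt.fderiv (f := fun (p : B × A) x => F (p.1, x)) (g := Prod.snd) (n := ∞)
      (hF.comp ((b, a), a) (f := fun q : (B × A) × A => (q.1.1, q.2)) (by fun_prop))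
      contDiffAt_snd (by simp)
  exact ContDiffAt.fderiv (f := fun c => fderiv ℝ fun x => F (c, x)) (g := fun _ => a) (n := ∞)
    h1 contDiffAt_const (by simp)

end Vale.Agent.P234
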