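import Vale.Agent.P234.Base

/-! Two convexity lemmas. -/

open scoped Manifold ContDiff Topology
open Set Filter

set_option linter.unusedSectionVars false

namespace Vale.Agent.P234

open Vale.Agent.P255

variable {E : Type} [NormedAddCommGroup E] [NormedSpace ℝ E] [FiniteDimensional ℝ E]
  {M : Type} [MetricSpace M] [CompactSpace M] [ChartedSpace E M] [IsManifold 𝓘(ℝ, E) ∞ M]
  {g : M → E →L[ℝ] E →L[ℝ] ℝ}
  {A : Type} [NormedAddCommGroup A] [NormedSpace ℝ A]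
  {B : Type} [NormedAddCommGroup B] [NormedSpace ℝ B]
  {e e' : OpenPartialHomeomorph M E}


/-- A continuous function with a local supporting line at every point is supported globally. (Take the
last maximum point of the difference with a chord.) -/
theorem support_of_local {φ : ℝ → ℝ} (hφ : Continuous φ)
    (hloc : ∀ s, ∃ l, ∀ᶠ σ in 𝓝 (0 : ℝ), φ s + l * σ ≤ φ (s + σ)) {l : ℝ}
    (h0 : ∀ᶠ σ in 𝓝 (0 : ℝ), φ 0 + l * σ ≤ φ σ) : φ 0 + l ≤ φ 1 := by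
  by_contra hlt
  have hlt' : φ 1 < φ 0 + l := lt_of_not_ge hlt
  obtain ⟨m, hm⟩ : ∃ m, m = φ 1 - φ 0 := ⟨_, rfl⟩
  have hml : m < l := by linarith
  obtain ⟨ψ, hψ⟩ : ∃ ψ : ℝ → ℝ, ψ = fun s => φ s - m * s := ⟨_, rfl⟩
  have hψa : ∀ s, ψ s = φ s - m * s := fun s => by rw [hψ]
  have hψc : Continuous ψ := by
    rw [hψ]
    fun_prop
  obtain ⟨s0, hs0, hmax⟩ :=
    isCompact_Icc.exists_isMaxOn (nonempty_Icc.2 (zero_le_one' ℝ)) hψc.continuousOn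
  have hK : IsCompact (Icc (0 : ℝ) 1 ∩ {s | ψ s = ψ s0}) :=
    isCompact_Icc.inter_right (isClosed_eq hψc continuous_const)
  obtain ⟨t, ⟨ht, hteq⟩, hlast⟩ := hK.exists_isGreatest ⟨s0, hs0, rfl⟩
  have hteq' : ψ t = ψ s0 := hteq
  have hle : ∀ s ∈ Icc (0 : ℝ) 1, ψ s ≤ ψ t := fun s hs => by
    rw [hteq']
    exact hmax hs
  obtain ⟨σ, hσ, hσ0, hσ1⟩ : ∃ σ, φ 0 + l * σ ≤ φ σ ∧ 0 < σ ∧ σ < 1 :=
    ((h0.filter_mono nhdsWithin_le_nhds).and (Ioo_mem_nhdsGT (zero_lt_one' ℝ))).exists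
  have hpos : φ 0 < ψ t := by
    have h1 := hle σ ⟨hσ0.le, hσ1.le⟩
    have h2 := hψa σ
    nlinarith [mul_pos (sub_pos.2 hml) hσ0]
  have ht0 : 0 < t := by
    refine lt_of_le_of_ne ht.1 ?_
    intro h
    rw [← h, hψa] at hpos
    linarith
  have ht1 : t < 1 := by
    refine lt_of_le_of_ne ht.2 ?_
    intro h
    rw [h, hψa] at hpos
    linarith
  obtain ⟨k, hk⟩ := hloc t
  obtain ⟨a, ha, ha0, ha1⟩ : ∃ a, φ t + k * a ≤ φ (t + a) ∧ 0 < a ∧ a < 1 - t :=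
    ((hk.filter_mono nhdsWithin_le_nhds).and (Ioo_mem_nhdsGT (sub_pos.2 ht1))).exists
  obtain ⟨b, hb, hb0, hb1⟩ : ∃ b, φ t + k * b ≤ φ (t + b) ∧ -t < b ∧ b < 0 :=
    ((hk.filter_mono nhdsWithin_le_nhds).and (Ioo_mem_nhdsLT (neg_lt_zero.2 ht0))).exists
  have hta : t + a ∈ Icc (0 : ℝ) 1 := ⟨by linarith, by linarith⟩
  have htb : t + b ∈ Icc (0 : ℝ) 1 := ⟨by linarith, by linarith⟩
  have h1 : ψ (t + a) < ψ t := by
    refine lt_of_le_of_ne (hle _ hta) ?_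
    intro h
    have h2 : t + a ≤ t := hlast ⟨hta, h.trans hteq'⟩
    linarith
  have h2 := hle _ htb
  rw [hψa, hψa] at h1 h2
  have hkm : k < m := by
    by_contra hn
    have hn' : m ≤ k := le_of_not_gt hn
    nlinarith [mul_nonneg (sub_nonneg.2 hn') ha0.le]
  nlinarith [mul_pos (sub_pos.2 hkm) (neg_pos.2 hb1)]

/-- By contradiction: `ξ k → 0`, `ξ k = r k • ω k` with unit vectors `ω k → ω`; then `ℓ i ω ≤ 0` for all
`i`, so `ℓ i ω = 0`; average the inequalities with the weights `w`. -/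
theorem ktrick {ι : Type} [Fintype ι] {w : ι → ℝ} (hw : ∀ i, 0 < w i) (hw1 : ∑ i, w i = 1)
    {ℓ : ι → E →L[ℝ] ℝ} (hℓ : ∑ i, w i • ℓ i = 0) (Q : ι → E →L[ℝ] E →L[ℝ] ℝ)
    (hQ : ∀ ξ, (∀ i, ℓ i ξ = 0) → 0 ≤ ∑ i, w i * Q i ξ ξ) {ε : ℝ} (hε : 0 < ε) :
    ∀ᶠ ξ in 𝓝 (0 : E), ∃ i, -(ε * ‖ξ‖ ^ 2) ≤ ℓ i ξ + Q i ξ ξ := by
  have hne : (Finset.univ : Finset ι).Nonempty := by
    by_contra hn
    rw [Finset.not_nonempty_iff_eq_empty] at hn
    rw [hn, Finset.sum_empty] at hw1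
    exact zero_ne_one hw1
  have hsum : ∀ ξ, ∑ i, w i * ℓ i ξ = 0 := fun ξ => by
    have := congrArg (fun T : E →L[ℝ] ℝ => T ξ) hℓ
    simpa using this
  have key : ∀ᶠ r in 𝓝 (0 : ℝ), ∀ u ∈ Metric.sphere (0 : E) 1,
      0 ≤ r → ∃ i, -(ε * r) ≤ ℓ i u + r * Q i u u := by
    refine (isCompact_sphere (0 : E) 1).eventually_forall_of_forall_eventually fun u _ => ?_
    by_cases hp : ∃ i, 0 < ℓ i u
    · obtain ⟨i, hi⟩ := hp
      have hc : Continuous fun z : ℝ × E => ℓ i z.2 + z.1 * Q i z.2 z.2 + ε * z.1 := by fun_prop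
      have h1 : ∀ᶠ z in 𝓝 ((0 : ℝ), u), 0 < ℓ i z.2 + z.1 * Q i z.2 z.2 + ε * z.1 :=
        hc.continuousAt.eventually (lt_mem_nhds (by simpa using hi))
      filter_upwards [h1] with z hz _
      exact ⟨i, by linarith⟩
    · have hp' : ∀ i, ℓ i u ≤ 0 := fun i => le_of_not_gt fun h => hp ⟨i, h⟩
      have hz : ∀ i, ℓ i u = 0 := fun i => by
        have h1 := (Finset.sum_eq_zero_iff_of_nonpos
          (fun j _ => mul_nonpos_of_nonneg_of_nonpos (hw j).le (hp' j))).1 (hsum u) i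
          (Finset.mem_univ i)
        exact (mul_eq_zero.1 h1).resolve_left (hw i).ne'
      have hc : Continuous fun z : ℝ × E => ∑ i, w i * Q i z.2 z.2 := by fun_prop
      have h0 := hQ u hz
      have h1 : ∀ᶠ z in 𝓝 ((0 : ℝ), u), -ε < ∑ i, w i * Q i z.2 z.2 :=
        hc.continuousAt.eventually (lt_mem_nhds (by simp only; linarith))
      filter_upwards [h1] with z hz hr
      have h2 : ∑ i, w i * -(ε * z.1) ≤ ∑ i, w i * (ℓ i z.2 + z.1 * Q i z.2 z.2) := by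
        have e1 : ∑ i, w i * -(ε * z.1) = -(ε * z.1) := by rw [← Finset.sum_mul, hw1, one_mul]
        have e2 : ∑ i, w i * (ℓ i z.2 + z.1 * Q i z.2 z.2) =
            ∑ i, w i * ℓ i z.2 + z.1 * ∑ i, w i * Q i z.2 z.2 := by
          rw [Finset.mul_sum, ← Finset.sum_add_distrib]
          exact Finset.sum_congr rfl fun i _ => by ring
        rw [e1, e2, hsum]
        nlinarith [mul_nonneg hr (sub_nonneg.2 hz.le)]
      obtain ⟨i, -, hi⟩ := Finset.exists_le_of_sum_le hne h2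
      exact ⟨i, le_of_mul_le_mul_left hi (hw i)⟩
  have hn : Tendsto (fun ξ : E => ‖ξ‖) (𝓝 0) (𝓝 0) := tendsto_norm_zero
  filter_upwards [hn.eventually key] with ξ hξ
  by_cases h0 : ξ = 0
  · obtain ⟨i, -⟩ := hne
    exact ⟨i, by simp [h0]⟩
  · have hpos : 0 < ‖ξ‖ := norm_pos_iff.2 h0
    obtain ⟨i, hi⟩ := hξ (‖ξ‖⁻¹ • ξ) (by simp [norm_smul, hpos.ne']) hpos.le
    refine ⟨i, ?_⟩
    simp only [map_smul, smul_apply, smul_eq_mul] at hi
    have h1 := mul_le_mul_of_nonneg_left hi hpos.le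
    have e1 : ‖ξ‖ * (‖ξ‖⁻¹ * ℓ i ξ + ‖ξ‖ * (‖ξ‖⁻¹ * (‖ξ‖⁻¹ * Q i ξ ξ))) = ℓ i ξ + Q i ξ ξ := by
      field_simp
    rw [e1] at h1
    nlinarith

end Vale.Agent.P234
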