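import Vale.Agent.P234.TB

/-! Compactness in the tangent bundle. -/

open scoped Manifold ContDiff Topology
open Set Filter

set_option linter.unusedSectionVars false

namespace Vale.Agent.P234

open Vale.Agent.P255

variable {E : Type} [NormedAddCommGroup E] [NormedSpace ℝ E] [FiniteDimensional ℝ E]
  {M : Type} [MetricSpace M] [CompactSpace M] [ChartedSpace E M] [IsManifold 𝓘(ℝ, E) ∞ M]
  {g : M → E →L[ℝ] E →L[ℝ] ℝ}
  {A : Type} [NormedAddCommGroup A] [NormedSpace ℝ A]
  {B : Type} [NormedAddCommGroup B] [NormedSpace ℝ B]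
  {e e' : OpenPartialHomeomorph M E}
  {T T' : Type} [TopologicalSpace T] [TopologicalSpace T']


/-- From `coercive_Geo2` and `gc_dC`. -/
theorem RM.chart_coercive (h : RM g) (he : e ∈ atlas E M) {x : M} (hx : x ∈ e.source) :
    ∃ K > 0, ∀ᶠ y in 𝓝 x, ∀ v, ‖dC e y v‖ ≤ K * nr g y v ∧ nr g y v ≤ K * ‖dC e y v‖ := by
  have hcm := h.toIsRM.cm he
  obtain ⟨c, hc, h1⟩ := coercive_Geo2 hcm (e.map_source hx)
  have h2 : ContinuousAt (fun y => ‖gc g e y‖) (e x) :=
    (continuous_norm (E := E →L[ℝ] E →L[ℝ] ℝ)).continuousAt.comp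
      (hcm.smooth.continuousOn.continuousAt (hcm.isOpen.mem_nhds (e.map_source hx)))
  have h3 := h2.eventually (gt_mem_nhds (lt_add_one ‖gc g e (e x)‖))
  have h0 := norm_nonneg (gc g e (e x))
  generalize ‖gc g e (e x)‖ = N at h3 h0
  have hi := inv_pos.2 hc
  refine ⟨c⁻¹ + N + 1, by positivity, ?_⟩
  filter_upwards [e.open_source.mem_nhds hx, (e.continuousAt hx).eventually (h1.and h3)]
    with y hy h4 v
  have h5 := h4.1 (dC e y v)
  have h6 : gc g e (e y) (dC e y v) (dC e y v) ≤ (N + 1) * ‖dC e y v‖ ^ 2 := by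
    have := (gc g e (e y)).le_opNorm₂ (dC e y v) (dC e y v)
    have h7 := mul_le_mul_of_nonneg_right h4.2.le (sq_nonneg ‖dC e y v‖)
    nlinarith [le_abs_self (gc g e (e y) (dC e y v) (dC e y v)),
      Real.norm_eq_abs (gc g e (e y) (dC e y v) (dC e y v))]
  rw [gc_dC g he hy, ← h.nr_sq] at h5 h6
  have h7 := nr_nonneg (g := g) y v
  have h8 := norm_nonneg (dC e y v)
  generalize nr g y v = a at h5 h6 h7
  generalize ‖dC e y v‖ = b at h5 h6 h8
  have h9 : b ^ 2 ≤ c⁻¹ * a ^ 2 := by rwa [le_inv_mul_iff₀ hc]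
  have k1 : c⁻¹ ≤ (c⁻¹ + N + 1) ^ 2 := by nlinarith
  have k2 : N + 1 ≤ (c⁻¹ + N + 1) ^ 2 := by nlinarith
  constructor
  · refine abs_le_of_sq_le_sq' ?_ (by positivity) |>.2
    rw [mul_pow]
    exact h9.trans (mul_le_mul_of_nonneg_right k1 (sq_nonneg _))
  · refine abs_le_of_sq_le_sq' ?_ (by positivity) |>.2
    rw [mul_pow]
    exact h6.trans (mul_le_mul_of_nonneg_right k2 (sq_nonneg _))

theorem CptAux.continuous_g (h : RM g) : Continuous fun p : TB E M => g (pt p) (vc p) (vc p) :=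
  continuous_iff_continuousAt.2 fun p => (ctV_id p).inner h (ctV_id p)

/-- Cover `M` by finitely many compact sets inside chart domains on which `chart_coercive` holds; each piece
is a closed subset of the image of (compact) × (closed ball) under `z ↦ tv (e.symm z.1) (dS e z.1 z.2)`. -/
theorem RM.isCompact_TB (h : RM g) (R : ℝ) :
    IsCompact {p : TB E M | g (pt p) (vc p) (vc p) ≤ R} := by
  have hcl : IsClosed {p : TB E M | g (pt p) (vc p) (vc p) ≤ R} :=
    isClosed_le (CptAux.continuous_g h) continuous_const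
  rw [isCompact_iff_ultrafilter_le_nhds']
  intro U hU
  obtain ⟨x, -, hx⟩ := isCompact_univ.ultrafilter_le_nhds' (U.map pt) univ_mem
  have h1 : Tendsto pt (U : Filter (TB E M)) (𝓝 x) := hx
  have he := chart_mem_atlas E x
  have hs := mem_chart_source E x
  generalize chartAt E x = e at he hs
  obtain ⟨K, hK, h2⟩ := h.chart_coercive he hs
  obtain ⟨w, -, hw⟩ := (isCompact_closedBall (0 : E) (K * √R)).ultrafilter_le_nhds'
    (U.map fun p => dC e (pt p) (vc p)) (Ultrafilter.mem_map.2 (by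
      filter_upwards [h1.eventually h2, hU] with p h3 h4
      simpa using (h3 _).1.trans (mul_le_mul_of_nonneg_left (Real.sqrt_le_sqrt h4) hK.le)))
  have h3 : Tendsto (fun p => (e (pt p), dC e (pt p) (vc p))) (U : Filter (TB E M))
      (𝓝 (e x, w)) := ((e.continuousAt hs).tendsto.comp h1).prodMk_nhds hw
  have h4 : (U : Filter (TB E M)) ≤ 𝓝 (tv x (dS e (e x) w)) := by
    intro s h5
    have h6 := eventually_chart he hs (P := fun y u => tv y u ∈ s) h5
    have h7 := dC_dS he (e.map_source hs) w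
    rw [e.left_inv hs] at h7
    rw [h7] at h6
    filter_upwards [h3.eventually h6, h1.eventually (e.open_source.mem_nhds hs)] with p h8 h9
    rwa [e.left_inv h9, dS_dC he h9] at h8
  exact ⟨_, hcl.mem_of_tendsto (f := id) h4 hU, h4⟩

theorem RM.isClosed_mn (h : RM g) : IsClosed {p : TB E M | Mn g (pt p) (vc p)} :=
  isClosed_eq (continuous_pt.dist (continuous_iff_continuousAt.2 fun p => (ctV_id p).ex h))
    (CptAux.continuous_g h).sqrt

/-- Small vectors over points near `x`. -/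
theorem RM.eventually_small (h : RM g) {x : M} {P : M → E → Prop}
    (hP : ∀ᶠ p in 𝓝 (tv x (0 : E)), P (pt p) (vc p)) :
    ∃ r > 0, ∀ y v, dist y x < r → nr g y v < r → P y v := by
  have he := chart_mem_atlas E x
  have hs := mem_chart_source E x
  generalize chartAt E x = e at he hs
  obtain ⟨K, hK, h1⟩ := h.chart_coercive he hs
  have h2 := eventually_chart he hs hP
  rw [map_zero, nhds_prod_eq, eventually_prod_iff] at h2
  obtain ⟨pa, ha, pb, hb, h3⟩ := h2
  obtain ⟨δ, hδ, h4⟩ := Metric.eventually_nhds_iff.1 hb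
  obtain ⟨r, hr, h5⟩ := Metric.eventually_nhds_iff.1
    ((h1.and ((e.continuousAt hs).eventually ha)).and (e.open_source.eventually_mem hs))
  refine ⟨min r (δ / K), by positivity, fun y v hy hv => ?_⟩
  obtain ⟨⟨h6, h7⟩, h8⟩ := h5 (hy.trans_le (min_le_left _ _))
  have h9 : dist (dC e y v) 0 < δ := by
    rw [dist_zero_right]
    have := (lt_div_iff₀ hK).1 (hv.trans_le (min_le_right _ _))
    linarith [(h6 v).1]
  have := h3 h7 (h4 h9)
  rwa [e.left_inv h8, dS_dC he h8] at this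

/-- Uniform constants on compact sets. -/
theorem unif_of_compact {K : Set T} (hK : IsCompact K) {P : T → ℝ → Prop}
    (mono : ∀ t C C', C ≤ C' → P t C → P t C') (loc : ∀ t ∈ K, ∃ C, ∀ᶠ s in 𝓝 t, P s C) :
    ∃ C > 0, ∀ t ∈ K, P t C := by
  refine hK.induction_on (p := fun s => ∃ C > 0, ∀ t ∈ s, P t C) ⟨1, one_pos, by simp⟩
    (fun s t hst ⟨C, h0, h⟩ => ⟨C, h0, fun x hx => h x (hst hx)⟩)
    (fun s t ⟨C, h0, h⟩ ⟨C', _, h'⟩ => ⟨max C C', lt_max_of_lt_left h0, fun x hx => hx.elim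
      (fun hx => mono _ _ _ (le_max_left _ _) (h x hx))
      fun hx => mono _ _ _ (le_max_right _ _) (h' x hx)⟩) fun x hx => ?_
  obtain ⟨C, h⟩ := loc x hx
  exact ⟨_, mem_nhdsWithin_of_mem_nhds h, max C 1, by positivity,
    fun t ht => mono _ _ _ (le_max_left _ _) ht⟩

/-- Uniform radii on compact sets. -/
theorem radius_of_compact {K : Set T} (hK : IsCompact K) {P : T → ℝ → Prop}
    (mono : ∀ t r r', 0 < r' → r' ≤ r → P t r → P t r')
    (loc : ∀ t ∈ K, ∃ r > 0, ∀ᶠ s in 𝓝 t, P s r) : ∃ r > 0, ∀ t ∈ K, P t r := by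
  refine hK.induction_on (p := fun s => ∃ r > 0, ∀ t ∈ s, P t r) ⟨1, one_pos, by simp⟩
    (fun s t hst ⟨C, h0, h⟩ => ⟨C, h0, fun x hx => h x (hst hx)⟩)
    (fun s t ⟨C, h0, h⟩ ⟨C', h0', h'⟩ => ⟨min C C', lt_min h0 h0', fun x hx => hx.elim
      (fun hx => mono _ _ _ (lt_min h0 h0') (min_le_left _ _) (h x hx))
      fun hx => mono _ _ _ (lt_min h0 h0') (min_le_right _ _) (h' x hx)⟩) fun x hx => ?_
  obtain ⟨r, h0, h⟩ := loc x hx
  exact ⟨_, mem_nhdsWithin_of_mem_nhds h, r, h0, fun t ht => ht⟩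

end Vale.Agent.P234
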