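import Vale.Agent.P234.HR
import Vale.Agent.P084.Hull

/-! Subgradients of the maximum of two support functions. -/

open scoped Manifold ContDiff Topology
open Set Filter

set_option linter.unusedSectionVars false

namespace Vale.Agent.P234

open Vale.Agent.P255

variable {E : Type} [NormedAddCommGroup E] [NormedSpace ℝ E] [FiniteDimensional ℝ E]
  {M : Type} [MetricSpace M] [CompactSpace M] [ChartedSpace E M] [IsManifold 𝓘(ℝ, E) ∞ M]
  {g : M → E →L[ℝ] E →L[ℝ] ℝ}


theorem continuous_psi (a : Fin 2 → ℝ) (y : Fin 2 → M) : Continuous (psi a y) := by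
  have hc : ∀ i, Continuous fun x : M => a i - cost x (y i) := fun i =>
    continuous_const.sub (continuous_cost.comp (continuous_id.prodMk continuous_const))
  exact (hc 0).max (hc 1)

theorem le_psi (a : Fin 2 → ℝ) (y : Fin 2 → M) (x : M) (i : Fin 2) :
    a i - cost x (y i) ≤ psi a y x := by
  fin_cases i
  · exact le_max_left _ _
  · exact le_max_right _ _

theorem RM.pa_nonempty (h : RM g) (a : Fin 2 → ℝ) (y : Fin 2 → M) (x : M) :
    (Pa g a y x).Nonempty := by
  have : ∃ i, psi a y x = a i - cost x (y i) :=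
    (max_choice (a 0 - cost x (y 0)) (a 1 - cost x (y 1))).elim (fun h => ⟨0, h⟩) fun h => ⟨1, h⟩
  obtain ⟨i, hi⟩ := this
  obtain ⟨v, hv, he⟩ := h.hopf_rinow x (y i)
  exact ⟨v, hv, i, he, hi⟩

theorem RM.hull_bdd (h : RM g) : ∃ R, ∀ a y x, ∀ p ∈ convexHull ℝ (Pa g a y x), g x p p ≤ R := by
  obtain ⟨D, -, hD⟩ := exists_diam (M := M)
  refine ⟨D, fun a y x => convexHull_min (fun p hp => ?_) (h.convex_ball x D)⟩
  have h1 : dist x (ex g x p) = nr g x p := hp.1
  have h2 := hD x (ex g x p)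
  rwa [h1, h.nr_sq] at h2

theorem RM.sub_of_hull (h : RM g) : ∃ C, ∀ a y x, ∀ p ∈ convexHull ℝ (Pa g a y x),
    Sub g (psi a y) C x p := by
  obtain ⟨R, hR⟩ := h.hull_bdd
  obtain ⟨C, -, hC⟩ := h.g5 R
  refine ⟨C, fun a y x => convexHull_min (t := {p | Sub g (psi a y) C x p}) (fun p hp ξ => ?_) ?_⟩
  · have h1 := hC x p ξ (hR a y x p (subset_convexHull ℝ _ hp))
    obtain ⟨hm, i, he, hi⟩ := hp
    have h2 := h.cost_of_mn hm
    have h3 := le_psi a y (ex g x ξ) i
    rw [he] at h1 h2
    linarith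
  · intro p hp q hq s t hs ht hst ξ
    have h1 := mul_le_mul_of_nonneg_left (hp ξ) hs
    have h2 := mul_le_mul_of_nonneg_left (hq ξ) ht
    have h3 : g x (s • p + t • q) ξ = s * g x p ξ + t * g x q ξ := by simp
    have h4 : t = 1 - s := by linarith
    rw [h3]
    subst h4
    linarith

namespace DanskinAux

theorem closed_pa (h : RM g) (a : Fin 2 → ℝ) (y : Fin 2 → M) :
    IsClosed {Q : TB E M | vc Q ∈ Pa g a y (pt Q)} := by
  have h1 : Continuous fun Q : TB E M => ex g (pt Q) (vc Q) :=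
    continuous_iff_continuousAt.2 fun Q => (ctV_id Q).ex h
  have h2 : {Q : TB E M | vc Q ∈ Pa g a y (pt Q)} = {Q : TB E M | Mn g (pt Q) (vc Q)} ∩
      ⋃ i, ({Q : TB E M | ex g (pt Q) (vc Q) = y i} ∩
        {Q : TB E M | psi a y (pt Q) = a i - cost (pt Q) (y i)}) := by
    ext Q
    simp [Pa]
  rw [h2]
  refine h.isClosed_mn.inter (isClosed_iUnion_of_finite fun i =>
    (isClosed_eq h1 continuous_const).inter (isClosed_eq ?_ ?_))
  · exact (continuous_psi a y).comp continuous_pt
  · exact continuous_const.sub (continuous_cost.comp (continuous_pt.prodMk continuous_const))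

theorem up (h : RM g) {f : M → ℝ} {C s : ℝ} {x : M} {ξ p : E}
    (hp : Sub g f C (ex g x (s • ξ)) p) : f (ex g x (s • ξ)) ≤
      f x + s * (g (ex g x (s • ξ)) p (vl g x ξ s) + C * s * g x ξ ξ) := by
  have h1 := hp ((-s) • vl g x ξ s)
  rw [h.ex_flow, add_neg_cancel, zero_smul, h.ex_zero] at h1
  simp only [map_smul, smul_apply, smul_eq_mul, h.energy] at h1
  linarith

end DanskinAux

/-- Upper directional estimate: with `x s = ex g x (s • ξ)`, `u s = vl g x ξ s`, any `p ∈ Pa (x s)` satisfies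
`psi (x s) - psi x ≤ s * g (x s) p (u s) + C s² g ξ ξ` (`sub_of_hull` at `x s`, `ex_flow`); and
`g (x s) p (u s) < β` for small `s` by `IsCompact.eventually_forall_of_forall_eventually` on
`isCompact_TB`, because `Pa` has a closed graph (replace `u s` by the vector
`dS e (e (pt P)) (dC e (x s) (u s))` at `pt P`, continuous in `(s, P)` by `ctV_dS`, `ctV_iff`). -/
theorem RM.danskin (h : RM g) (a : Fin 2 → ℝ) (y : Fin 2 → M) (x : M) (ξ : E) {β : ℝ}
    (hβ : ∀ p ∈ Pa g a y x, g x p ξ < β) :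
    ∀ᶠ s in 𝓝[>] (0 : ℝ), psi a y (ex g x (s • ξ)) ≤ psi a y x + s * β := by
  obtain ⟨R, hR⟩ := h.hull_bdd
  obtain ⟨C, hC⟩ := h.sub_of_hull
  have he : chartAt E x ∈ atlas E M := chart_mem_atlas E x
  have hx : x ∈ (chartAt E x).source := mem_chart_source E x
  generalize chartAt E x = e at he hx
  have hf : CtV (fun s : ℝ => geo g x ξ s) (fun s => vl g x ξ s) 0 :=
    (ctV_const x (continuousAt_const (y := ξ))).flow h continuousAt_id
  have h0 : geo g x ξ 0 = x := h.geo_zero x ξ
  have hf' := (ctV_iff he (t := (0 : ℝ)) (by rw [h0]; exact hx)).1 hf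
  have key : ∀ᶠ s in 𝓝 (0 : ℝ), ∀ Q ∈ {Q : TB E M | g (pt Q) (vc Q) (vc Q) ≤ R},
      pt Q = geo g x ξ s → vc Q ∈ Pa g a y (pt Q) →
      g (pt Q) (vc Q) (dS e (e (pt Q)) (dC e (geo g x ξ s) (vl g x ξ s))) + C * s * g x ξ ξ < β := by
    refine (h.isCompact_TB R).eventually_forall_of_forall_eventually fun Q _ => ?_
    have c1 : ContinuousAt (fun z : ℝ × TB E M => pt z.2) (0, Q) :=
      (continuous_pt.comp continuous_snd).continuousAt
    by_cases h1 : pt Q = x
    · by_cases h2 : vc Q ∈ Pa g a y (pt Q)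
      · have c2 : CtV (fun z : ℝ × TB E M => pt z.2) (fun z => vc z.2) (0, Q) :=
          CtV.comp (φ := Prod.snd) (ctV_id Q) continuousAt_snd
        have c3 : ContinuousAt (fun z : ℝ × TB E M => dC e (geo g x ξ z.1) (vl g x ξ z.1)) (0, Q) :=
          ContinuousAt.comp (f := Prod.fst) (x := ((0 : ℝ), Q)) hf'.2 continuousAt_fst
        have c4 := (c2.inner h (ctV_dS he c1 (by simpa [h1] using hx) c3)).add
          (((continuousAt_const (y := C)).mul continuousAt_fst).mul
            (continuousAt_const (y := g x ξ ξ)))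
        have c5 := c4.eventually_lt (continuousAt_const (y := β)) (by
          simp only [Pi.add_apply, Pi.mul_apply, h0, h.vl_zero, h1, dS_dC he hx, mul_zero,
            zero_mul, add_zero]
          exact hβ _ (h1 ▸ h2))
        exact c5.mono fun z hz _ _ => hz
      · have c2 : ∀ᶠ z : ℝ × TB E M in 𝓝 (0, Q), vc z.2 ∉ Pa g a y (pt z.2) :=
          (continuousAt_snd (p := ((0 : ℝ), Q))).eventually
            ((DanskinAux.closed_pa h a y).isOpen_compl.mem_nhds h2)
        exact c2.mono fun z hz _ h' => absurd h' hz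
    · have c2 : ContinuousAt (fun z : ℝ × TB E M => geo g x ξ z.1) (0, Q) :=
        ContinuousAt.comp (f := Prod.fst) (x := ((0 : ℝ), Q)) hf'.1 continuousAt_fst
      have c3 := (c1.prodMk c2).eventually
        (isClosed_diagonal.isOpen_compl.mem_nhds (by simpa [h0] using h1))
      exact c3.mono fun z hz h' _ => absurd h' hz
  have hs : ∀ᶠ s in 𝓝 (0 : ℝ), geo g x ξ s ∈ e.source :=
    hf'.1.eventually (e.open_source.mem_nhds (by simpa only [h0] using hx))
  filter_upwards [nhdsWithin_le_nhds key, nhdsWithin_le_nhds hs, self_mem_nhdsWithin]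
    with s h1 h2 h3
  obtain ⟨p, hp⟩ := h.pa_nonempty a y (geo g x ξ s)
  have h4 := h1 (tv (geo g x ξ s) p) (hR a y _ p (subset_convexHull ℝ _ hp)) rfl hp
  rw [pt_tv, vc_tv, dS_dC he h2, h.geo_eq] at h4
  rw [h.geo_eq] at hp
  have h5 := DanskinAux.up h (hC a y _ p (subset_convexHull ℝ _ hp))
  have h6 := mul_le_mul_of_nonneg_left h4.le (le_of_lt h3)
  linarith

/-- `Pa` is compact, so is its hull (`P084.isCompact_convexHull_of_isCompact`); separate
(`geometric_hahn_banach_closed_point`), `riesz`, `danskin`. -/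
theorem RM.hull_of_sub (h : RM g) {a : Fin 2 → ℝ} {y : Fin 2 → M} {C : ℝ} {x : M} {p : E}
    (hp : Sub g (psi a y) C x p) : p ∈ convexHull ℝ (Pa g a y x) := by
  obtain ⟨R, hR⟩ := h.hull_bdd
  have h1 : Continuous fun v : E => tv x v :=
    continuous_iff_continuousAt.2 fun v => ctV_const x continuousAt_id
  have h2 : IsClosed (Pa g a y x) := (DanskinAux.closed_pa h a y).preimage h1
  have h3 : IsCompact (Pa g a y x) := (h.isCompact_ball x R).of_isClosed_subset h2
    fun v hv => hR a y x v (subset_convexHull ℝ _ hv)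
  by_contra hn
  obtain ⟨f, u, hu, hf⟩ := geometric_hahn_banach_closed_point (convex_convexHull ℝ _)
    (P084.isCompact_convexHull_of_isCompact h3).isClosed hn
  obtain ⟨ξ, hξ⟩ := h.riesz x f
  have h4 := h.danskin a y x ξ (β := u) fun q hq => by
    rw [h.symm, hξ]
    exact hu q (subset_convexHull ℝ _ hq)
  have h5 : ∀ᶠ s in 𝓝 (0 : ℝ), C * s * g x ξ ξ < f p - u :=
    ContinuousAt.eventually_lt (f := fun s : ℝ => C * s * g x ξ ξ) (by fun_prop) continuousAt_const
      (by simpa using hf)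
  obtain ⟨s, ⟨h6, h7⟩, h8⟩ := ((h4.and (nhdsWithin_le_nhds h5)).and self_mem_nhdsWithin).exists
  have h9 := hp (s • ξ)
  simp only [map_smul, smul_apply, smul_eq_mul] at h9
  rw [h.symm x p, hξ] at h9
  have h10 := mul_lt_mul_of_pos_left h7 (show 0 < s from h8)
  linarith

end Vale.Agent.P234
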