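import Vale.Agent.P255.Defs

/-! Exponential map, injectivity domains and the Ma-Trudinger-Wang tensor. -/

open scoped Manifold ContDiff Topology Bundle

namespace Vale.Agent.P234

open Vale.Agent.P255

variable {E : Type} [NormedAddCommGroup E] [NormedSpace ℝ E]
  {M : Type} [MetricSpace M] [ChartedSpace E M]

variable (E) in
/-- The differential at time `0` of a curve. -/
noncomputable def dif (γ : ℝ → M) : ℝ →L[ℝ] E := mfderiv 𝓘(ℝ, ℝ) 𝓘(ℝ, E) γ 0

/-- `γ` is a geodesic defined for all times with initial point `x` and initial velocity `v`. -/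
def IsGeoFrom (g : M → E →L[ℝ] E →L[ℝ] ℝ) (x : M) (v : E) (γ : ℝ → M) : Prop :=
  IsGeodesicOn g γ Set.univ ∧ γ 0 = x ∧ dif E γ 1 = v

/-- The geodesic with initial point `x` and initial velocity `v`. -/
noncomputable def geo (g : M → E →L[ℝ] E →L[ℝ] ℝ) (x : M) (v : E) : ℝ → M :=
  @Classical.epsilon (ℝ → M) ⟨fun _ => x⟩ (IsGeoFrom g x v)

/-- The exponential map. -/
noncomputable def ex (g : M → E →L[ℝ] E →L[ℝ] ℝ) (x : M) (v : E) : M := geo g x v 1

/-- The cost `d² / 2`. -/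
noncomputable def cost (x y : M) : ℝ := dist x y ^ 2 / 2

/-- The tangent injectivity domain. -/
def Inj (g : M → E →L[ℝ] E →L[ℝ] ℝ) (x : M) : Set E :=
  {v | ∃ a > 1, dist x (ex g x (a • v)) = a * √(g x v v)}

/-- The Ma-Trudinger-Wang tensor. -/
noncomputable def mtw (g : M → E →L[ℝ] E →L[ℝ] ℝ) (x : M) (v ξ η : E) : ℝ :=
  -(3 / 2) * iteratedDeriv 2 (fun s : ℝ =>
    iteratedDeriv 2 (fun t : ℝ => cost (ex g x (t • ξ)) (ex g x (v + s • η))) 0) 0

/-- The weak MTW condition. -/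
def WeakMTW (g : M → E →L[ℝ] E →L[ℝ] ℝ) : Prop :=
  ∀ x, ∀ v ∈ Inj g x, ∀ ξ η, g x ξ η = 0 → 0 ≤ mtw g x v ξ η

/-- The distance of `M` is the geodesic distance of the Riemannian metric `g`. -/
def IsGeodesicDist [IsManifold 𝓘(ℝ, E) ∞ M] (g : RMetric E M) : Prop :=
  letI : Bundle.RiemannianBundle (fun x : M => TangentSpace 𝓘(ℝ, E) x) := ⟨g.toRiemannianMetric⟩
  ∀ x y : M, edist x y = Manifold.riemannianEDist 𝓘(ℝ, E) x y

end Vale.Agent.P234
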