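import Vale.Agent.P234.Cpt

/-! Comparison of the distance with charts. -/

open scoped Manifold ContDiff Topology
open Set Filter

set_option linter.unusedSectionVars false

namespace Vale.Agent.P234

open Vale.Agent.P255

variable {E : Type} [NormedAddCommGroup E] [NormedSpace ℝ E] [FiniteDimensional ℝ E]
  {M : Type} [MetricSpace M] [CompactSpace M] [ChartedSpace E M] [IsManifold 𝓘(ℝ, E) ∞ M]
  {g : M → E →L[ℝ] E →L[ℝ] ℝ}


/-- `h.cal` applied to `K⁻¹ • ℓ` for a norming functional `ℓ` (`exists_dual_vector''`),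
`chart_coercive`. -/
theorem RM.chart_le_dist (h : RM g) {e : OpenPartialHomeomorph M E} (he : e ∈ atlas E M) {x : M}
    (hx : x ∈ e.source) : ∃ K > 0, ∀ᶠ y in 𝓝 x, ‖e y - e x‖ ≤ K * dist x y := by
  obtain ⟨K, hK, hev⟩ := h.chart_coercive he hx
  obtain ⟨ρ, hρ, hball⟩ := Metric.eventually_nhds_iff_ball.1 (hev.and (e.open_source.mem_nhds hx))
  refine ⟨K, hK, ?_⟩
  filter_upwards [Metric.ball_mem_nhds x hρ] with y hy
  obtain ⟨ℓ, hℓ1, hℓ⟩ := exists_dual_vector'' ℝ (e y - e x)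
  have hF : ∀ p : E, fderiv ℝ (fun w => (K⁻¹ • ℓ) w) p = K⁻¹ • ℓ := fun p => (K⁻¹ • ℓ).fderiv
  have h1 := h.cal e he (fun w => (K⁻¹ • ℓ) w) x y ρ (by rwa [Metric.mem_ball, dist_comm] at hy)
    (fun z hz => by
      obtain ⟨hz1, hz2⟩ := hball z hz
      refine ⟨hz2, (K⁻¹ • ℓ).contDiff.contDiffAt, fun w => ?_⟩
      have h2 := (hz1 (dS e (e z) w)).1
      have h3 := dC_dS he (e.map_source hz2) w
      rw [e.left_inv hz2] at h3
      rw [h3] at h2
      rw [hF, gc_apply, e.left_inv hz2]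
      have h4 : ℓ w ≤ ‖w‖ := by
        have h5 := ℓ.le_opNorm w
        have h6 := mul_le_mul_of_nonneg_right hℓ1 (norm_nonneg w)
        have h7 := le_abs_self (ℓ w)
        rw [Real.norm_eq_abs] at h5
        linarith
      change K⁻¹ * ℓ w ≤ nr g z (dS e (e z) w)
      rw [inv_mul_le_iff₀ hK]
      linarith)
  have h2 : (K⁻¹ • ℓ) (e y) - (K⁻¹ • ℓ) (e x) = K⁻¹ * ‖e y - e x‖ := by
    rw [← map_sub]
    change K⁻¹ * ℓ (e y - e x) = _
    rw [hℓ]
    rfl
  rw [h2, inv_mul_le_iff₀ hK] at h1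
  exact h1

/-- A curve that moves slower than linearly has zero velocity. -/
theorem RM.dM_eq_zero (h : RM g) {X : ℝ → M} (hX : SmP E X 0)
    (ho : ∀ ε > 0, ∀ᶠ s in 𝓝 (0 : ℝ), dist (X 0) (X s) ≤ ε * |s|) : dM E X 0 1 = 0 := by
  have he : chartAt E (X 0) ∈ atlas E M := chart_mem_atlas E (X 0)
  have hx : X 0 ∈ (chartAt E (X 0)).source := mem_chart_source E (X 0)
  obtain ⟨K, hK, hev⟩ := h.chart_le_dist he hx
  have h1 : HasFDerivAt (fun b => chartAt E (X 0) (X b)) (0 : ℝ →L[ℝ] E) 0 := by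
    rw [hasFDerivAt_iff_isLittleO, Asymptotics.isLittleO_iff]
    intro c hc
    filter_upwards [ho (c / K) (div_pos hc hK), hX.continuousAt.eventually hev] with s h2 h3
    have h4 := mul_le_mul_of_nonneg_left h2 hK.le
    have e1 : K * (c / K * |s|) = c * |s| := by field_simp
    simp only [zero_apply, sub_zero, Real.norm_eq_abs]
    linarith
  have h2 := hX.dC_dM he hx 1
  rw [h1.fderiv, dC_chartAt] at h2
  exact h2

end Vale.Agent.P234
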