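import Vale.Agent.P234.Normal
import Vale.Agent.P234.Anal

/-! First variation. -/

open scoped Manifold ContDiff Topology
open Set Filter

set_option linter.unusedSectionVars false

namespace Vale.Agent.P234

open Vale.Agent.P255

variable {E : Type} [NormedAddCommGroup E] [NormedSpace ℝ E] [FiniteDimensional ℝ E]
  {M : Type} [MetricSpace M] [CompactSpace M] [ChartedSpace E M] [IsManifold 𝓘(ℝ, E) ∞ M]
  {g : M → E →L[ℝ] E →L[ℝ] ℝ}
  {A : Type} [NormedAddCommGroup A] [NormedSpace ℝ A]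
  {B : Type} [NormedAddCommGroup B] [NormedSpace ℝ B]
  {e e' : OpenPartialHomeomorph M E}

namespace FVAux

theorem two_le : (2 : WithTop ℕ∞) ≤ ∞ := by
  exact WithTop.coe_le_coe.2 (le_top : (2 : ℕ∞) ≤ ⊤)

theorem cd_one (h : RM g) {x z : M} (hs : SmF E cost x z) :
    ContDiffAt ℝ ∞ (fun ξ : E => cost (ex g x ξ) z) 0 := by
  have hs' : SmF E cost ((fun ξ : E => ex g x ξ) 0) ((fun _ : E => z) 0) := by
    simpa [h.ex_zero] using hs
  exact hs'.comp (h.smP_ex x contDiffAt_id) (smP_const z 0)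

theorem cd_two (h : RM g) {C : M → M → ℝ} {x z : M} (hs : SmF E C x z) :
    ContDiffAt ℝ ∞ (fun p : E × E => C (ex g x p.1) (ex g z p.2)) 0 := by
  have hs' : SmF E C ((fun p : E × E => ex g x p.1) 0) ((fun p : E × E => ex g z p.2) 0) := by
    simpa [h.ex_zero] using hs
  exact SmF.comp (X := fun p : E × E => ex g x p.1) (Y := fun p : E × E => ex g z p.2) hs'
    (h.smP_ex x contDiffAt_fst) (h.smP_ex z contDiffAt_snd)

/-- The gradient along the minimizing ray. -/
theorem ray (h : RM g) {x : M} {v : E} (hv : Mn g x v) {r : ℝ} (hr : 0 < r) (hr1 : r < 1)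
    (hd : DifferentiableAt ℝ (fun ξ => cost (ex g x ξ) (ex g x v)) (r • v)) :
    fderiv ℝ (fun ξ => cost (ex g x ξ) (ex g x v)) (r • v) = -((1 - r) • g x v) := by
  set f : E → ℝ := fun ξ => cost (ex g x ξ) (ex g x v) with hf
  have h1r : 0 < 1 - r := by linarith
  have hq : HasFDerivAt (fun ξ : E => g x ξ ξ) ((2 * r) • g x v) (r • v) := by
    have := (g x).hasFDerivAt_of_bilinear (hasFDerivAt_id (r • v)) (hasFDerivAt_id (r • v))
    refine this.congr_fderiv ?_
    ext w
    simp [h.symm x w v]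
    ring
  have hmin : IsLocalMin (fun ξ => f ξ + (1 - r) / (2 * r) * g x ξ ξ) (r • v) := by
    refine Filter.Eventually.of_forall fun ξ => ?_
    have e1 : f (r • v) = (1 - r) ^ 2 * g x v v / 2 := by
      have := h.mn_dist hv hr.le hr1.le le_rfl
      rw [one_smul] at this
      simp only [hf, cost, this, mul_pow, h.nr_sq]
    have e2 := cost_tri hr h1r x (ex g x ξ) (ex g x v)
    rw [h.cost_of_mn hv] at e2
    have e3 := h.cost_ex x ξ
    have e4 : g x v v / 2 ≤ g x ξ ξ / 2 / r + f ξ / (1 - r) := by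
      have : cost x (ex g x ξ) / r ≤ g x ξ ξ / 2 / r := by gcongr
      have e5 : r + (1 - r) = 1 := by ring
      rw [e5, div_one] at e2
      simp only [hf]
      linarith
    have e6 : (1 - r) * (g x v v / 2) ≤ (1 - r) * (g x ξ ξ / 2 / r + f ξ / (1 - r)) := by gcongr
    have e7 : (1 - r) * (g x ξ ξ / 2 / r + f ξ / (1 - r)) = f ξ + (1 - r) / (2 * r) * g x ξ ξ := by
      field_simp
      ring
    have e8 : f (r • v) + (1 - r) / (2 * r) * g x (r • v) (r • v) = (1 - r) * (g x v v / 2) := by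
      rw [e1]
      simp only [map_smul, smul_apply, smul_eq_mul]
      field_simp
      ring
    show f (r • v) + (1 - r) / (2 * r) * g x (r • v) (r • v) ≤ f ξ + (1 - r) / (2 * r) * g x ξ ξ
    linarith
  have hz := hmin.hasFDerivAt_eq_zero (hd.hasFDerivAt.add (hq.const_mul ((1 - r) / (2 * r))))
  rw [eq_neg_iff_add_eq_zero, ← hz, smul_smul]
  have : (1 - r) / (2 * r) * (2 * r) = 1 - r := by field_simp
  rw [this]

end FVAux

/-- `f ξ = cost (ex g x ξ) (ex g x v)`. For `r ∈ (0,1)`, `cost_tri` and `cost_ex` give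
`(1 - r) * (g x v v / 2 - g x ξ ξ / (2 * r)) ≤ f ξ` with equality at `ξ = r • v` (`mn_dist`), so
`fderiv f (r • v) = -(1 - r) • g x v` for small `r > 0`; let `r → 0` and differentiate in `r`. -/
theorem RM.fv (h : RM g) {x : M} {v : E} (hv : Mn g x v) (hs : SmF E cost x (ex g x v)) :
    fderiv ℝ (fun ξ => cost (ex g x ξ) (ex g x v)) 0 = -g x v ∧
      ∀ ξ, Ah g x (ex g x v) v ξ = g x v ξ := by
  set f : E → ℝ := fun ξ => cost (ex g x ξ) (ex g x v) with hf
  have hc : ContDiffAt ℝ 2 f 0 := (FVAux.cd_one h hs).of_le FVAux.two_le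
  have hd1 : DifferentiableAt ℝ (fderiv ℝ f) 0 :=
    (hc.fderiv_right (m := 1) (by norm_num)).differentiableAt (by norm_num)
  have hl : HasDerivAt (fun r : ℝ => r • v) v 0 := by
    simpa using (hasDerivAt_id (0 : ℝ)).smul_const v
  have hD : HasDerivAt (fun r : ℝ => fderiv ℝ f (r • v)) (fderiv ℝ (fderiv ℝ f) 0 v) 0 := by
    have h0 : HasFDerivAt (fderiv ℝ f) (fderiv ℝ (fderiv ℝ f) 0) ((0 : ℝ) • v) := by
      rw [zero_smul]
      exact hd1.hasFDerivAt
    exact h0.comp_hasDerivAt (0 : ℝ) hl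
  have hD' : HasDerivAt (fun r : ℝ => -((1 - r) • g x v)) (g x v) 0 := by
    have := (((hasDerivAt_id (0 : ℝ)).const_sub 1).smul_const (g x v)).neg
    exact this.congr_deriv (by simp)
  have hev : ∀ᶠ r in 𝓝[>] (0 : ℝ), fderiv ℝ f (r • v) = -((1 - r) • g x v) := by
    have h1 : ∀ᶠ ξ in 𝓝 (0 : E), ContDiffAt ℝ 2 f ξ := hc.eventually (by simp)
    have h2 : Tendsto (fun r : ℝ => r • v) (𝓝 0) (𝓝 0) := by
      have := hl.continuousAt.tendsto
      simpa using this
    filter_upwards [mem_nhdsWithin_of_mem_nhds (h2.eventually h1), Ioo_mem_nhdsGT one_pos]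
      with r hr hr'
    exact FVAux.ray h hv hr'.1 hr'.2 (hr.differentiableAt (by norm_num))
  have h0 : fderiv ℝ f ((0 : ℝ) • v) = -((1 - (0 : ℝ)) • g x v) :=
    tendsto_nhds_unique_of_eventuallyEq (l := 𝓝[>] (0 : ℝ))
      (hD.continuousAt.tendsto.mono_left nhdsWithin_le_nhds)
      (hD'.continuousAt.tendsto.mono_left nhdsWithin_le_nhds) hev
  refine ⟨by simpa using h0, fun ξ => ?_⟩
  have h3 : HasDerivWithinAt (fun r : ℝ => fderiv ℝ f (r • v)) (g x v) (Ioi 0) 0 :=
    hD'.hasDerivWithinAt.congr_of_eventuallyEq hev h0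
  have h4 := (uniqueDiffWithinAt_Ioi (0 : ℝ)).eq_deriv _ hD.hasDerivWithinAt h3
  show fderiv ℝ (fderiv ℝ f) 0 v ξ = g x v ξ
  rw [h4]

/-- Both `X` and `ex g x` factor through the chart at `x`; `dM_ex_zero`. -/
theorem RM.fv_fam (h : RM g) {x : M} {v : E} (hv : Mn g x v) (hs : SmF E cost x (ex g x v))
    {X : A → M} {a : A} (hX : SmP E X a) (ha : X a = x) (u : A) :
    fderiv ℝ (fun b => cost (X b) (ex g x v)) a u = -g x v (dM E X a u) := by
  have he : chartAt E x ∈ atlas E M := chart_mem_atlas E x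
  have hx : x ∈ (chartAt E x).source := mem_chart_source E x
  set c := chartAt E x with hc
  set y := ex g x v with hy
  have hF : ContDiffAt ℝ ∞ (fun b : E => cost (c.symm b) y) (c x) := by
    have hs' : SmF E cost ((fun b : E => c.symm b) (c x)) ((fun _ : E => y) (c x)) := by
      simpa [c.left_inv hx] using hs
    exact hs'.comp (smP_symm he contDiffAt_id (c.map_source hx)) (smP_const y _)
  have key : ∀ {A : Type} [NormedAddCommGroup A] [NormedSpace ℝ A] {X : A → M} {a : A},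
      SmP E X a → X a = x → ∀ u : A, fderiv ℝ (fun b => cost (X b) y) a u =
        fderiv ℝ (fun b : E => cost (c.symm b) y) (c x) (dM E X a u) := by
    intro A _ _ X a hX ha u
    have hxa : X a ∈ c.source := ha ▸ hx
    have h1 : (fun b => cost (X b) y) =ᶠ[𝓝 a]
        (fun b : E => cost (c.symm b) y) ∘ fun b => c (X b) := by
      filter_upwards [hX.continuousAt.preimage_mem_nhds (c.open_source.mem_nhds hxa)] with b hb
      simp only [Function.comp, c.left_inv hb]
    have h2 : DifferentiableAt ℝ (fun b => c (X b)) a :=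
      (hX.chart he hxa).differentiableAt (by simp)
    have h3 : DifferentiableAt ℝ (fun b : E => cost (c.symm b) y) (c (X a)) := by
      rw [ha]
      exact hF.differentiableAt (by simp)
    rw [h1.fderiv_eq, fderiv_comp a h3 h2, ContinuousLinearMap.comp_apply, ← hX.dC_dM he hxa u]
    subst ha
    rw [hc, dC_chartAt]
  have k1 := key (X := ex g x) (a := 0) (h.smP_ex x contDiffAt_id) (h.ex_zero x) (dM E X a u)
  rw [h.dM_ex_zero, (h.fv hv hs).1] at k1
  rw [key hX ha u, ← k1]
  rfl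

/-- Both variables (`mn_back`, `ex_back`, `cost_comm`). -/
theorem RM.fv_two (h : RM g) {x : M} {v : E} (hv : Mn g x v) (hs : SmF E cost x (ex g x v))
    (u : E × E) : fderiv ℝ (fun p : E × E => cost (ex g x p.1) (ex g (ex g x v) p.2)) 0 u =
      -g x v u.1 + g (ex g x v) (vl g x v 1) u.2 := by
  set F : E × E → ℝ := fun p => cost (ex g x p.1) (ex g (ex g x v) p.2) with hF
  have hd : HasFDerivAt F (fderiv ℝ F 0) 0 :=
    ((FVAux.cd_two h hs).differentiableAt (by simp)).hasFDerivAt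
  have h1 : HasFDerivAt (fun ξ => cost (ex g x ξ) (ex g x v))
      ((fderiv ℝ F 0).comp (ContinuousLinearMap.inl ℝ E E)) 0 := by
    have h0 : HasFDerivAt F (fderiv ℝ F 0) (ContinuousLinearMap.inl ℝ E E 0) := by
      rw [map_zero]
      exact hd
    have := h0.comp 0 (ContinuousLinearMap.inl ℝ E E).hasFDerivAt
    refine this.congr_of_eventuallyEq (Filter.Eventually.of_forall fun ξ => ?_)
    simp [hF, h.ex_zero]
  have h2 : HasFDerivAt (fun ξ => cost (ex g (ex g x v) ξ) (ex g (ex g x v) (-vl g x v 1)))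
      ((fderiv ℝ F 0).comp (ContinuousLinearMap.inr ℝ E E)) 0 := by
    have h0 : HasFDerivAt F (fderiv ℝ F 0) (ContinuousLinearMap.inr ℝ E E 0) := by
      rw [map_zero]
      exact hd
    have := h0.comp 0 (ContinuousLinearMap.inr ℝ E E).hasFDerivAt
    refine this.congr_of_eventuallyEq (Filter.Eventually.of_forall fun ξ => ?_)
    simp [hF, h.ex_zero, h.ex_back, cost_comm x]
  have hs2 : SmF E cost (ex g x v) (ex g (ex g x v) (-vl g x v 1)) := by
    rw [h.ex_back]
    exact hs.swap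
  have k1 := h1.fderiv.symm.trans (h.fv hv hs).1
  have k2 := h2.fderiv.symm.trans (h.fv (h.mn_back hv) hs2).1
  have k3 := congrArg (fun L : E →L[ℝ] ℝ => L u.1) k1
  have k4 := congrArg (fun L : E →L[ℝ] ℝ => L u.2) k2
  simp only [ContinuousLinearMap.comp_apply, ContinuousLinearMap.inl_apply,
    ContinuousLinearMap.inr_apply, map_neg, neg_neg, neg_apply] at k3 k4
  have hu : u = (u.1, 0) + (0, u.2) := by simp
  rw [← k3, ← k4, ← map_add, ← hu]

theorem RM.cd_two (h : RM g) {C : M → M → ℝ} {x z : M} (hs : SmF E C x z) :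
    ContDiffAt ℝ ∞ (fun p : E × E => C (ex g x p.1) (ex g z p.2)) 0 := FVAux.cd_two h hs

theorem RM.cd_one (h : RM g) {x z : M} (hs : SmF E cost x z) :
    ContDiffAt ℝ ∞ (fun ξ : E => cost (ex g x ξ) z) 0 := FVAux.cd_one h hs

theorem RM.hs_fst (h : RM g) {x z : M} (hs : SmF E cost x z) (ξ ξ' : E) :
    Hs g cost x z (ξ, 0) (ξ', 0) = Ah g x z ξ ξ' := by
  have hc : ContDiffAt ℝ 2 (fun p : E × E => cost (ex g x p.1) (ex g z p.2))
      (0 + ContinuousLinearMap.inl ℝ E E 0) := by
    rw [map_zero, add_zero]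
    exact (h.cd_two hs).of_le FVAux.two_le
  have := hess_comp_affine (ContinuousLinearMap.inl ℝ E E) hc ξ ξ'
  simp only [ContinuousLinearMap.inl_apply, zero_add, h.ex_zero] at this
  exact this.symm

theorem RM.ah_symm (h : RM g) {x z : M} (hs : SmF E cost x z) (ξ ξ' : E) :
    Ah g x z ξ ξ' = Ah g x z ξ' ξ :=
  hess_symm ((h.cd_one hs).of_le FVAux.two_le) ξ ξ'

end Vale.Agent.P234
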