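import Vale.Agent.P234.Smooth

/-! Test inequality near a conjugate minimizing vector. -/

open scoped Manifold ContDiff Topology
open Set Filter

set_option linter.unusedSectionVars false

namespace Vale.Agent.P234

open Vale.Agent.P255

variable {E : Type} [NormedAddCommGroup E] [NormedSpace ℝ E] [FiniteDimensional ℝ E]
  {M : Type} [MetricSpace M] [CompactSpace M] [ChartedSpace E M] [IsManifold 𝓘(ℝ, E) ∞ M]
  {g : M → E →L[ℝ] E →L[ℝ] ℝ}


namespace TestAux

/-- The broken geodesic upper bound for the cost. -/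
noncomputable def S (g : M → E →L[ℝ] E →L[ℝ] ℝ) (x : M) (q : E × E × E) : ℝ :=
  2 * cost (ex g x q.2.1) (ex g x ((2⁻¹ : ℝ) • q.1 + q.2.2)) +
    2 * cost (ex g x ((2⁻¹ : ℝ) • q.1 + q.2.2)) (ex g x q.1)

theorem le_S (x : M) (q : E × E × E) : cost (ex g x q.2.1) (ex g x q.1) ≤ S g x q := by
  have h1 := cost_tri (s := 2⁻¹) (t := 2⁻¹) (by norm_num) (by norm_num) (ex g x q.2.1)
    (ex g x ((2⁻¹ : ℝ) • q.1 + q.2.2)) (ex g x q.1)
  norm_num at h1
  rw [S]
  norm_num
  linarith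

theorem half (h : RM g) {x : M} {v : E} (hv : Mn g x v) :
    cost x (ex g x ((2⁻¹ : ℝ) • v)) = g x v v / 8 ∧
      cost (ex g x ((2⁻¹ : ℝ) • v)) (ex g x v) = g x v v / 8 := by
  have h1 := h.mn_dist hv (s := 0) (t := 2⁻¹) le_rfl (by norm_num) (by norm_num)
  have h2 := h.mn_dist hv (s := 2⁻¹) (t := 1) (by norm_num) (by norm_num) le_rfl
  rw [zero_smul, h.ex_zero] at h1
  rw [one_smul] at h2
  rw [cost, cost, h1, h2, ← h.nr_sq]
  constructor <;> ring

theorem S_zero (h : RM g) {x : M} {v : E} (hv : Mn g x v) : S g x (v, 0) = g x v v / 2 := by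
  simp only [S, Prod.fst_zero, Prod.snd_zero, add_zero, h.ex_zero, (half h hv).1, (half h hv).2]
  ring

theorem smF_half (h : RM g) {x : M} {w : E} (hw : Mn g x w) :
    SmF E cost (ex g x ((1 - 2⁻¹ : ℝ) • w)) (ex g x w) := by
  obtain ⟨h1, h2⟩ := h.inj_back hw (s := 2⁻¹) (by norm_num) (by norm_num)
  exact (h2 ▸ h.smF_inj h1).swap

theorem smooth (h : RM g) {x : M} {w : E} (hw : Mn g x w) : ContDiffAt ℝ ∞ (S g x) (w, 0) := by
  have h1 : SmP E (fun q : E × E × E => ex g x ((2⁻¹ : ℝ) • q.1 + q.2.2)) (w, 0) :=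
    h.smP_ex x (by fun_prop)
  refine (contDiffAt_const.mul (SmF.comp (C := cost) ?_ (h.smP_ex x (by fun_prop)) h1)).add
    (contDiffAt_const.mul (SmF.comp (C := cost) ?_ h1 (h.smP_ex x (by fun_prop))))
  · simpa only [Prod.fst_zero, Prod.snd_zero, add_zero, h.ex_zero] using
      h.smF_inj (h.inj_of_mn hw (s := 2⁻¹) (by norm_num) (by norm_num))
  · have h2 := smF_half h hw
    rw [show (1 - 2⁻¹ : ℝ) = 2⁻¹ by norm_num] at h2
    simpa only [Prod.fst_zero, Prod.snd_zero, add_zero] using h2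

theorem cross (h : RM g) {x : M} {w : E} (hw : Mn g x w)
    (hS : ContDiffAt ℝ 2 (fun u => S g x (w, u)) 0) (ξ κ : E) :
    fderiv ℝ (fderiv ℝ fun u => S g x (w, u)) 0 (0, κ) (ξ, 0) = -2 * g x ξ κ := by
  have h1 : HasFDerivAt (fderiv ℝ fun u => S g x (w, u))
      (fderiv ℝ (fderiv ℝ fun u => S g x (w, u)) 0) (ContinuousLinearMap.inr ℝ E E 0) := by
    rw [map_zero]
    exact ((hS.fderiv_right (m := 1) le_rfl).differentiableAt one_ne_zero).hasFDerivAt
  have h2 := (h1.comp 0 (ContinuousLinearMap.inr ℝ E E).hasFDerivAt).clm_apply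
    (hasFDerivAt_const ((ξ, 0) : E × E) 0)
  have h3 : ∀ᶠ μ in 𝓝 (0 : E), (2⁻¹ : ℝ) • w + μ ∈ Inj g x :=
    (continuous_const_add _).continuousAt.eventually (p := (· ∈ Inj g x)) (by
      simpa only [add_zero] using
        h.inj_open (h.inj_of_mn hw (s := 2⁻¹) (by norm_num) (by norm_num)))
  have h4 : ∀ᶠ μ in 𝓝 (0 : E), ContDiffAt ℝ 2 (fun u => S g x (w, u)) (0, μ) :=
    (Continuous.prodMk_right (0 : E)).continuousAt.eventually (hS.eventually (by norm_num))
  have h5 := (((g x).flip ξ).hasFDerivAt (x := (2⁻¹ : ℝ) • w + 0)).comp 0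
    ((hasFDerivAt_id (0 : E)).const_add ((2⁻¹ : ℝ) • w))
  have h6 := h2.unique ((h5.const_mul (-2)).congr_of_eventuallyEq (by
    filter_upwards [h3, h4] with μ a1 a2
    have a3 := (a2.differentiableAt two_ne_zero).hasFDerivAt.comp (0 : E)
      (hasFDerivAt_prodMk_left (𝕜 := ℝ) (0 : E) μ)
    have a4 := ((h.cd_one (h.smF_inj a1)).differentiableAt (by norm_num)).hasFDerivAt
    rw [(h.fv (h.mn_of_inj a1) (h.smF_inj a1)).1] at a4
    have a5 := congrArg (fun T : E →L[ℝ] ℝ => T ξ) (a3.unique ((a4.const_mul 2).add_const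
      (2 * cost (ex g x ((2⁻¹ : ℝ) • w + μ)) (ex g x w))))
    simp at a5 ⊢
    linarith))
  have h7 := congrArg (fun T : E →L[ℝ] ℝ => T κ) h6
  rw [h.symm x ξ]
  simpa using h7

end TestAux

open TestAux in
theorem RM.test (h : RM g) {x : M} {w κ : E} (hw : Mn g x w) (hκ : dM E (ex g x) w κ = 0) :
    ∃ Q : E → E × E →L[ℝ] E × E →L[ℝ] ℝ, ContDiffAt ℝ ∞ Q w ∧
      (∀ᶠ v in 𝓝 w, (∀ a b, Q v a b = Q v b a) ∧
        (v ∈ Inj g x → ∀ ξ μ, Ah g x (ex g x v) ξ ξ ≤ Q v (ξ, μ) (ξ, μ)) ∧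
        (Mn g x v → 0 ≤ Q v (0, κ) (0, κ))) ∧
      Q w (0, κ) (0, κ) ≤ 0 ∧ ∀ ξ, Q w (ξ, 0) (0, κ) = -2 * g x ξ κ := by
  have h0 := smooth h hw
  have two : (2 : WithTop ℕ∞) ≤ ∞ := ENat.LEInfty.out
  have h1 : ∀ᶠ v in 𝓝 w, ContDiffAt ℝ 2 (fun u => S g x (v, u)) 0 :=
    ((Continuous.prodMk_left (0 : E × E)).continuousAt.eventually
      ((h0.of_le two).eventually (by norm_num))).mono fun v hv =>
        hv.comp 0 (contDiffAt_const.prodMk contDiffAt_id)
  have h2 := h1.self_of_nhds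
  refine ⟨fun v => fderiv ℝ (fderiv ℝ fun u => S g x (v, u)) 0, contDiffAt_hess h0,
    h1.mono fun v hv => ⟨hess_symm hv, fun hI ξ μ => ?_, fun hm => ?_⟩, ?_, fun ξ => ?_⟩
  · have a1 : ContDiffAt ℝ 2 (fun ξ : E => cost (ex g x ξ) (ex g x v))
        (0 + ContinuousLinearMap.fst ℝ E E 0) := by
      rw [map_zero, add_zero]
      exact (h.cd_one (h.smF_inj hI)).of_le two
    have a2 := hess_comp_affine _ a1 (ξ, μ) (ξ, μ)
    rw [map_zero, add_zero] at a2
    refine a2.symm.trans_le ((hess_le_of_le (a1.comp 0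
      (f := fun c : E × E => 0 + ContinuousLinearMap.fst ℝ E E c) (by fun_prop)) hv ?_
      (.of_forall fun u => ?_)).2 (ξ, μ))
    · simp only [Function.comp, map_zero, add_zero, h.ex_zero, S_zero h (h.mn_of_inj hI),
        h.cost_of_mn (h.mn_of_inj hI)]
    · simpa using le_S x (v, u)
  · have a1 : ContDiffAt ℝ 2 (fun u => S g x (v, u)) (0 + ContinuousLinearMap.inr ℝ E E 0) := by
      rwa [map_zero, add_zero]
    have a2 := hess_comp_affine _ a1 κ κ
    rw [map_zero, add_zero] at a2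
    refine le_trans ?_ (((hess_le_of_le (f := fun _ => g x v v / 2) contDiffAt_const
      (a1.comp 0 (f := fun c : E => 0 + ContinuousLinearMap.inr ℝ E E c) (by fun_prop)) ?_
      (.of_forall fun u => ?_)).2 κ).trans_eq a2)
    · simp
    · simp only [Function.comp, map_zero, add_zero, S_zero h hm]
    · simpa [h.ex_zero, h.cost_of_mn hm] using le_S (g := g) x (v, 0, u)
  · have a1 := h.ker_second hw hκ (τ := 2⁻¹) (by norm_num) (by norm_num) (smF_half h hw)
    have a2 := deriv2_line h2 (0, (2⁻¹ : ℝ) • κ)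
    have a3 : ContDiffAt ℝ 2 (fun s : ℝ => S g x (w, 0 + s • (0, (2⁻¹ : ℝ) • κ))) 0 :=
      ContDiffAt.comp (g := fun u => S g x (w, u)) 0 (by simpa using h2) (by fun_prop)
    have a4 : ContDiffAt ℝ ∞
        (fun s : ℝ => cost (ex g x ((1 - 2⁻¹ : ℝ) • (w + s • κ))) (ex g x w)) 0 :=
      SmF.comp (C := cost) (by simpa only [zero_smul, add_zero] using smF_half h hw)
        (h.smP_ex x (by fun_prop)) (smP_const _ _)
    have a5 := (a2.symm.trans_le (deriv2_le_of_le a3 (ContDiffAt.add (by fun_prop)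
      ((a4.of_le two).div_const _)) ?_ (.of_forall fun s => ?_))).trans a1
    · rw [show ((0, (2⁻¹ : ℝ) • κ) : E × E) = (2⁻¹ : ℝ) • (0, κ) by simp] at a5
      simp only [map_smul, smul_apply, smul_eq_mul] at a5
      linarith
    · rw [show (1 - 2⁻¹ : ℝ) = 2⁻¹ by norm_num]
      simp only [zero_smul, add_zero, S_zero h hw, (half h hw).2]
      ring
    · have b1 := h.cost_ex x ((2⁻¹ : ℝ) • (w + s • κ))
      rw [show (1 - 2⁻¹ : ℝ) = 2⁻¹ by norm_num]
      simp only [S, zero_add, Prod.smul_mk, smul_zero, h.ex_zero, smul_comm s, ← smul_add]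
      simp only [map_smul, smul_apply, smul_eq_mul] at b1
      rw [div_inv_eq_mul]
      linarith
  · exact (hess_symm h2 _ _).trans (cross h hw h2 ξ κ)

end Vale.Agent.P234
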