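import Vale.Agent.P234.Mtw
import Vale.Agent.P234.Test

/-! Segments of minimizing vectors do not meet the conjugate locus. -/

open scoped Manifold ContDiff Topology
open Set Filter

set_option linter.unusedSectionVars false

namespace Vale.Agent.P234

open Vale.Agent.P255

variable {E : Type} [NormedAddCommGroup E] [NormedSpace ℝ E] [FiniteDimensional ℝ E]
  {M : Type} [MetricSpace M] [CompactSpace M] [ChartedSpace E M] [IsManifold 𝓘(ℝ, E) ∞ M]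
  {g : M → E →L[ℝ] E →L[ℝ] ℝ}

namespace FocalAux

theorem expand (Q : E × E →L[ℝ] E × E →L[ℝ] ℝ) (hQ : ∀ a b, Q a b = Q b a) (ξ κ : E) (l : ℝ) :
    Q (ξ, l • κ) (ξ, l • κ)
      = Q (ξ, 0) (ξ, 0) + 2 * l * Q (ξ, 0) (0, κ) + l ^ 2 * Q (0, κ) (0, κ) := by
  have h1 : (ξ, l • κ) = ((ξ, 0) : E × E) + l • ((0, κ) : E × E) := by simp
  rw [h1]
  simp only [map_add, map_smul, add_apply, smul_apply,
    smul_eq_mul]
  rw [hQ (0, κ) (ξ, 0)]
  ring

theorem tendsto_smul (v : E) : Tendsto (fun s : ℝ => s • v) (𝓝[<] 1) (𝓝 v) := by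
  have h1 : ContinuousAt (fun s : ℝ => s • v) 1 := by fun_prop
  have h2 := h1.tendsto
  rw [one_smul] at h2
  exact h2.mono_left nhdsWithin_le_nhds

theorem cont_app {Q : E → E × E →L[ℝ] E × E →L[ℝ] ℝ} {w : E} (hQ : ContinuousAt Q w)
    (a b : E × E) : ContinuousAt (fun v => Q v a b) w :=
  (hQ.clm_apply continuousAt_const).clm_apply continuousAt_const

end FocalAux

open FocalAux

/-- `hess_unif` along `s ↦ s • v`, `hs_fst`. -/
theorem RM.ah_lower (h : RM g) {x : M} {v : E} (hv : Mn g x v) (hn : NC g x v) (ξ : E) :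
    ∃ K, ∀ᶠ s in 𝓝[<] (1 : ℝ), -K ≤ Ah g x (ex g x (s • v)) ξ ξ := by
  obtain ⟨K, hK⟩ := h.hess_unif hn
  have h1 : ContinuousAt (fun w : E => tv x w) v := ctV_const x continuousAt_id
  have h2 := (h1.tendsto.comp (tendsto_smul v)).eventually hK
  refine ⟨K * nr g x ξ * nr g x ξ, ?_⟩
  filter_upwards [h2, Ioo_mem_nhdsLT (one_pos (α := ℝ))] with s hs hs1
  have h3 := h.inj_of_mn hv hs1.1.le hs1.2
  have h4 : HB g cost x (ex g x (s • v)) K := hs h3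
  have h5 := h4 (ξ, 0) (ξ, 0)
  rw [h.hs_fst (h.smF_inj h3), nr_zero, add_zero] at h5
  exact (abs_le.1 h5).1

/-- If `g x ξ κ ≠ 0` the Hessian blows up: `test` with `μ = λ • κ`. -/
theorem RM.ah_blow (h : RM g) {x : M} {w κ ξ : E} (hw : Mn g x w) (hκ : dM E (ex g x) w κ = 0)
    (hξ : g x ξ κ ≠ 0) (K : ℝ) : ∀ᶠ s in 𝓝[<] (1 : ℝ), Ah g x (ex g x (s • w)) ξ ξ ≤ -K := by
  obtain ⟨Q, hQ, hev, h0, hx⟩ := h.test hw hκ
  obtain ⟨l, hl⟩ : ∃ l : ℝ, l = (Q w (ξ, 0) (ξ, 0) + K + 1) / (4 * g x ξ κ) := ⟨_, rfl⟩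
  have h1 : Q w (ξ, l • κ) (ξ, l • κ) < -K := by
    rw [expand _ hev.self_of_nhds.1, hx]
    have h2 : l * (4 * g x ξ κ) = Q w (ξ, 0) (ξ, 0) + K + 1 := by
      rw [hl, div_mul_cancel₀ _ (mul_ne_zero four_ne_zero hξ)]
    nlinarith [mul_nonneg (sq_nonneg l) (neg_nonneg.2 h0)]
  have h2 := (cont_app hQ.continuousAt (ξ, l • κ) (ξ, l • κ)).eventually_lt continuousAt_const h1
  filter_upwards [(tendsto_smul w).eventually (hev.and h2), Ioo_mem_nhdsLT (one_pos (α := ℝ))]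
    with s hs hs1
  exact (hs.1.2.1 (h.inj_of_mn hw hs1.1.le hs1.2) ξ (l • κ)).trans hs.2.le

/-- The kernel direction is tangent to the segment. With `v = s • (w + τ • κ)`, `w = s⁻¹ • v - τ • κ`,
`fv`, `ah_symm` and `ker_orth` give `Ah v w w = g w w - τ² g κ κ + τ² Ah v κ κ`, and
`Ah v κ κ ≤ Q v (κ, λκ) (κ, λκ)` with `λ = λ₀ / τ²`; `quad_of_min` for `τ ↦ Q (w + τκ) (0,κ) (0,κ)`. -/
theorem RM.ah_jump (h : RM g) {x : M} {w κ : E} (hκ0 : κ ≠ 0) (hκ : dM E (ex g x) w κ = 0)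
    (hw : ∀ᶠ τ in 𝓝 (0 : ℝ), Mn g x (w + τ • κ)) : ∃ k > 0, ∀ᶠ τ in 𝓝[≠] (0 : ℝ),
      ∀ᶠ s in 𝓝[<] (1 : ℝ), Ah g x (ex g x (s • (w + τ • κ))) w w ≤ g x w w - k := by
  have hw0 : Mn g x w := by simpa using hw.self_of_nhds
  obtain ⟨Q, hQ, hev, h0, hx⟩ := h.test hw0 hκ
  have hG := h.pos x κ hκ0
  have horth := h.ker_orth hκ
  have hlc : ContDiffAt ℝ 2 (fun τ : ℝ => w + τ • κ) 0 := by fun_prop
  have hl : Tendsto (fun τ : ℝ => w + τ • κ) (𝓝 0) (𝓝 w) := by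
    have h1 := hlc.continuousAt.tendsto
    rwa [zero_smul, add_zero] at h1
  have hQ2 : ContDiffAt ℝ 2 Q w := hQ.of_le (WithTop.coe_le_coe.2 (le_top : (2 : ℕ∞) ≤ ⊤))
  have hQ2' : ContDiffAt ℝ 2 Q (w + (0 : ℝ) • κ) := by rwa [zero_smul, add_zero]
  have hf : ContDiffAt ℝ 2 (fun τ : ℝ => Q (w + τ • κ) (0, κ) (0, κ)) 0 :=
    ((hQ2'.comp (0 : ℝ) hlc).clm_apply contDiffAt_const).clm_apply contDiffAt_const
  have hf0 : Q w (0, κ) (0, κ) = 0 := le_antisymm h0 (hev.self_of_nhds.2.2 hw0)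
  obtain ⟨C, hC, hq⟩ := quad_of_min hf (by
    filter_upwards [hw, hl.eventually hev] with τ h1 h2
    rw [zero_smul, add_zero, hf0]
    exact h2.2.2 h1)
  simp only [zero_smul, add_zero, hf0, sub_zero] at hq
  obtain ⟨l, hld⟩ : ∃ l : ℝ, l = g x κ κ / C := ⟨_, rfl⟩
  have hl0 : 0 < l := by rw [hld]; positivity
  have hlC : l * C = g x κ κ := by rw [hld, div_mul_cancel₀ _ hC.ne']
  refine ⟨l * g x κ κ, by positivity, ?_⟩
  have h3 : ∀ᶠ τ in 𝓝 (0 : ℝ), τ ^ 2 * Q (w + τ • κ) (κ, 0) (κ, 0)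
      + 2 * l * Q (w + τ • κ) (κ, 0) (0, κ) < -(2 * (l * g x κ κ)) := by
    have h4 := (cont_app hQ2'.continuousAt (κ, 0) (κ, 0)).comp (f := fun τ : ℝ => w + τ • κ)
      hlc.continuousAt
    have h5 := (cont_app hQ2'.continuousAt (κ, 0) (0, κ)).comp (f := fun τ : ℝ => w + τ • κ)
      hlc.continuousAt
    refine ContinuousAt.eventually_lt (((continuousAt_id.pow 2).mul h4).add
      (continuousAt_const.mul h5)) continuousAt_const ?_
    simp only [zero_smul, add_zero, hx]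
    nlinarith [mul_pos hl0 hG]
  have h4 : ∀ᶠ v in 𝓝 w, ContinuousAt Q v :=
    (hQ2.eventually (by simp)).mono fun v hv => hv.continuousAt
  filter_upwards [self_mem_nhdsWithin, nhdsWithin_le_nhds hw, nhdsWithin_le_nhds hq,
    nhdsWithin_le_nhds h3, nhdsWithin_le_nhds (hl.eventually h4),
    nhdsWithin_le_nhds (hl.eventually hev.eventually_nhds)] with τ hτ h5 h6 h7 h8 h9
  have hτ0 : τ ≠ 0 := hτ
  have hτ2 : 0 < τ ^ 2 := by positivity
  obtain ⟨u, hu⟩ : ∃ u, u = w + τ • κ := ⟨_, rfl⟩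
  rw [← hu] at h5 h6 h7 h8 h9 ⊢
  have h10 : τ ^ 2 * Q u (κ, (l / τ ^ 2) • κ) (κ, (l / τ ^ 2) • κ) < -(l * g x κ κ) := by
    rw [expand _ h9.self_of_nhds.1]
    have h11 : τ ^ 2 * (Q u (κ, 0) (κ, 0) + 2 * (l / τ ^ 2) * Q u (κ, 0) (0, κ)
        + (l / τ ^ 2) ^ 2 * Q u (0, κ) (0, κ)) = τ ^ 2 * Q u (κ, 0) (κ, 0)
          + 2 * l * Q u (κ, 0) (0, κ) + l ^ 2 * (Q u (0, κ) (0, κ) / τ ^ 2) := by
      field_simp
    have h12 : Q u (0, κ) (0, κ) / τ ^ 2 ≤ C := (div_le_iff₀ hτ2).2 h6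
    have h13 := mul_le_mul_of_nonneg_left h12 (sq_nonneg l)
    have h14 : l ^ 2 * C = l * g x κ κ := by rw [← hlC]; ring
    rw [h11]
    linarith
  have h11 := (continuousAt_const.mul
    (cont_app h8 (κ, (l / τ ^ 2) • κ) (κ, (l / τ ^ 2) • κ))).eventually_lt continuousAt_const h10
  filter_upwards [(tendsto_smul u).eventually (h9.and h11), Ioo_mem_nhdsLT (one_pos (α := ℝ))]
    with s hs hs1
  have hI := h.inj_of_mn h5 hs1.1.le hs1.2
  have hS := h.smF_inj hI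
  have h12 := hs.1.2.1 hI κ ((l / τ ^ 2) • κ)
  have h13 : τ ^ 2 * Q (s • u) (κ, (l / τ ^ 2) • κ) (κ, (l / τ ^ 2) • κ) < -(l * g x κ κ) := hs.2
  have h14 : ∀ ξ, Ah g x (ex g x (s • u)) u ξ = g x u ξ := by
    intro ξ
    have h15 := (h.fv (h.mn_of_inj hI) hS).2 ξ
    simp only [map_smul, smul_apply, smul_eq_mul] at h15
    exact mul_left_cancel₀ hs1.1.ne' h15
  obtain ⟨A, hA⟩ : ∃ A, A = Ah g x (ex g x (s • u)) := ⟨_, rfl⟩
  have hsym : A κ u = A u κ := by rw [hA]; exact h.ah_symm hS κ u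
  rw [← hA] at h12 h14 ⊢
  have h15 : A w w = A u w - τ * (A u κ - τ * A κ κ) := by
    have h16 : w = u - τ • κ := by rw [hu, add_sub_cancel_right]
    have h17 : A κ w = A u κ - τ * A κ κ := by
      rw [h16, map_sub, map_smul, hsym, smul_eq_mul]
    rw [← h17]
    conv_lhs => rw [show A w = A u - τ • A κ by rw [h16, map_sub, map_smul]]
    simp only [sub_apply, smul_apply, smul_eq_mul]
  have h16 : g x u w = g x w w := by
    rw [hu, map_add, map_smul, add_apply, smul_apply,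
      h.symm x κ w, horth, smul_zero, add_zero]
  have h17 : g x u κ = τ * g x κ κ := by
    rw [hu, map_add, map_smul, add_apply, smul_apply,
      horth, zero_add, smul_eq_mul]
  rw [h15, h14, h14, h16, h17]
  nlinarith [mul_le_mul_of_nonneg_left h12 hτ2.le, mul_pos hτ2 hG]

end Vale.Agent.P234
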