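import Vale.Agent.P234.Focal

/-! Segments of minimizing vectors do not meet the conjugate locus, conclusion. -/

open scoped Manifold ContDiff Topology
open Set Filter

set_option linter.unusedSectionVars false

namespace Vale.Agent.P234

open Vale.Agent.P255

variable {E : Type} [NormedAddCommGroup E] [NormedSpace ℝ E] [FiniteDimensional ℝ E]
  {M : Type} [MetricSpace M] [CompactSpace M] [ChartedSpace E M] [IsManifold 𝓘(ℝ, E) ∞ M]
  {g : M → E →L[ℝ] E →L[ℝ] ℝ}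


theorem RM.conc_seg (h : RM g) (hm : WeakMTW g) {x : M} {S : Set E} (hS : Convex ℝ S)
    (hM : ∀ v ∈ S, Mn g x v) {p q ξ : E} (hp : p ∈ S) (hq : q ∈ S) (hξ : g x ξ p = g x ξ q)
    {s a b : ℝ} (hs : 0 ≤ s) (hs1 : s < 1) (ha : 0 ≤ a) (hb : 0 ≤ b) (hab : a + b = 1) :
    a * Ah g x (ex g x (s • p)) ξ ξ + b * Ah g x (ex g x (s • q)) ξ ξ ≤
      Ah g x (ex g x (s • (a • p + b • q))) ξ ξ := by
  have h0 : ∀ w ∈ segment ℝ (s • p) (s • q), w ∈ Inj g x ∧ g x ξ w = s * g x ξ p := by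
    rintro _ ⟨c, d, hc, hd, hcd, rfl⟩
    constructor
    · rw [smul_comm c, smul_comm d, ← smul_add]
      exact h.inj_of_mn (hM _ (hS hp hq hc hd hcd)) hs hs1
    · simp only [map_add, map_smul, smul_eq_mul, ← hξ]
      rw [← add_mul, hcd, one_mul]
  have h1 := (h.concave hm (convex_segment (s • p) (s • q)) (fun w hw => (h0 w hw).1) (ξ := ξ)
    (fun w hw w' hw' => by rw [(h0 w hw).2, (h0 w' hw').2])).2 (left_mem_segment ℝ _ _)
    (right_mem_segment ℝ _ _) ha hb hab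
  rwa [smul_comm a, smul_comm b, ← smul_add] at h1

/-- Let `w = a • u + b • v` be conjugate with kernel vector `κ`, `η = v - u`. If `κ` is not a multiple of
`η` take `ξ ⟂ η` with `g ξ κ ≠ 0`: `concave` on `s • segment`, `ah_lower` at both ends, `ah_blow`. Otherwise
`ξ = w ⟂ η`: `concave`, `Ah (s • w) w w = g w w` (`fv`), `ah_lower` at one end, `ah_jump`. -/
theorem RM.convex_nc (h : RM g) (hm : WeakMTW g) {x : M} {S : Set E} (hS : Convex ℝ S)
    (hM : ∀ v ∈ S, Mn g x v) : Convex ℝ {v ∈ S | NC g x v} := by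
  refine convex_iff_forall_pos.2 ?_
  rintro u ⟨hu, hnu⟩ v ⟨hv, hnv⟩ a b ha hb hab
  have hw := hS hu hv ha.le hb.le hab
  refine ⟨hw, fun κ hκ => by_contra fun hκ0 => ?_⟩
  have hI : ∀ᶠ s in 𝓝[<] (1 : ℝ), s ∈ Ioo (0 : ℝ) 1 := Ioo_mem_nhdsLT one_pos
  by_cases hA : ∃ ξ, g x ξ (v - u) = 0 ∧ g x ξ κ ≠ 0
  · obtain ⟨ξ, h1, h2⟩ := hA
    obtain ⟨K, hK⟩ := h.ah_lower (hM u hu) hnu ξ
    obtain ⟨K', hK'⟩ := h.ah_lower (hM v hv) hnv ξ
    obtain ⟨s, hs, h3, h4, h5⟩ :=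
      (hI.and (hK.and (hK'.and (h.ah_blow (hM _ hw) hκ h2 (a * K + b * K' + 1))))).exists
    rw [map_sub, sub_eq_zero] at h1
    have h6 := h.conc_seg hm hS hM hu hv h1.symm hs.1.le hs.2 ha.le hb.le hab
    nlinarith [mul_le_mul_of_nonneg_left h3 ha.le, mul_le_mul_of_nonneg_left h4 hb.le]
  push Not at hA
  obtain ⟨w, hwd⟩ : ∃ w, w = a • u + b • v := ⟨_, rfl⟩
  obtain ⟨η, hη⟩ : ∃ η, η = v - u := ⟨_, rfl⟩
  rw [← hwd] at hw hκ
  rw [← hη] at hA
  obtain rfl : b = 1 - a := by linarith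
  have hη0 : η ≠ 0 := by
    rintro rfl
    obtain rfl : v = u := sub_eq_zero.1 hη.symm
    rw [hwd, ← add_smul, hab, one_smul] at hκ
    exact hκ0 (hnu κ hκ)
  have hp := h.pos x η hη0
  have hker : dM E (ex g x) w η = 0 := by
    obtain ⟨c, hc⟩ : ∃ c, c = g x κ η / g x η η := ⟨_, rfl⟩
    have h1 : g x (κ - c • η) η = 0 := by
      simp only [map_sub, map_smul, sub_apply, smul_apply, smul_eq_mul]
      rw [hc, div_mul_cancel₀ _ hp.ne', sub_self]
    have h2 : κ - c • η = 0 := by_contra fun h3 => (h.pos x _ h3).ne' (by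
      rw [(g x (κ - c • η)).map_sub, (g x (κ - c • η)).map_smul, hA _ h1, h1, smul_zero, sub_zero])
    rw [sub_eq_zero] at h2
    rw [h2, map_smul, smul_eq_zero] at hκ
    exact hκ.resolve_left fun h3 => hκ0 (by rw [h2, h3, zero_smul])
  have horth := h.ker_orth hker
  have hvw : v = w + a • η := by rw [hwd, hη]; module
  obtain ⟨k, hk, hj⟩ := h.ah_jump hη0 hker (by
    filter_upwards [Ioo_mem_nhds (neg_neg_of_pos hb) ha] with τ hτ
    have h1 : w + τ • η = (a - τ) • u + (1 - a + τ) • v := by rw [hwd, hη]; module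
    rw [h1]
    exact hM _ (hS hu hv (by linarith [hτ.2]) (by linarith [hτ.1]) (by ring)))
  obtain ⟨K, hK⟩ := h.ah_lower (hM v hv) hnv w
  have h1 : ∀ᶠ τ in 𝓝[>] (0 : ℝ), τ / a * (g x w w + K) < k :=
    nhdsWithin_le_nhds ((show ContinuousAt (fun τ : ℝ => τ / a * (g x w w + K)) 0 by
      fun_prop).eventually_lt continuousAt_const (by simpa using hk))
  have h0 : ∀ᶠ τ in 𝓝[>] (0 : ℝ), τ ∈ Ioo 0 a := Ioo_mem_nhdsGT ha
  obtain ⟨τ, hτ, h2, h3⟩ := (h0.and (h1.and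
    (hj.filter_mono (nhdsWithin_mono _ fun τ (hτ : 0 < τ) => hτ.ne')))).exists
  obtain ⟨s, hs, h4, h5⟩ := (hI.and (hK.and h3)).exists
  have hτa : τ / a ≤ 1 := (div_le_one ha).2 hτ.2.le
  have hτ0 : 0 ≤ τ / a := div_nonneg hτ.1.le ha.le
  have h6 := h.conc_seg hm hS hM hw hv (ξ := w) (by
    rw [hvw, map_add, map_smul, horth, smul_zero, add_zero]) hs.1.le hs.2 (sub_nonneg.2 hτa) hτ0
    (by ring)
  have h7 : (1 - τ / a) • w + (τ / a) • v = w + τ • η := by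
    rw [hvw, smul_add, smul_smul, div_mul_cancel₀ _ ha.ne']
    module
  have h8 := h.inj_of_mn (hM w hw) hs.1.le hs.2
  have h9 := (h.fv (h.mn_of_inj h8) (h.smF_inj h8)).2 w
  simp only [map_smul, smul_apply, smul_eq_mul] at h9
  rw [h7, mul_left_cancel₀ hs.1.ne' h9] at h6
  nlinarith [mul_le_mul_of_nonneg_left h4 hτ0]

end Vale.Agent.P234
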