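import Vale.Agent.P234.Hess

/-! Uniform quadratic estimates for the cost. -/

open scoped Manifold ContDiff Topology
open Set Filter

set_option linter.unusedSectionVars false

namespace Vale.Agent.P234

open Vale.Agent.P255

variable {E : Type} [NormedAddCommGroup E] [NormedSpace ℝ E] [FiniteDimensional ℝ E]
  {M : Type} [MetricSpace M] [CompactSpace M] [ChartedSpace E M] [IsManifold 𝓘(ℝ, E) ∞ M]
  {g : M → E →L[ℝ] E →L[ℝ] ℝ}


/-- `φ s = cost (ex g z (s • ζ)) (ex g z a)`, `φ 0 = g z a a / 2`, `φ' 0 = -g z a ζ` (`fv`),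
`φ'' s = Ah g (ex g z (s • ζ)) (ex g z a) u u`, `u = vl g z ζ s` (`ex_flow`, `deriv2_line`), `ah_diag`
with `ε = 1/2`, `taylor_unit`. -/
theorem RM.g8 (h : RM g) : ∃ r > 0, ∀ z a ζ, nr g z a ≤ r → nr g z ζ ≤ r →
    |cost (ex g z ζ) (ex g z a) - (g z a a / 2 - g z a ζ + g z ζ ζ / 2)| ≤ g z ζ ζ / 4 := by
  obtain ⟨r₁, hr₁, hn1, hn2⟩ := h.normal
  obtain ⟨r₂, hr₂, hd⟩ := h.ah_diag (ε := 1 / 2) (by norm_num)
  have hr : 0 < min r₁ r₂ := lt_min hr₁ hr₂
  have h1 := min_le_left r₁ r₂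
  have h2 := min_le_right r₁ r₂
  refine ⟨min r₁ r₂ / 3, by positivity, fun z a ζ ha hζ => ?_⟩
  have hdist : ∀ s ∈ Icc (0 : ℝ) 1, dist (ex g z (s • ζ)) (ex g z a) < min r₁ r₂ := by
    intro s hs
    have e1 := dist_triangle_left (ex g z (s • ζ)) (ex g z a) z
    have e2 := h.dist_ex z (s • ζ)
    have e3 := h.dist_ex z a
    rw [nr_smul, abs_of_nonneg hs.1] at e2
    have e4 : s * nr g z ζ ≤ 1 * nr g z ζ := mul_le_mul_of_nonneg_right hs.2 (nr_nonneg _ _)
    linarith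
  have hsm : ∀ s ∈ Icc (0 : ℝ) 1, SmF E cost (ex g z (s • ζ)) (ex g z a) :=
    fun s hs => (hn1 _ _ ((hdist s hs).trans_le h1)).1
  set φ : ℝ → ℝ := fun s => cost (ex g z (s • ζ)) (ex g z a) with hφ
  have hma : Mn g z a := hn2 z a (by linarith)
  have hs0 : SmF E cost z (ex g z a) := by
    simpa only [zero_smul, h.ex_zero] using hsm 0 ⟨le_rfl, zero_le_one⟩
  have hT := taylor_unit (φ := φ) (c := g z ζ ζ) (b := g z ζ ζ / 2) (fun s hs =>
    (SmF.comp (X := fun s : ℝ => ex g z (s • ζ)) (Y := fun _ => ex g z a) (hsm s hs)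
      (h.smP_ex z (by fun_prop)) (smP_const _ _)).of_le (by norm_cast)) (fun s hs => by
    have e1 : (fun t : ℝ => φ (s + t)) =
        fun t : ℝ => cost (ex g (ex g z (s • ζ)) (0 + t • vl g z ζ s)) (ex g z a) := by
      funext t
      rw [zero_add, h.ex_flow]
    have e2 : deriv (deriv φ) s = deriv (deriv fun t : ℝ => φ (s + t)) 0 := by
      have e3 : (deriv fun t : ℝ => φ (s + t)) = fun t => deriv φ (s + t) :=
        funext fun t => deriv_comp_const_add φ s t
      rw [e3, deriv_comp_const_add, add_zero]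
    have e3 := deriv2_line (f := fun ξ : E => cost (ex g (ex g z (s • ζ)) ξ) (ex g z a))
      ((h.cd_one (hsm s hs)).of_le (by norm_cast)) (vl g z ζ s)
    have e4 := hd _ _ ((hdist s hs).trans_le h2) (vl g z ζ s)
    rw [h.energy, Ah] at e4
    rw [e2, e1, e3]
    linarith)
  have e1 : φ 0 = g z a a / 2 := by
    simp only [hφ, zero_smul, h.ex_zero, h.cost_of_mn hma]
  have e2 : deriv φ 0 = -g z a ζ := by
    have e3 : HasDerivAt (fun s : ℝ => s • ζ) ζ 0 := by
      simpa using (hasDerivAt_id (0 : ℝ)).smul_const ζ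
    have e4 := ((h.cd_one hs0).differentiableAt (by simp)).hasFDerivAt
    rw [(h.fv hma hs0).1] at e4
    exact (e4.comp_hasDerivAt_of_eq 0 e3 (by simp)).deriv
  have e3 : φ 1 = cost (ex g z ζ) (ex g z a) := by simp only [hφ, one_smul]
  rw [e1, e2, e3] at hT
  refine le_trans (le_of_eq ?_) (hT.trans (le_of_eq (by ring)))
  congr 1
  ring

/-- Semiconcavity. Small `μ`: `cost_tri` through `ex g m (τ • a)` with `τ` small, `g8`, `cost_ex_ex`.
Large `μ`: `dist ≤ nr μ + nr a`. -/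
theorem RM.g5 (h : RM g) (R : ℝ) : ∃ C > 0, ∀ m a μ, g m a a ≤ R →
    cost (ex g m μ) (ex g m a) ≤ g m a a / 2 - g m a μ + C * g m μ μ := by
  obtain ⟨r, hr, h8⟩ := h.g8
  have hR := Real.sqrt_nonneg R
  set τ : ℝ := r / (r + √R + 1) with hτ
  have hτ0 : 0 < τ := by positivity
  have hτ1 : τ < 1 := by rw [hτ, div_lt_one (by positivity)]; linarith
  have hτ2 : τ * √R ≤ r := by
    rw [hτ, div_mul_eq_mul_div, div_le_iff₀ (by positivity)]
    gcongr
    linarith
  refine ⟨3 / (4 * τ) + (1 / 2 + 2 * √R / r), by positivity, fun m a μ ha => ?_⟩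
  have hna : nr g m a ≤ √R := Real.sqrt_le_sqrt ha
  have h0 := h.nonneg m μ
  have h0a := nr_nonneg (g := g) m a
  have h0μ := nr_nonneg (g := g) m μ
  rcases le_total (nr g m μ) r with hμ | hμ
  · have e1 := cost_tri hτ0 (sub_pos.2 hτ1) (ex g m μ) (ex g m (τ • a)) (ex g m a)
    have e2 := le_of_abs_le (h8 m (τ • a) μ (by
      rw [nr_smul, abs_of_pos hτ0]
      exact le_trans (by gcongr) hτ2) hμ)
    have e3 := h.cost_ex_ex m a τ 1
    rw [one_smul] at e3
    simp only [map_smul, smul_apply, smul_eq_mul] at e2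
    have e4 : cost (ex g m μ) (ex g m (τ • a)) / τ ≤
        τ * g m a a / 2 - g m a μ + 3 / (4 * τ) * g m μ μ := by
      rw [div_le_iff₀ hτ0]
      have e5 : 3 / (4 * τ) * g m μ μ * τ = 3 / 4 * g m μ μ := by field_simp
      rw [add_mul, e5]
      linarith
    have e5 : cost (ex g m (τ • a)) (ex g m a) / (1 - τ) ≤ (1 - τ) * g m a a / 2 := by
      rw [div_le_iff₀ (sub_pos.2 hτ1)]
      linarith
    rw [add_sub_cancel, div_one] at e1
    have e6 : 0 ≤ (1 / 2 + 2 * √R / r) * g m μ μ := by positivity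
    linarith
  · have e1 := dist_triangle_left (ex g m μ) (ex g m a) m
    have e2 := h.dist_ex m μ
    have e3 := h.dist_ex m a
    have e4 : dist (ex g m μ) (ex g m a) ^ 2 ≤ (nr g m μ + nr g m a) ^ 2 := by
      gcongr
      linarith
    have e5 := le_of_abs_le (h.cs m a μ)
    have e6 := h.nr_sq m a
    have e7 := h.nr_sq m μ
    have e8 : nr g m a * nr g m μ ≤ √R / r * g m μ μ := by
      rw [← e7, div_mul_eq_mul_div, le_div_iff₀ hr]
      calc nr g m a * nr g m μ * r ≤ √R * nr g m μ * nr g m μ := by gcongr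
        _ = _ := by ring
    have e9 : 0 ≤ 3 / (4 * τ) * g m μ μ := by positivity
    have e10 : (3 / (4 * τ) + (1 / 2 + 2 * √R / r)) * g m μ μ =
        3 / (4 * τ) * g m μ μ + g m μ μ / 2 + 2 * (√R / r * g m μ μ) := by ring
    unfold cost
    rw [e10]
    nlinarith

/-- `nr ζ ≤ 8 * nr a`: `g8`. Otherwise `dist ≥ nr ζ - nr a`. -/
theorem RM.g9 (h : RM g) : ∃ r > 0, ∀ z a ζ, nr g z a ≤ r → Mn g z ζ →
    g z a a / 2 - g z a ζ + g z ζ ζ / 4 ≤ cost (ex g z ζ) (ex g z a) := by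
  obtain ⟨r, hr, h8⟩ := h.g8
  refine ⟨r / 8, by positivity, fun z a ζ ha hζ => ?_⟩
  rcases le_total (nr g z ζ) r with h1 | h1
  · have e1 := neg_le_of_abs_le (h8 z a ζ (by linarith) h1)
    linarith
  · have h0a := nr_nonneg (g := g) z a
    have e1 := dist_triangle z (ex g z a) (ex g z ζ)
    have e3 := h.dist_ex z a
    rw [hζ, dist_comm (ex g z a)] at e1
    have e4 : (nr g z ζ - nr g z a) ^ 2 ≤ dist (ex g z ζ) (ex g z a) ^ 2 := by
      gcongr <;> linarith
    have e5 := neg_le_of_abs_le (h.cs z a ζ)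
    have e6 := h.nr_sq z a
    have e7 := h.nr_sq z ζ
    have e8 : 8 * nr g z a * nr g z ζ ≤ nr g z ζ * nr g z ζ := by
      gcongr <;> linarith
    unfold cost
    nlinarith

end Vale.Agent.P234
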