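import Vale.Agent.P234.Gap

/-! The gap inequality, conclusion. -/

open scoped Manifold ContDiff Topology
open Set Filter

set_option linter.unusedSectionVars false

namespace Vale.Agent.P234

open Vale.Agent.P255

variable {E : Type} [NormedAddCommGroup E] [NormedSpace ℝ E] [FiniteDimensional ℝ E]
  {M : Type} [MetricSpace M] [CompactSpace M] [ChartedSpace E M] [IsManifold 𝓘(ℝ, E) ∞ M]
  {g : M → E →L[ℝ] E →L[ℝ] ℝ}


/-- `m = ex g x (t • p)`, `u = vl g x p t`, `x' = ex g m (-t • u')` minimizing. `cost_tri` through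
`ex g m μ`, `g5` twice, `μ = (2K)⁻¹ • (u - u')`, `K = C (1/t + 1/(t' - t))`; the gain is
`g m (u - u') (u - u') / (4K)` and `dist x x' ≤ Λ t nr (u - u')`. -/
theorem RM.gap (h : RM g) (R T : ℝ) {η : ℝ} (hη : 0 < η) : ∃ δ > 0, ∀ x p x' t t', g x p p ≤ R →
    η ≤ t → t + η ≤ t' → t' ≤ T →
    cost x' (ex g x (t' • p)) / t' ≤
      cost x' (ex g x (t • p)) / t + (t' - t) * g x p p / 2 - δ * dist x x' ^ 2 := by
  by_cases hT : T ≤ 0
  · exact ⟨1, one_pos, fun x p x' t t' _ h1 h2 h3 => absurd hT (by linarith)⟩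
  push Not at hT
  obtain ⟨D, hD0, hD⟩ := exists_diam (M := M)
  obtain ⟨C, hC0, hC⟩ := h.g5 (D + T ^ 2 * R)
  obtain ⟨Λ, hΛ0, hΛ⟩ := h.ex_lip (D + T ^ 2 * R)
  refine ⟨η / (8 * C * T ^ 2 * Λ ^ 2), by positivity, fun x p x' t t' hR h1 h2 h3 => ?_⟩
  obtain ⟨s, rfl⟩ : ∃ s, t' = t + s := ⟨t' - t, by ring⟩
  have ht : 0 < t := hη.trans_le h1
  have hs : 0 < s := by linarith
  have hp0 := h.nonneg x p
  obtain ⟨a, ha, rfl⟩ := h.hopf_rinow (ex g x (t • p)) x'
  have hen := h.energy x p t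
  have hx := h.ex_flow x p (-t) t
  rw [add_neg_cancel, zero_smul, h.ex_zero] at hx
  rw [← h.ex_flow x p s t, add_sub_cancel_left, ← hen]
  rw [← hen] at hR hp0
  generalize ex g x (t • p) = m at *
  generalize vl g x p t = u at *
  have hb : ∀ r : ℝ, r ^ 2 ≤ T ^ 2 → g m (r • u) (r • u) ≤ D + T ^ 2 * R := fun r hr => by
    simp only [map_smul, smul_apply, smul_eq_mul]
    nlinarith [mul_le_mul hr hR hp0 (sq_nonneg T)]
  have haR : g m a a ≤ D + T ^ 2 * R := by
    have h4 := hD m (ex g m a)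
    rw [ha, h.nr_sq] at h4
    nlinarith [mul_nonneg (sq_nonneg T) (hp0.trans hR)]
  obtain ⟨l, hl⟩ : ∃ l, l = η / (4 * C * T) := ⟨_, rfl⟩
  have hl0 : 0 < l := by rw [hl]; positivity
  obtain ⟨b, hbd⟩ : ∃ b, b = (-t) • u - a := ⟨_, rfl⟩
  have h4 := hΛ m _ _ (hb (-t) (by nlinarith)) haR
  rw [← hbd, hx] at h4
  have h5 : dist x (ex g m a) ^ 2 ≤ Λ ^ 2 * g m b b := by
    rw [← h.nr_sq, ← mul_pow]
    gcongr
  have h6 := cost_tri ht hs (ex g m a) (ex g m ((-l) • b)) (ex g m (s • u))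
  have h7 := div_le_div_of_nonneg_right (hC m a ((-l) • b) haR) ht.le
  have h8 := div_le_div_of_nonneg_right (hC m _ ((-l) • b) (hb s (by nlinarith))) hs.le
  rw [cost_comm] at h7
  rw [cost_comm _ m, h.cost_of_mn ha]
  have hB := h.nonneg m b
  have h9 : g m a b = -g m b b - t * g m u b := by
    nth_rewrite 2 [hbd]
    simp only [map_sub, map_smul, sub_apply, smul_apply, smul_eq_mul]
    ring
  simp only [map_smul, smul_apply, smul_eq_mul] at h7 h8
  have h10 : (g m a a / 2 - -l * g m a b + C * (-l * (-l * g m b b))) / t +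
      (s * (s * g m u u) / 2 - -l * (s * g m u b) + C * (-l * (-l * g m b b))) / s =
      g m a a / 2 / t + s * g m u u / 2 - l / t * g m b b +
        (C * l ^ 2 / t + C * l ^ 2 / s) * g m b b := by
    rw [h9]
    field_simp
    ring
  have h11 : l / T ≤ l / t := by gcongr; linarith
  have h12 : C * l ^ 2 / t ≤ C * l ^ 2 / η := by gcongr
  have h13 : C * l ^ 2 / s ≤ C * l ^ 2 / η := by gcongr; linarith
  have h14 : η / (8 * C * T ^ 2 * Λ ^ 2) * (Λ ^ 2 * g m b b) =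
      (l / T - 2 * (C * l ^ 2 / η)) * g m b b := by
    rw [hl]
    field_simp
    ring
  have h15 := mul_le_mul_of_nonneg_left h5 (show 0 ≤ η / (8 * C * T ^ 2 * Λ ^ 2) by positivity)
  nlinarith [mul_le_mul_of_nonneg_right h11 hB, mul_le_mul_of_nonneg_right h12 hB,
    mul_le_mul_of_nonneg_right h13 hB]

end Vale.Agent.P234
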