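import Vale.Agent.P234.Alg

/-! Geodesics, the exponential map and minimizing vectors. -/

open scoped Manifold ContDiff Topology
open Set Filter

set_option linter.unusedSectionVars false

namespace Vale.Agent.P234

open Vale.Agent.P255

variable {E : Type} [NormedAddCommGroup E] [NormedSpace ℝ E] [FiniteDimensional ℝ E]
  {M : Type} [MetricSpace M] [CompactSpace M] [ChartedSpace E M] [IsManifold 𝓘(ℝ, E) ∞ M]
  {g : M → E →L[ℝ] E →L[ℝ] ℝ}


theorem RM.geo_spec (h : RM g) (x : M) (v : E) : IsGeoFrom g x v (geo g x v) := by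
  obtain ⟨γ, h1, h2, h3⟩ := h.toIsRM.geo_exists x v
  exact @Classical.epsilon_spec _ (IsGeoFrom g x v) ⟨γ, h1, h2, h3⟩

theorem RM.geo_zero (h : RM g) (x : M) (v : E) : geo g x v 0 = x := (h.geo_spec x v).2.1

theorem RM.vl_zero (h : RM g) (x : M) (v : E) : vl g x v 0 = v := (h.geo_spec x v).2.2

theorem RM.geo_aff (h : RM g) (x : M) (v : E) (a b : ℝ) :
    geo g (geo g x v a) (b • vl g x v a) = fun s => geo g x v (a + b * s) := by
  have h1 := (h.geo_spec x v).1
  have h2 := h.toIsRM.geo_affine h1 a b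
  have h3 := h.toIsRM.geo_unique isOpen_univ isPreconnected_univ
    (h.geo_spec (geo g x v a) (b • vl g x v a)).1 h2 (mem_univ 0) (by rw [h.geo_zero]; simp) (by
      rw [h1.vel_affine isOpen_univ a b 0 (mem_univ _), mul_zero, add_zero]
      exact h.vl_zero _ _)
  exact funext fun s => h3 (mem_univ s)

theorem RM.vl_aff (h : RM g) (x : M) (v : E) (a b s : ℝ) :
    vl g (geo g x v a) (b • vl g x v a) s = b • vl g x v (a + b * s) := by
  rw [vl, h.geo_aff, (h.geo_spec x v).1.vel_affine isOpen_univ a b s (mem_univ _)]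
  rfl

theorem RM.geo_eq (h : RM g) (x : M) (v : E) (t : ℝ) : geo g x v t = ex g x (t • v) := by
  have h1 := congrFun (h.geo_aff x v 0 t) 1
  rw [h.geo_zero, h.vl_zero, zero_add, mul_one] at h1
  exact h1.symm

theorem RM.ex_zero (h : RM g) (x : M) : ex g x 0 = x := by
  have h1 := h.geo_eq x 0 0
  rw [h.geo_zero, smul_zero] at h1
  exact h1.symm

theorem RM.vl_smul (h : RM g) (x : M) (v : E) (s t : ℝ) :
    vl g x (t • v) s = t • vl g x v (t * s) := by
  have h1 := h.vl_aff x v 0 t s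
  rwa [h.geo_zero, h.vl_zero, zero_add] at h1

theorem RM.ex_flow (h : RM g) (x : M) (v : E) (s t : ℝ) :
    ex g (ex g x (t • v)) (s • vl g x v t) = ex g x ((t + s) • v) := by
  have h1 := congrFun (h.geo_aff x v t s) 1
  rw [mul_one, h.geo_eq x v t, h.geo_eq x v (t + s)] at h1
  exact h1

theorem RM.vl_flow (h : RM g) (x : M) (v : E) (s t : ℝ) :
    vl g (ex g x (t • v)) (vl g x v t) s = vl g x v (t + s) := by
  have h1 := h.vl_aff x v t 1 s
  rwa [one_smul, one_smul, one_mul, h.geo_eq] at h1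

theorem RM.energy (h : RM g) (x : M) (v : E) (t : ℝ) :
    g (ex g x (t • v)) (vl g x v t) (vl g x v t) = g x v v := by
  have h1 := h.toIsRM.geo_energy isOpen_univ isPreconnected_univ (h.geo_spec x v).1
    (mem_univ t) (mem_univ 0)
  rw [h.geo_zero, h.geo_eq] at h1
  rw [vl, h1]
  exact congrArg₂ (fun a b => g x a b) (h.vl_zero x v) (h.vl_zero x v)

theorem RM.ex_flow1 (h : RM g) (x : M) (v : E) (s : ℝ) :
    ex g (ex g x v) (s • vl g x v 1) = ex g x ((1 + s) • v) := by
  simpa only [one_smul] using h.ex_flow x v s 1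

theorem RM.energy1 (h : RM g) (x : M) (v : E) :
    g (ex g x v) (vl g x v 1) (vl g x v 1) = g x v v := by
  simpa only [one_smul] using h.energy x v 1

theorem RM.ex_back (h : RM g) (x : M) (v : E) : ex g (ex g x v) (-vl g x v 1) = x := by
  have h1 := h.ex_flow1 x v (-1)
  rwa [neg_one_smul, add_neg_cancel, zero_smul, h.ex_zero] at h1

theorem RM.vl_back (h : RM g) (x : M) (v : E) : vl g (ex g x v) (-vl g x v 1) 1 = -v := by
  have h1 := h.vl_aff x v 1 (-1) 1
  rw [neg_one_smul, neg_one_smul, mul_one, add_neg_cancel, h.vl_zero] at h1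
  exact h1

theorem RM.nr_vl (h : RM g) (x : M) (v : E) (t : ℝ) :
    nr g (ex g x (t • v)) (vl g x v t) = nr g x v := by rw [nr, h.energy, nr]

theorem RM.nr_vl1 (h : RM g) (x : M) (v : E) : nr g (ex g x v) (vl g x v 1) = nr g x v := by
  rw [nr, h.energy1, nr]

theorem RM.dist_ex_ex (h : RM g) (x : M) (v : E) (s t : ℝ) :
    dist (ex g x (s • v)) (ex g x (t • v)) ≤ |s - t| * nr g x v := by
  have key : ∀ a b : ℝ, a ≤ b →
      dist (ex g x (a • v)) (ex g x (b • v)) ≤ nr g x v * (b - a) := by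
    intro a b hab
    rw [← h.geo_eq, ← h.geo_eq]
    refine h.len _ a b _ hab fun r _ => ⟨?_, ?_⟩
    · have h1 := (h.geo_spec x v).1
      have he := chart_mem_atlas E (geo g x v r)
      have hm := mem_chart_source E (geo g x v r)
      exact contMDiffAt_of_chart (by simp) he hm (h1.continuousAt isOpen_univ (mem_univ r))
        ((h1.2 _ he r (mem_univ r) hm).1.of_le (by norm_num))
    · rw [h.geo_eq]
      exact (h.nr_vl x v r).le
  rcases le_total s t with hst | hst
  · rw [abs_sub_comm, abs_of_nonneg (sub_nonneg.2 hst), mul_comm]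
    exact key s t hst
  · rw [dist_comm, abs_of_nonneg (sub_nonneg.2 hst), mul_comm]
    exact key t s hst

theorem RM.dist_ex (h : RM g) (x : M) (v : E) : dist x (ex g x v) ≤ nr g x v := by
  simpa [h.ex_zero] using h.dist_ex_ex x v 0 1

theorem RM.cost_ex_ex (h : RM g) (x : M) (v : E) (s t : ℝ) :
    cost (ex g x (s • v)) (ex g x (t • v)) ≤ (s - t) ^ 2 * g x v v / 2 := by
  have h1 := h.dist_ex_ex x v s t
  have h2 : dist (ex g x (s • v)) (ex g x (t • v)) ^ 2 ≤ (|s - t| * nr g x v) ^ 2 := by gcongr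
  rw [mul_pow, sq_abs, h.nr_sq] at h2
  unfold cost
  linarith

theorem RM.cost_ex (h : RM g) (x : M) (v : E) : cost x (ex g x v) ≤ g x v v / 2 := by
  simpa [h.ex_zero] using h.cost_ex_ex x v 0 1

theorem RM.cost_of_mn (h : RM g) {x : M} {v : E} (hv : Mn g x v) :
    cost x (ex g x v) = g x v v / 2 := by
  rw [cost, hv, h.nr_sq]

theorem RM.mn_of_cost (h : RM g) {x : M} {v : E} (hv : g x v v / 2 ≤ cost x (ex g x v)) :
    Mn g x v := by
  refine le_antisymm (h.dist_ex x v) ((sq_le_sq₀ (nr_nonneg _ _) dist_nonneg).1 ?_)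
  rw [h.nr_sq]
  unfold cost at hv
  linarith

theorem RM.mn_dist (h : RM g) {x : M} {v : E} (hv : Mn g x v) {s t : ℝ} (hs : 0 ≤ s) (hst : s ≤ t)
    (ht : t ≤ 1) : dist (ex g x (s • v)) (ex g x (t • v)) = (t - s) * nr g x v := by
  have h1 := h.dist_ex_ex x v s t
  have h2 := h.dist_ex_ex x v 0 s
  have h3 := h.dist_ex_ex x v t 1
  have h4 := dist_triangle4 x (ex g x (s • v)) (ex g x (t • v)) (ex g x v)
  rw [abs_sub_comm, abs_of_nonneg (sub_nonneg.2 hst)] at h1
  rw [zero_smul, h.ex_zero, zero_sub, abs_neg, abs_of_nonneg hs] at h2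
  rw [one_smul, abs_sub_comm, abs_of_nonneg (sub_nonneg.2 ht)] at h3
  rw [hv] at h4
  linarith

theorem RM.mn_smul (h : RM g) {x : M} {v : E} (hv : Mn g x v) {s : ℝ} (hs : 0 ≤ s) (hs1 : s ≤ 1) :
    Mn g x (s • v) := by
  have h1 := h.mn_dist hv le_rfl hs hs1
  rw [zero_smul, h.ex_zero, sub_zero] at h1
  rw [Mn, h1, nr_smul, abs_of_nonneg hs]

/-- Any signed piece of a minimizing geodesic is minimizing. -/
theorem RM.mn_seg (h : RM g) {x : M} {v : E} (hv : Mn g x v) {s t : ℝ} (hs : s ∈ Icc (0 : ℝ) 1)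
    (ht : t ∈ Icc (0 : ℝ) 1) : Mn g (ex g x (s • v)) ((t - s) • vl g x v s) := by
  rw [Mn, h.ex_flow, add_sub_cancel, nr_smul, h.nr_vl]
  rcases le_total s t with hst | hst
  · rw [h.mn_dist hv hs.1 hst ht.2, abs_of_nonneg (sub_nonneg.2 hst)]
  · rw [dist_comm, h.mn_dist hv ht.1 hst hs.2, abs_sub_comm, abs_of_nonneg (sub_nonneg.2 hst)]

theorem RM.mn_back (h : RM g) {x : M} {v : E} (hv : Mn g x v) :
    Mn g (ex g x v) (-vl g x v 1) := by
  rw [Mn, h.ex_back, nr_neg, h.nr_vl1, dist_comm]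
  exact hv

theorem mem_inj_iff {x : M} {v : E} : v ∈ Inj g x ↔ ∃ a > (1 : ℝ), Mn g x (a • v) := by
  refine exists_congr fun a => and_congr_right fun ha => ?_
  rw [Mn, nr_smul, abs_of_pos (one_pos.trans ha), nr]

theorem RM.mn_of_inj (h : RM g) {x : M} {v : E} (hv : v ∈ Inj g x) : Mn g x v := by
  obtain ⟨a, ha, h1⟩ := mem_inj_iff.1 hv
  have h0 : 0 < a := one_pos.trans ha
  have h2 := h.mn_smul h1 (inv_nonneg.2 h0.le) (inv_le_one_of_one_le₀ ha.le)
  rwa [smul_smul, inv_mul_cancel₀ h0.ne', one_smul] at h2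

theorem RM.inj_of_mn (h : RM g) {x : M} {v : E} (hv : Mn g x v) {s : ℝ} (hs : 0 ≤ s)
    (hs1 : s < 1) : s • v ∈ Inj g x := by
  refine mem_inj_iff.2 ⟨2 / (1 + s), by rw [gt_iff_lt, lt_div_iff₀ (by linarith)]; linarith, ?_⟩
  rw [smul_smul]
  refine h.mn_smul hv (by positivity) ?_
  rw [div_mul_eq_mul_div, div_le_one (by linarith)]
  linarith

/-- The second half of a minimizing geodesic, seen from the end point. -/
theorem RM.inj_back (h : RM g) {x : M} {v : E} (hv : Mn g x v) {s : ℝ} (hs : 0 ≤ s)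
    (hs1 : s < 1) : s • -vl g x v 1 ∈ Inj g (ex g x v) ∧
      ex g (ex g x v) (s • -vl g x v 1) = ex g x ((1 - s) • v) := by
  refine ⟨h.inj_of_mn (h.mn_back hv) hs hs1, ?_⟩
  rw [smul_neg, ← neg_smul, h.ex_flow1, sub_eq_add_neg]

end Vale.Agent.P234
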