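import Vale.Agent.P234.HR
import Vale.Agent.P234.AnalB

/-! The Hopf-Lax semigroup. -/

open scoped Manifold ContDiff Topology
open Set Filter

set_option linter.unusedSectionVars false

namespace Vale.Agent.P234

open Vale.Agent.P255

variable {E : Type} [NormedAddCommGroup E] [NormedSpace ℝ E] [FiniteDimensional ℝ E]
  {M : Type} [MetricSpace M] [CompactSpace M] [ChartedSpace E M] [IsManifold 𝓘(ℝ, E) ∞ M]
  {g : M → E →L[ℝ] E →L[ℝ] ℝ}


/-- Use `ctV_dS` to extend a test vector. -/
theorem RM.isClosed_sub (h : RM g) {f : M → ℝ} (hf : Continuous f) (C : ℝ) :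
    IsClosed {p : TB E M | Sub g f C (pt p) (vc p)} := by
  rw [← isOpen_compl_iff, isOpen_iff_mem_nhds]
  intro p hp
  simp only [mem_compl_iff, mem_ofPred_eq, Sub, not_forall, not_le] at hp
  obtain ⟨ξ, hξ⟩ := hp
  have he := chart_mem_atlas E (pt p)
  have hm := mem_chart_source E (pt p)
  have hW : CtV pt (fun b : TB E M => dS (chartAt E (pt p)) (chartAt E (pt p) (pt b))
      (dC (chartAt E (pt p)) (pt p) ξ)) p :=
    ctV_dS he continuous_pt.continuousAt hm continuousAt_const
  have h1 := hf.continuousAt.comp (hW.ex h)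
  have h2 := ((hf.comp continuous_pt).continuousAt.add ((ctV_id p).inner h hW)).sub
    ((continuousAt_const (y := C)).mul (hW.inner h hW))
  have h3 := h1.eventually_lt h2 (by
    simp only [Function.comp, Pi.add_apply, Pi.sub_apply, Pi.mul_apply, dS_dC he hm]
    exact hξ)
  filter_upwards [h3] with b hb hs
  exact absurd (hs _) (not_le.2 hb)

theorem RM.sub_of_min (h : RM g) {f : M → ℝ} {t : ℝ} (ht : 0 < t) {x : M} {q : E} (hq : Mn g x q)
    (hmin : ∀ x', f x + cost x (ex g x q) / t ≤ f x' + cost x' (ex g x q) / t) :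
    ∃ C, Sub g f C x (t⁻¹ • q) := by
  obtain ⟨C, -, hC⟩ := h.g5 (g x q q)
  refine ⟨C / t, fun ξ => ?_⟩
  have h1 := hmin (ex g x ξ)
  have h2 := div_le_div_of_nonneg_right (hC x q ξ le_rfl) ht.le
  rw [h.cost_of_mn hq] at h1
  have e : (g x q q / 2 - g x q ξ + C * g x ξ ξ) / t
      = g x q q / 2 / t - t⁻¹ * g x q ξ + C / t * g x ξ ξ := by ring
  simp only [map_smul, smul_apply, smul_eq_mul]
  linarith

theorem hl_le {f : M → ℝ} (hf : Continuous f) (t : ℝ) (x z : M) :
    HL f t z ≤ f x + cost x z / t := by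
  have hc : Continuous fun x => f x + cost x z / t :=
    hf.add ((continuous_cost.comp (continuous_id.prodMk continuous_const)).div_const t)
  exact ciInf_le (isCompact_range hc).bddBelow x

theorem hl_attained {f : M → ℝ} (hf : Continuous f) (t : ℝ) (z : M) :
    ∃ x, HL f t z = f x + cost x z / t := by
  have hc : Continuous fun x => f x + cost x z / t :=
    hf.add ((continuous_cost.comp (continuous_id.prodMk continuous_const)).div_const t)
  obtain ⟨x, -, hx⟩ := isCompact_univ.exists_isMinOn ⟨z, mem_univ z⟩ hc.continuousOn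
  have : Nonempty M := ⟨z⟩
  exact ⟨x, le_antisymm (hl_le hf t x z) (le_ciInf fun y => hx (mem_univ y))⟩

theorem continuous_hl {f : M → ℝ} (hf : Continuous f) (t : ℝ) : Continuous (HL f t) := by
  have hc : Continuous fun p : M × M => f p.2 + cost p.2 p.1 / t :=
    (hf.comp continuous_snd).add
      ((continuous_cost.comp (continuous_snd.prodMk continuous_fst)).div_const t)
  have h1 := isCompact_univ.continuous_sInf (f := fun z x : M => f x + cost x z / t) hc
  simp only [image_univ] at h1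
  exact h1

theorem RM.cal_mono (h : RM g) {f : M → ℝ} {C s t : ℝ} (hs : 0 < s) (hst : s ≤ t)
    (hc : Cal g f C t) : Cal g f C s := by
  rcases hst.eq_or_lt with rfl | hlt
  · exact hc
  intro x p hp x'
  have h1 := hc x p hp x'
  have hts : 0 < t - s := sub_pos.2 hlt
  have h2 := cost_tri hs hts x' (ex g x (s • p)) (ex g x (t • p))
  rw [add_sub_cancel] at h2
  have h3 := div_le_div_of_nonneg_right (h.cost_ex_ex x p s t) hts.le
  have e : (s - t) ^ 2 * g x p p / 2 / (t - s) = (t - s) * g x p p / 2 := by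
    field_simp
    ring
  linarith

theorem RM.mn_of_cal (h : RM g) {f : M → ℝ} {C t : ℝ} (ht : 0 < t) (hc : Cal g f C t) {x : M}
    {p : E} (hp : Sub g f C x p) : Mn g x (t • p) := by
  have h1 := hc x p hp x
  refine h.mn_of_cost ?_
  rw [add_le_add_iff_left, le_div_iff₀ ht] at h1
  simp only [map_smul, smul_apply, smul_eq_mul]
  linarith

/-- Along `s ↦ ex g z (s • ζ)` apply `support_of_local` to `φ (ex g z (s • ζ)) + C * g z ζ ζ * s ^ 2`
(`ex_flow`, `energy`). -/
theorem RM.sub_of_local (h : RM g) {φ : M → ℝ} (hφ : Continuous φ) {C : ℝ}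
    (hloc : ∀ z, ∃ u, ∀ᶠ ζ in 𝓝 (0 : E), φ z + g z u ζ - C * g z ζ ζ ≤ φ (ex g z ζ)) {z : M} {u : E}
    (hz : ∀ᶠ ζ in 𝓝 (0 : E), φ z + g z u ζ - C * g z ζ ζ ≤ φ (ex g z ζ)) : Sub g φ C z u := by
  intro ζ
  have hc : Continuous fun s : ℝ => φ (ex g z (s • ζ)) + C * g z ζ ζ * s ^ 2 :=
    (hφ.comp ((h.continuous_ex z).comp (by fun_prop))).add (by fun_prop)
  have ht : ∀ v : E, Tendsto (fun σ : ℝ => σ • v) (𝓝 0) (𝓝 0) := fun v => by
    have : Continuous fun σ : ℝ => σ • v := by fun_prop
    simpa using this.tendsto 0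
  have key := support_of_local hc (l := g z u ζ) (fun s => by
    obtain ⟨w, hw⟩ := hloc (ex g z (s • ζ))
    refine ⟨g (ex g z (s • ζ)) w (vl g z ζ s) + 2 * C * g z ζ ζ * s, ?_⟩
    filter_upwards [(ht (vl g z ζ s)).eventually hw] with σ hσ
    rw [h.ex_flow] at hσ
    simp only [map_smul, smul_apply, smul_eq_mul, h.energy] at hσ
    linarith) (by
    filter_upwards [(ht ζ).eventually hz] with σ hσ
    simp only [map_smul, smul_apply, smul_eq_mul] at hσ
    rw [zero_smul, h.ex_zero]
    linarith)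
  rw [zero_smul, h.ex_zero, one_smul] at key
  linarith

end Vale.Agent.P234
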