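import Vale.Agent.P234.FV

/-! Continuity of the Hessian. -/

open scoped Manifold ContDiff Topology
open Set Filter

set_option linter.unusedSectionVars false

namespace Vale.Agent.P234

open Vale.Agent.P255

variable {E : Type} [NormedAddCommGroup E] [NormedSpace ℝ E] [FiniteDimensional ℝ E]
  {M : Type} [MetricSpace M] [CompactSpace M] [ChartedSpace E M] [IsManifold 𝓘(ℝ, E) ∞ M]
  {g : M → E →L[ℝ] E →L[ℝ] ℝ}


theorem RM.hs_congr (h : RM g) {C C' : M → M → ℝ} {x z : M}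
    (hC : ∀ᶠ p in 𝓝 (x, z), C p.1 p.2 = C' p.1 p.2) : Hs g C x z = Hs g C' x z := by
  have h1 : ContinuousAt (fun p : E × E => (ex g x p.1, ex g z p.2)) 0 :=
    (((h.continuous_ex x).comp continuous_fst).prodMk
      ((h.continuous_ex z).comp continuous_snd)).continuousAt
  have h2 : (fun p : E × E => C (ex g x p.1) (ex g z p.2)) =ᶠ[𝓝 0]
      fun p => C' (ex g x p.1) (ex g z p.2) :=
    h1.eventually (p := fun p : M × M => C p.1 p.2 = C' p.1 p.2)
      (by simpa only [Prod.fst_zero, Prod.snd_zero, h.ex_zero] using hC)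
  exact h2.fderiv.fderiv_eq

theorem RM.hess_chart (h : RM g) {C : M → M → ℝ} {x z : M} (hs : SmF E C x z)
    {e e' : OpenPartialHomeomorph M E} (he : e ∈ atlas E M) (he' : e' ∈ atlas E M)
    (hx : x ∈ e.source) (hz : z ∈ e'.source) : ∃ T : M × M → E × E →L[ℝ] E × E →L[ℝ] ℝ,
    ContinuousAt T (x, z) ∧ ∀ᶠ p in 𝓝 (x, z), ∀ a b : E × E, Hs g C p.1 p.2 a b =
      T p (dC e p.1 a.1, dC e' p.2 a.2) (dC e p.1 b.1, dC e' p.2 b.2) := by
  obtain ⟨F, hF⟩ : ∃ F : (E × E) × E × E → ℝ, F = fun q =>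
      C (ex g (e.symm q.1.1) (dS e q.1.1 q.2.1)) (ex g (e'.symm q.1.2) (dS e' q.1.2 q.2.2)) :=
    ⟨_, rfl⟩
  have h1 : ContDiffAt ℝ ∞ F ((e x, e' z), 0) := by
    rw [hF]
    refine SmF.comp (C := C) ?_
      ((smV_symm he contDiffAt_fst.fst (e.map_source hx) contDiffAt_snd.fst).ex h)
      ((smV_symm he' contDiffAt_fst.snd (e'.map_source hz) contDiffAt_snd.snd).ex h)
    simpa only [Prod.fst_zero, Prod.snd_zero, map_zero, h.ex_zero, e.left_inv hx, e'.left_inv hz]
      using hs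
  have h2 : ContinuousAt (fun p : M × M => (e p.1, e' p.2)) (x, z) :=
    ((e.continuousAt hx).comp_of_eq continuousAt_fst rfl).prodMk
      ((e'.continuousAt hz).comp_of_eq continuousAt_snd rfl)
  refine ⟨fun p => fderiv ℝ (fderiv ℝ fun u => F ((e p.1, e' p.2), u)) 0,
    (contDiffAt_hess h1).continuousAt.comp_of_eq h2 rfl, ?_⟩
  have h3 : ∀ᶠ p in 𝓝 (x, z), ContDiffAt ℝ 2 F ((e p.1, e' p.2), 0) :=
    (h2.prodMk continuousAt_const).eventually
      ((h1.of_le (m := 2) ENat.LEInfty.out).eventually (by norm_num))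
  filter_upwards [h3, continuousAt_fst.preimage_mem_nhds (e.open_source.mem_nhds hx),
    continuousAt_snd.preimage_mem_nhds (e'.open_source.mem_nhds hz)] with p a1 a2 a3 a b
  have a4 : ContDiffAt ℝ 2 (fun u => F ((e p.1, e' p.2), u))
      (0 + (dC e p.1).prodMap (dC e' p.2) 0) := by
    rw [map_zero, add_zero]
    exact a1.comp 0 (contDiffAt_const.prodMk contDiffAt_id)
  have a5 := hess_comp_affine _ a4 a b
  rw [map_zero, add_zero] at a5
  refine Eq.trans ?_ a5
  simp only [Hs, hF, zero_add, ContinuousLinearMap.coe_prodMap', Prod.map_fst, Prod.map_snd,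
    dS_dC he a2, dS_dC he' a3, e.left_inv a2, e'.left_inv a3]

theorem RM.hess_bdd (h : RM g) {C : M → M → ℝ} {x z : M} (hs : SmF E C x z) :
    ∃ K, ∀ᶠ p in 𝓝 (x, z), HB g C p.1 p.2 K := by
  obtain ⟨T, hT, h1⟩ := h.hess_chart hs (chart_mem_atlas E x) (chart_mem_atlas E z)
    (mem_chart_source E x) (mem_chart_source E z)
  obtain ⟨K, hK, h2⟩ := h.chart_coercive (chart_mem_atlas E x) (mem_chart_source E x)
  obtain ⟨K', hK', h3⟩ := h.chart_coercive (chart_mem_atlas E z) (mem_chart_source E z)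
  refine ⟨(‖T (x, z)‖ + 1) * (K + K') ^ 2, ?_⟩
  filter_upwards [h1, continuousAt_fst.eventually h2, continuousAt_snd.eventually h3,
    (hT.norm (E := E × E →L[ℝ] E × E →L[ℝ] ℝ)).eventually_lt continuousAt_const
      (lt_add_one ‖T (x, z)‖)] with p a1 a2 a3 a4 a b
  have a5 : ∀ u : E × E, ‖(dC (chartAt E x) p.1 u.1, dC (chartAt E z) p.2 u.2)‖ ≤
      (K + K') * (nr g p.1 u.1 + nr g p.2 u.2) := fun u => by
    have b1 := nr_nonneg (g := g) p.1 u.1
    have b2 := nr_nonneg (g := g) p.2 u.2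
    exact max_le ((a2 u.1).1.trans (by nlinarith)) ((a3 u.2).1.trans (by nlinarith))
  rw [a1]
  refine ((T p).le_opNorm₂ _ _).trans ((mul_le_mul (mul_le_mul a4.le (a5 a) (norm_nonneg _)
    (by positivity)) (a5 b) (norm_nonneg _)
    (mul_nonneg (by positivity) ((norm_nonneg _).trans (a5 a)))).trans_eq ?_)
  ring

theorem HB.mono {C : M → M → ℝ} {x z : M} {K K' : ℝ} (hK : K ≤ K') (h : HB g C x z K) :
    HB g C x z K' := fun a b => (h a b).trans (mul_le_mul_of_nonneg_right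
      (mul_le_mul_of_nonneg_right hK (add_nonneg (nr_nonneg _ _) (nr_nonneg _ _)))
      (add_nonneg (nr_nonneg _ _) (nr_nonneg _ _)))

namespace HessAux

set_option maxSynthPendingDepth 3

theorem ah_self (h : RM g) (x : M) : Ah g x x = g x := by
  obtain ⟨r, hr, -, h1⟩ := h.normal
  have h2 : ∀ᶠ ξ in 𝓝 (0 : E), nr g x ξ < r :=
    (by unfold nr; fun_prop : Continuous (nr g x)).continuousAt.eventually_lt continuousAt_const
      (by rw [nr_zero]; exact hr)
  have h3 : (fun ξ : E => cost (ex g x ξ) x) =ᶠ[𝓝 0] fun ξ => 2⁻¹ * g x ξ ξ :=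
    h2.mono fun ξ hξ => by
      simp only
      rw [cost_comm, h.cost_of_mn (h1 x ξ hξ)]
      ring
  have h4 : fderiv ℝ (fun ξ => 2⁻¹ * g x ξ ξ) = g x := by
    funext ξ
    refine (((g x).hasFDerivAt.clm_apply (hasFDerivAt_id ξ)).const_mul 2⁻¹).fderiv.trans ?_
    ext w
    simp only [smul_apply, add_apply,
      ContinuousLinearMap.comp_apply, ContinuousLinearMap.flip_apply, smul_eq_mul,
      ContinuousLinearMap.id_apply, id]
    rw [h.symm x w]
    ring
  rw [Ah, h3.fderiv.fderiv_eq, h4, (g x).fderiv]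

theorem loc (h : RM g) {ε : ℝ} (hε : 0 < ε) (x : M) :
    ∀ᶠ p in 𝓝 (x, x), ∀ ξ, |Ah g p.1 p.2 ξ ξ - g p.1 ξ ξ| ≤ ε * g p.1 ξ ξ := by
  obtain ⟨r, hr, h0, -⟩ := h.normal
  have he := chart_mem_atlas E x
  have hx := mem_chart_source E x
  obtain ⟨e, hee⟩ : ∃ e, e = chartAt E x := ⟨_, rfl⟩
  rw [← hee] at he hx
  have hs := (h0 x x (by rw [dist_self]; exact hr)).1
  obtain ⟨T, hT, h1⟩ := h.hess_chart hs he he hx hx
  obtain ⟨K, hK, h2⟩ := h.chart_coercive he hx
  obtain ⟨D, hD⟩ : ∃ D : M × M → E →L[ℝ] E →L[ℝ] ℝ, D = fun p => (T p).bilinearComp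
    (ContinuousLinearMap.inl ℝ E E) (ContinuousLinearMap.inl ℝ E E) - gc g e (e p.1) := ⟨_, rfl⟩
  have h3 : ∀ᶠ p in 𝓝 (x, x), ∀ ξ η, D p (dC e p.1 ξ) (dC e p.1 η) =
      Ah g p.1 p.2 ξ η - g p.1 ξ η := by
    filter_upwards [h1, continuousAt_fst.preimage_mem_nhds (e.open_source.mem_nhds hx),
      continuous_dist.continuousAt.eventually_lt (x₀ := (x, x)) continuousAt_const
        ((dist_self x).trans_lt hr)] with p a1 a2 a3 ξ η
    rw [← h.hs_fst (h0 _ _ a3).1, a1, ← gc_dC g he a2, hD]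
    simp
  have h4 : D (x, x) = 0 := by
    ext u w
    have a1 := h3.self_of_nhds (dS e (e x) u) (dS e (e x) w)
    have a2 := dC_dS he (e.map_source hx)
    rw [e.left_inv hx] at a2
    simpa [a2, ah_self h] using a1
  have h5 : ContinuousAt D (x, x) := by
    rw [hD]
    refine ContinuousAt.sub ?_ (((h.smooth e he).contDiffAt (e.open_target.mem_nhds
      (e.map_source hx))).continuousAt.comp_of_eq
        ((e.continuousAt hx).comp_of_eq continuousAt_fst rfl) rfl)
    refine continuousAt_clm_apply.2 fun u => continuousAt_clm_apply.2 fun w => ?_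
    exact (hT.clm_apply continuousAt_const).clm_apply continuousAt_const
  filter_upwards [h3, continuousAt_fst.eventually h2, h5.norm.eventually_lt continuousAt_const
    (show ‖D (x, x)‖ < ε / K ^ 2 by rw [h4, norm_zero]; positivity)] with p a1 a2 a3 ξ
  rw [← a1, ← h.nr_sq]
  refine ((D p).le_opNorm₂ _ _).trans ((mul_le_mul (mul_le_mul a3.le (a2 ξ).1 (norm_nonneg _)
    (by positivity)) (a2 ξ).1 (norm_nonneg _)
    (mul_nonneg (by positivity) ((norm_nonneg _).trans (a2 ξ).1))).trans_eq ?_)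
  field_simp

end HessAux

theorem RM.ah_diag (h : RM g) {ε : ℝ} (hε : 0 < ε) : ∃ r > 0, ∀ x y : M, dist x y < r → ∀ ξ,
    |Ah g x y ξ ξ - g x ξ ξ| ≤ ε * g x ξ ξ := by
  obtain ⟨r, hr, h1⟩ := radius_of_compact (isCompact_univ (X := M)) (P := fun x r =>
    ∀ y : M, dist x y < r → ∀ ξ, |Ah g x y ξ ξ - g x ξ ξ| ≤ ε * g x ξ ξ)
    (fun x r r' _ hr h1 y hy => h1 y (hy.trans_le hr)) fun x _ => by
      obtain ⟨ρ, hρ, h2⟩ := Metric.eventually_nhds_iff.1 (HessAux.loc h hε x)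
      refine ⟨ρ / 2, half_pos hρ, ?_⟩
      filter_upwards [Metric.ball_mem_nhds x (half_pos hρ)] with x' hx y hy
      have a1 := dist_triangle_left y x x'
      have a2 : dist x' x < ρ / 2 := hx
      exact h2 (y := (x', y)) (max_lt (by linarith) (by linarith))
  exact ⟨r, hr, fun x => h1 x (mem_univ x)⟩

end Vale.Agent.P234
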