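import Vale.Agent.P234.Mtw
import Vale.Agent.P234.Danskin
import Vale.Agent.P234.AnalB

/-! Second order lower bound for the Hopf-Lax evolution. -/

open scoped Manifold ContDiff Topology
open Set Filter

set_option linter.unusedSectionVars false

namespace Vale.Agent.P234

open Vale.Agent.P255

variable {E : Type} [NormedAddCommGroup E] [NormedSpace ℝ E] [FiniteDimensional ℝ E]
  {M : Type} [MetricSpace M] [CompactSpace M] [ChartedSpace E M] [IsManifold 𝓘(ℝ, E) ∞ M]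
  {g : M → E →L[ℝ] E →L[ℝ] ℝ}


namespace JetAux

theorem one (h : RM g) {a : Fin 2 → ℝ} {y : Fin 2 → M} {x : M} {q : E} {t δ η : ℝ} (ht : 0 < t)
    (ht1 : t < 1) (hη : 0 < η) (hq : q ∈ Pa g a y x)
    (hgap : ∀ x', cost x' (ex g x q) ≤
      cost x' (ex g x (t • q)) / t + (1 - t) * g x q q / 2 - δ * dist x x' ^ 2) :
    ∀ᶠ ξ in 𝓝 (0 : E), Mn g x ξ →
      psi a y x + g x q ξ - Ah g x (ex g x (t • q)) ξ ξ / (2 * t) - η * ‖ξ‖ ^ 2 + δ * g x ξ ξ ≤
        psi a y (ex g x ξ) := by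
  obtain ⟨hmn, j, hj, hps⟩ := hq
  have hin := h.inj_of_mn hmn ht.le ht1
  have hs := h.smF_inj hin
  have hmt := h.mn_of_inj hin
  have hT := taylor2 ((h.cd_one hs).of_le (by norm_cast)) (mul_pos ht hη)
  filter_upwards [hT] with ξ hξ hm
  rw [(h.fv hmt hs).1, zero_add, h.ex_zero, h.cost_of_mn hmt] at hξ
  have h1 := (le_abs_self _).trans hξ
  have h2 := le_psi a y (ex g x ξ) j
  have h3 := hgap (ex g x ξ)
  rw [hm, h.nr_sq, hj] at h3
  rw [← hj, h.cost_of_mn hmn] at hps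
  simp only [map_smul, smul_apply, smul_eq_mul, neg_apply] at h1
  have h4 : cost (ex g x ξ) (ex g x (t • q)) / t ≤ t * g x q q / 2 - g x q ξ +
      Ah g x (ex g x (t • q)) ξ ξ / (2 * t) + η * ‖ξ‖ ^ 2 := by
    rw [div_le_iff₀ ht]
    have h5 : Ah g x (ex g x (t • q)) ξ ξ / (2 * t) * t = Ah g x (ex g x (t • q)) ξ ξ / 2 := by
      field_simp
    rw [add_mul, add_mul, h5, Ah]
    linarith
  linarith

theorem two (h : RM g) {x : M} {p : E} {t η K : ℝ} (ht : 0 < t) (hη : 0 < η)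
    (hin : t • p ∈ Inj g x) (hK : HB g cost x (ex g x (t • p)) K) :
    ∀ᶠ u in 𝓝 (0 : E × E),
      t * g x p p / 2 - g x p u.1 + g (ex g x (t • p)) (vl g x p t) u.2 +
        Ah g x (ex g x (t • p)) u.1 u.1 / (2 * t) -
          K / t * (nr g x u.1 * nr g (ex g x (t • p)) u.2) -
          K / (2 * t) * g (ex g x (t • p)) u.2 u.2 - η * (‖u.1‖ ^ 2 + ‖u.2‖ ^ 2) ≤
        cost (ex g x u.1) (ex g (ex g x (t • p)) u.2) / t := by
  have hs := h.smF_inj hin
  have hmt := h.mn_of_inj hin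
  have hT := taylor2 ((h.cd_two hs).of_le (by norm_cast)) (mul_pos ht hη)
  filter_upwards [hT] with u hu
  obtain ⟨ξ, ζ⟩ := u
  rw [h.fv_two hmt hs, zero_add, h.vl_smul, mul_one] at hu
  simp only [Prod.fst_zero, Prod.snd_zero, h.ex_zero, h.cost_of_mn hmt, map_smul, smul_apply,
    smul_eq_mul] at hu
  have h1 := (neg_le_of_abs_le hu)
  have h2 : Hs g cost x (ex g x (t • p)) (ξ, ζ) (ξ, ζ) =
      Ah g x (ex g x (t • p)) ξ ξ + Hs g cost x (ex g x (t • p)) (ξ, 0) (0, ζ) +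
        Hs g cost x (ex g x (t • p)) (0, ζ) (ξ, 0) +
        Hs g cost x (ex g x (t • p)) (0, ζ) (0, ζ) := by
    have h3 : ((ξ, ζ) : E × E) = (ξ, 0) + (0, ζ) := by simp
    rw [← h.hs_fst hs, h3]
    simp only [map_add, add_apply]
    ring
  have h3 := neg_le_of_abs_le (hK (ξ, 0) (0, ζ))
  have h4 := neg_le_of_abs_le (hK (0, ζ) (ξ, 0))
  have h5 := neg_le_of_abs_le (hK (0, ζ) (0, ζ))
  simp only [nr_zero, add_zero, zero_add] at h3 h4 h5
  have h6 := h.nr_sq (ex g x (t • p)) ζ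
  have h7 : ‖((ξ, ζ) : E × E)‖ ^ 2 ≤ ‖ξ‖ ^ 2 + ‖ζ‖ ^ 2 := by
    rw [Prod.norm_def]
    rcases le_total ‖ξ‖ ‖ζ‖ with hh | hh
    · rw [max_eq_right hh]
      nlinarith [sq_nonneg ‖ξ‖]
    · rw [max_eq_left hh]
      nlinarith [sq_nonneg ‖ζ‖]
  have h8 := mul_le_mul_of_nonneg_left h7 (mul_pos ht hη).le
  rw [Hs] at h2 h3 h4 h5
  rw [le_div_iff₀ ht]
  have e1 : ∀ A B D F G H : ℝ, (A + B / (2 * t) - K / t * D - K / (2 * t) * F - η * (G + H)) * t =
      A * t + B / 2 - K * D - K / 2 * F - t * η * (G + H) := by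
    intro A B D F G H
    field_simp
  rw [e1]
  simp only at h1 ⊢
  rw [h2] at h1
  have h9 : K * nr g (ex g x (t • p)) ζ * nr g (ex g x (t • p)) ζ =
      K * g (ex g x (t • p)) ζ ζ := by rw [← h6]; ring
  linarith

theorem conc (h : RM g) (hm : WeakMTW g) {x : M} {P : Set E} (hP : Convex ℝ P) {t : ℝ}
    (hI : ∀ p' ∈ P, t • p' ∈ Inj g x) {ι : Type} [Fintype ι] {w : ι → ℝ} {q : ι → E} {p ξ : E}
    (hw : ∀ i, 0 < w i) (hw1 : ∑ i, w i = 1) (hq : ∀ i, q i ∈ P) (hp : ∑ i, w i • q i = p)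
    (hξ : ∀ i, g x (q i - p) ξ = 0) :
    ∑ i, w i * Ah g x (ex g x (t • q i)) ξ ξ ≤ Ah g x (ex g x (t • p)) ξ ξ := by
  have hc : Convex ℝ (P ∩ {v | g x ξ v = g x ξ p}) :=
    hP.inter (convex_hyperplane (g x ξ).isLinear _)
  have hS := h.concave hm (x := x) (ξ := ξ) (hc.smul t) (by
    rintro _ ⟨v, hv, rfl⟩
    exact hI v hv.1) (by
    rintro _ ⟨v, hv, rfl⟩ _ ⟨v', hv', rfl⟩
    have h1 : g x ξ v = g x ξ p := hv.2
    have h2 : g x ξ v' = g x ξ p := hv'.2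
    simp only [map_smul, h1, h2])
  have h1 := hS.le_map_sum (t := Finset.univ) (w := w) (p := fun i => t • q i)
    (fun i _ => (hw i).le) hw1 (fun i _ => ⟨q i, ⟨hq i, by
      have h2 := hξ i
      rw [h.symm, map_sub, sub_eq_zero] at h2
      exact h2⟩, rfl⟩)
  have h2 : ∑ i, w i • t • q i = t • p := by
    rw [← hp, Finset.smul_sum]
    exact Finset.sum_congr rfl fun i _ => smul_comm _ _ _
  rw [h2] at h1
  exact h1

end JetAux

/-- Write `p = ∑ w i • p i` with `w i > 0`, `p i ∈ Pa` (`eq_pos_convex_span_of_mem_convexHull`).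
`hgap` and `taylor2` for `ξ ↦ cost (ex ξ) (ex (t • p i))` (`inj_of_mn`, `smF_inj`, `fv`) give
`psi (ex ξ) ≥ psi x + g (p i) ξ - Ah i ξ ξ / (2t) + δ g ξ ξ - o`. `taylor2` for the two variable cost
(`fv_two`, `vl_smul`, `hs_fst`, `hK`). `ktrick` with `ℓ i = g x (p i - p)`,
`Q i = (2t)⁻¹ • (Ah (t • p) - Ah (t • p i))`, where `concave` on
`{v ∈ t • hull | g ξ v = g ξ (t • p)}` and `ConcaveOn.le_map_sum` give the hypothesis. -/
theorem RM.jet_loc (h : RM g) (hm : WeakMTW g) {a : Fin 2 → ℝ} {y : Fin 2 → M} {x : M} {p : E}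
    {t δ K C : ℝ} (ht : 0 < t) (ht1 : t < 1) (hδ : 0 < δ) (hK0 : 0 ≤ K)
    (hp : p ∈ convexHull ℝ (Pa g a y x))
    (hI : ∀ p' ∈ convexHull ℝ (Pa g a y x), t • p' ∈ Inj g x)
    (hgap : ∀ p' ∈ Pa g a y x, ∀ x', cost x' (ex g x p') ≤
      cost x' (ex g x (t • p')) / t + (1 - t) * g x p' p' / 2 - δ * dist x x' ^ 2)
    (hK : HB g cost x (ex g x (t • p)) K) (hC : K ^ 2 / (2 * δ * t ^ 2) + K / (2 * t) + 1 ≤ C) :
    ∀ᶠ u in 𝓝 (0 : E × E), Mn g x u.1 →
      psi a y x + t * g x p p / 2 + g (ex g x (t • p)) (vl g x p t) u.2 -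
          C * g (ex g x (t • p)) u.2 u.2 ≤
        psi a y (ex g x u.1) + cost (ex g x u.1) (ex g (ex g x (t • p)) u.2) / t := by
  obtain ⟨ι, _, q, w, hq, -, hw, hw1, hpq⟩ := eq_pos_convex_span_of_mem_convexHull hp
  have hq' : ∀ i, q i ∈ Pa g a y x := fun i => hq (mem_range_self i)
  obtain ⟨c, hc, hcx⟩ := h.coercive x
  obtain ⟨c', hc', hcz⟩ := h.coercive (ex g x (t • p))
  have hη : 0 < min (δ * c / 6) c' := lt_min (by positivity) hc'
  have hη1 := min_le_left (δ * c / 6) c'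
  have hη2 := min_le_right (δ * c / 6) c'
  generalize min (δ * c / 6) c' = η at hη hη1 hη2
  have k1 : ∀ᶠ ξ in 𝓝 (0 : E), ∀ i, Mn g x ξ →
      psi a y x + g x (q i) ξ - Ah g x (ex g x (t • q i)) ξ ξ / (2 * t) - η * ‖ξ‖ ^ 2 +
        δ * g x ξ ξ ≤ psi a y (ex g x ξ) :=
    eventually_all.2 fun i => JetAux.one h ht ht1 hη (hq' i) (hgap _ (hq' i))
  have k2 := JetAux.two h ht hη (hI p hp) hK
  have k3 := ktrick hw hw1 (ℓ := fun i => g x (q i - p)) (by
      have h1 : ∑ i, w i • (q i - p) = 0 := by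
        simp only [smul_sub, Finset.sum_sub_distrib, hpq, ← Finset.sum_smul, hw1, one_smul, sub_self]
      have h2 := congrArg (g x) h1
      simpa only [map_sum, map_smul, map_zero] using h2)
    (fun i => (2 * t)⁻¹ • (Ah g x (ex g x (t • p)) - Ah g x (ex g x (t • q i)))) (by
      intro ξ hξ
      have h1 := JetAux.conc h hm (convex_convexHull ℝ _) hI hw hw1
        (fun i => subset_convexHull ℝ _ (hq' i)) hpq hξ
      have h2 : ∑ i, w i * ((2 * t)⁻¹ • (Ah g x (ex g x (t • p)) - Ah g x (ex g x (t • q i)))) ξ ξ =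
          (2 * t)⁻¹ * (Ah g x (ex g x (t • p)) ξ ξ -
            ∑ i, w i * Ah g x (ex g x (t • q i)) ξ ξ) := by
        rw [← one_mul (Ah g x (ex g x (t • p)) ξ ξ), ← hw1, Finset.sum_mul, ← Finset.sum_sub_distrib,
          Finset.mul_sum]
        refine Finset.sum_congr rfl fun i _ => ?_
        simp only [smul_apply, sub_apply, smul_eq_mul]
        ring
      rw [h2]
      exact mul_nonneg (by positivity) (sub_nonneg.2 h1)) hη
  have hf : Tendsto Prod.fst (𝓝 (0 : E × E)) (𝓝 0) := continuous_fst.tendsto' _ _ rfl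
  filter_upwards [hf.eventually k1, hf.eventually k3, k2] with u h1 h3 h2 hmn
  obtain ⟨i, h3⟩ := h3
  have h4 := h1 i hmn
  simp only [smul_apply, sub_apply, smul_eq_mul, map_sub] at h3
  have h5 : (2 * t)⁻¹ * (Ah g x (ex g x (t • p)) u.1 u.1 - Ah g x (ex g x (t • q i)) u.1 u.1) =
      Ah g x (ex g x (t • p)) u.1 u.1 / (2 * t) - Ah g x (ex g x (t • q i)) u.1 u.1 / (2 * t) := by
    ring
  rw [h5] at h3
  have h6 := hcx u.1
  have h7 := hcz u.2
  have h8 := h.nr_sq x u.1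
  have h9 := h.nr_sq (ex g x (t • p)) u.2
  have h10 := h.nonneg (ex g x (t • p)) u.2
  have h11 : K / t * (nr g x u.1 * nr g (ex g x (t • p)) u.2) ≤
      δ / 2 * g x u.1 u.1 + K ^ 2 / (2 * δ * t ^ 2) * g (ex g x (t • p)) u.2 u.2 := by
    rw [← h8, ← h9, ← sub_nonneg]
    have e1 : ∀ A B : ℝ, δ / 2 * A ^ 2 + K ^ 2 / (2 * δ * t ^ 2) * B ^ 2 - K / t * (A * B) =
        δ / 2 * (A - K / (δ * t) * B) ^ 2 := by
      intro A B
      field_simp
      ring
    rw [e1]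
    positivity
  have h12 := mul_le_mul_of_nonneg_right hC h10
  have h13 := mul_le_mul_of_nonneg_right hη1 (sq_nonneg ‖u.1‖)
  have h14 := mul_le_mul_of_nonneg_right hη2 (sq_nonneg ‖u.2‖)
  have h15 := mul_le_mul_of_nonneg_left h6 hδ.le
  linarith

end Vale.Agent.P234
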