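import Vale.Agent.P234.Jet
import Vale.Agent.P234.HL

/-! Second order lower bound for the Hopf-Lax evolution, conclusion. -/

open scoped Manifold ContDiff Topology
open Set Filter

set_option linter.unusedSectionVars false

namespace Vale.Agent.P234

open Vale.Agent.P255

variable {E : Type} [NormedAddCommGroup E] [NormedSpace ℝ E] [FiniteDimensional ℝ E]
  {M : Type} [MetricSpace M] [CompactSpace M] [ChartedSpace E M] [IsManifold 𝓘(ℝ, E) ∞ M]
  {g : M → E →L[ℝ] E →L[ℝ] ℝ}


/-- Minimizers for nearby points are close to `x`: `hc` at time `t'` and `gap` give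
`f x' + cost x' z / t ≥ f x + t g p p / 2 + δ dist x x' ²`. -/
theorem RM.min_close (h : RM g) {f : M → ℝ} (hf : Continuous f) {C t t' : ℝ} (ht : 0 < t)
    (htt : t < t') (hc : Cal g f C t') {x : M} {p : E} (hp : Sub g f C x p) {r : ℝ} (hr : 0 < r) :
    ∀ᶠ z in 𝓝 (ex g x (t • p)), ∀ x', HL f t z = f x' + cost x' z / t → dist x x' < r := by
  obtain ⟨δ, hδ, hg⟩ := h.gap (g x p p) t' (η := min t (t' - t)) (lt_min ht (sub_pos.2 htt))
  have hK : IsCompact {x' | r ≤ dist x x'} :=
    (isClosed_le continuous_const (by fun_prop)).isCompact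
  have h1 := hK.eventually_forall_of_forall_eventually (x₀ := ex g x (t • p))
    (P := fun z x' => f x + cost x z / t < f x' + cost x' z / t) fun x' (hx' : r ≤ dist x x') => by
      have hcc := continuous_cost (M := M)
      refine ContinuousAt.eventually_lt (f := fun q : M × M => f x + cost x q.1 / t)
        (g := fun q : M × M => f q.2 + cost q.2 q.1 / t) ?_ ?_ ?_
      · unfold cost; fun_prop
      · unfold cost; fun_prop
      · have h2 := hg x p x' t t' le_rfl (min_le_left _ _)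
          (by linarith [min_le_right t (t' - t)]) le_rfl
        have h3 := hc x p hp x'
        have h4 := h.cost_ex_div x p ht
        have h5 : 0 < δ * dist x x' ^ 2 := by have := hr.trans_le hx'; positivity
        dsimp only
        linarith
  refine h1.mono fun z hz x' hx' => not_le.1 fun h2 => (hz x' h2).not_ge ?_
  rw [← hx']
  exact hl_le hf t x z

/-- `hl_attained`, `hopf_rinow`, `coercive`, `min_close`, `jet_loc`; `HL f t z ≤ f x + t g p p / 2`. -/
theorem RM.jet (h : RM g) (hm : WeakMTW g) {a : Fin 2 → ℝ} {y : Fin 2 → M} {x : M} {p : E}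
    {C₀ t t' δ K C : ℝ} (ht : 0 < t) (htt : t < t') (ht1 : t' ≤ 1) (hδ : 0 < δ) (hK0 : 0 ≤ K)
    (hC₀ : ∀ p' ∈ convexHull ℝ (Pa g a y x), Sub g (psi a y) C₀ x p')
    (hc : Cal g (psi a y) C₀ t') (hp : Sub g (psi a y) C₀ x p)
    (hgap : ∀ p' ∈ Pa g a y x, ∀ x', cost x' (ex g x p') ≤
      cost x' (ex g x (t • p')) / t + (1 - t) * g x p' p' / 2 - δ * dist x x' ^ 2)
    (hK : HB g cost x (ex g x (t • p)) K) (hC : K ^ 2 / (2 * δ * t ^ 2) + K / (2 * t) + 1 ≤ C) :
    ∀ᶠ ζ in 𝓝 (0 : E), HL (psi a y) t (ex g x (t • p)) + g (ex g x (t • p)) (vl g x p t) ζ -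
      C * g (ex g x (t • p)) ζ ζ ≤ HL (psi a y) t (ex g (ex g x (t • p)) ζ) := by
  have hf := continuous_psi a y
  obtain ⟨ε, hε, h1⟩ := Metric.eventually_nhds_iff.1 (h.jet_loc hm ht (htt.trans_le ht1) hδ hK0
    (h.hull_of_sub hp) (fun p' hp' => h.inj_lt (h.mn_of_cal (ht.trans htt) hc (hC₀ p' hp')) ht.le htt)
    hgap hK hC)
  obtain ⟨c, hc0, hc1⟩ := h.coercive x
  have h2 := h.min_close hf ht htt hc hp (r := √c * ε) (by positivity)
  have h3 : Tendsto (ex g (ex g x (t • p))) (𝓝 0) (𝓝 (ex g x (t • p))) := by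
    simpa only [h.ex_zero] using (h.continuous_ex (ex g x (t • p))).tendsto 0
  filter_upwards [h3.eventually h2, Metric.ball_mem_nhds 0 hε] with ζ h4 h5
  obtain ⟨x', hx'⟩ := hl_attained hf t (ex g (ex g x (t • p)) ζ)
  obtain ⟨v, hv, rfl⟩ := h.hopf_rinow x x'
  have h6 := h4 _ hx'
  have h7 : ‖v‖ < ε := by
    refine lt_of_pow_lt_pow_left₀ 2 hε.le (lt_of_mul_lt_mul_left ?_ hc0.le)
    have h8 := pow_lt_pow_left₀ h6 dist_nonneg two_ne_zero
    rw [hv, h.nr_sq, mul_pow, Real.sq_sqrt hc0.le] at h8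
    exact (hc1 v).trans_lt h8
  have h8 := h1 (y := (v, ζ)) (by
    rw [Prod.dist_eq]
    exact max_lt (by simpa using h7) h5) hv
  have h9 := hl_le hf t x (ex g x (t • p))
  have h10 := h.cost_ex_div x p ht
  rw [hx']
  dsimp only at h8
  linarith

end Vale.Agent.P234
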