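import Vale.Agent.P234.Alg

/-! Smooth families of points and tangent vectors. -/

open scoped Manifold ContDiff Topology
open Set Filter

set_option linter.unusedSectionVars false

namespace Vale.Agent.P234

open Vale.Agent.P255

variable {E : Type} [NormedAddCommGroup E] [NormedSpace ℝ E] [FiniteDimensional ℝ E]
  {M : Type} [MetricSpace M] [CompactSpace M] [ChartedSpace E M] [IsManifold 𝓘(ℝ, E) ∞ M]
  {g : M → E →L[ℝ] E →L[ℝ] ℝ}
  {A : Type} [NormedAddCommGroup A] [NormedSpace ℝ A]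
  {B : Type} [NormedAddCommGroup B] [NormedSpace ℝ B]
  {e e' : OpenPartialHomeomorph M E}


theorem smP_const (x : M) (a : A) : SmP E (fun _ : A => x) a := contMDiffAt_const

theorem SmP.continuousAt {X : A → M} {a : A} (h : SmP E X a) : ContinuousAt X a := ContMDiffAt.continuousAt h

theorem SmP.chart {X : A → M} {a : A} (h : SmP E X a) (he : e ∈ atlas E M) (ha : X a ∈ e.source) :
    ContDiffAt ℝ ∞ (fun b => e (X b)) a := contDiffAt_chart_comp le_rfl he ha h

theorem SmP.of_chart {X : A → M} {a : A} (he : e ∈ atlas E M) (ha : X a ∈ e.source)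
    (hc : ContinuousAt X a) (h : ContDiffAt ℝ ∞ (fun b => e (X b)) a) : SmP E X a := contMDiffAt_of_chart le_rfl he ha hc h

theorem smP_symm (he : e ∈ atlas E M) {β : A → E} {a : A} (hβ : ContDiffAt ℝ ∞ β a)
    (ha : β a ∈ e.target) : SmP E (fun b => e.symm (β b)) a := (chart_symm_contMDiffAt he ha).comp a hβ.contMDiffAt

theorem SmP.comp {X : A → M} {φ : B → A} {b : B} (h : SmP E X (φ b)) (hφ : ContDiffAt ℝ ∞ φ b) :
    SmP E (fun c => X (φ c)) b := ContMDiffAt.comp (g := X) (f := φ) b h hφ.contMDiffAt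

theorem SmP.congr {X Y : A → M} {a : A} (h : SmP E X a) (hXY : Y =ᶠ[𝓝 a] X) : SmP E Y a := ContMDiffAt.congr_of_eventuallyEq h hXY

theorem dM_comp {X : A → M} {φ : B → A} {b : B} (h : SmP E X (φ b))
    (hφ : DifferentiableAt ℝ φ b) (u : B) :
    dM E (fun c => X (φ c)) b u = dM E X (φ b) (fderiv ℝ φ b u) := by
  have h1 : MDifferentiableAt 𝓘(ℝ, A) 𝓘(ℝ, E) X (φ b) := ContMDiffAt.mdifferentiableAt h (by simp)
  rw [← mfderiv_eq_fderiv]
  exact congrArg (fun T : B →L[ℝ] E => T u) (mfderiv_comp b h1 hφ.mdifferentiableAt)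

theorem dM_congr {X Y : A → M} {a : A} (hXY : X =ᶠ[𝓝 a] Y) : dM E X a = dM E Y a := hXY.mfderiv_eq

theorem SmP.dC_dM {X : A → M} {a : A} (h : SmP E X a) (he : e ∈ atlas E M) (ha : X a ∈ e.source)
    (u : A) : dC e (X a) (dM E X a u) = fderiv ℝ (fun b => e (X b)) a u :=   Vale.Agent.P255.dC_dM he ha h.continuousAt ((h.chart he ha).differentiableAt (by simp)) u

/-- One chart suffices (`fderiv_trans`, `contDiffOn_trans`, `dS_dC`). -/
theorem SmV.of_chart {X : A → M} {V : A → E} {a : A} (he : e ∈ atlas E M) (ha : X a ∈ e.source)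
    (hX : SmP E X a) (h : ContDiffAt ℝ ∞ (fun b => dC e (X b) (V b)) a) : SmV X V a := by
  refine ⟨hX, fun e' he' ha' => ?_⟩
  have hO : IsOpen (e.target ∩ e.symm ⁻¹' e'.source) := e.isOpen_inter_preimage_symm e'.open_source
  have hm : ∀ m ∈ e.source, m ∈ e'.source → e m ∈ e.target ∩ e.symm ⁻¹' e'.source := by
    intro m hm hm'
    refine ⟨e.map_source hm, ?_⟩
    rw [mem_preimage, e.left_inv hm]
    exact hm'
  have hτ : ContDiffAt ℝ ∞ (e' ∘ e.symm) (e (X a)) :=
    (contDiffOn_trans he he').contDiffAt (hO.mem_nhds (hm _ ha ha'))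
  have h1 : ContDiffAt ℝ ∞ (fderiv ℝ (e' ∘ e.symm)) (e (X a)) := hτ.fderiv_right (by simp)
  have h2 : ContDiffAt ℝ ∞ (fun b => fderiv ℝ (e' ∘ e.symm) (e (X b))) a :=
    ContDiffAt.comp (f := fun b => e (X b)) a h1 (hX.chart he ha)
  refine (h2.clm_apply h).congr_of_eventuallyEq ?_
  filter_upwards [hX.continuousAt.preimage_mem_nhds (e.open_source.mem_nhds ha),
    hX.continuousAt.preimage_mem_nhds (e'.open_source.mem_nhds ha')] with b hb hb'
  rw [fderiv_trans he he' (hm _ hb hb'), dS_dC he hb, e.left_inv hb]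

theorem smV_const {V : A → E} {a : A} (x : M) (h : ContDiffAt ℝ ∞ V a) :
    SmV (fun _ => x) V a :=   ⟨smP_const x a, fun e _ _ => ContDiffAt.comp (g := dC e x) a (dC e x).contDiff.contDiffAt h⟩

theorem SmV.of_const {V : A → E} {a : A} {x : M} (h : SmV (fun _ => x) V a) :
    ContDiffAt ℝ ∞ V a := by
  simpa only [dC_chartAt] using h.2 _ (chart_mem_atlas E x) (mem_chart_source E x)

theorem smV_zero {X : A → M} {a : A} (hX : SmP E X a) : SmV X (fun _ => (0 : E)) a :=   ⟨hX, fun e _ _ => by simpa only [map_zero] using contDiffAt_const⟩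

theorem SmV.add {X : A → M} {V W : A → E} {a : A} (hV : SmV X V a) (hW : SmV X W a) :
    SmV X (fun b => V b + W b) a :=   ⟨hV.1, fun e he ha => by simpa only [map_add] using (hV.2 e he ha).add (hW.2 e he ha)⟩

theorem SmV.smul {X : A → M} {V : A → E} {f : A → ℝ} {a : A} (hV : SmV X V a)
    (hf : ContDiffAt ℝ ∞ f a) : SmV X (fun b => f b • V b) a :=   ⟨hV.1, fun e he ha => by
    simp only [map_smul]
    exact hf.smul (hV.2 e he ha)⟩

theorem SmV.comp {X : A → M} {V : A → E} {φ : B → A} {b : B} (h : SmV X V (φ b))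
    (hφ : ContDiffAt ℝ ∞ φ b) : SmV (fun c => X (φ c)) (fun c => V (φ c)) b :=   ⟨h.1.comp hφ, fun e he ha =>
    ContDiffAt.comp (g := fun c => dC e (X c) (V c)) (f := φ) b (h.2 e he ha) hφ⟩

theorem SmV.congr {X Y : A → M} {V W : A → E} {a : A} (h : SmV X V a) (hXY : Y =ᶠ[𝓝 a] X)
    (hVW : W =ᶠ[𝓝 a] V) : SmV Y W a := by
  refine ⟨h.1.congr hXY, fun e he ha => ?_⟩
  refine (h.2 e he (hXY.eq_of_nhds ▸ ha)).congr_of_eventuallyEq ?_
  filter_upwards [hXY, hVW] with b h1 h2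
  rw [h1, h2]

theorem SmV.inner (h : RM g) {X : A → M} {V W : A → E} {a : A} (hV : SmV X V a) (hW : SmV X W a) :
    ContDiffAt ℝ ∞ (fun b => g (X b) (V b) (W b)) a := by
  have he := chart_mem_atlas E (X a)
  have ha := mem_chart_source E (X a)
  set e := chartAt E (X a)
  have h1 : ContDiffAt ℝ ∞ (gc g e) (e (X a)) :=
    (h.smooth e he).contDiffAt (e.open_target.mem_nhds (e.map_source ha))
  have h2 : ContDiffAt ℝ ∞ (fun b => gc g e (e (X b))) a :=
    ContDiffAt.comp (f := fun b => e (X b)) a h1 (hV.1.chart he ha)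
  refine ((h2.clm_apply (hV.2 e he ha)).clm_apply (hW.2 e he ha)).congr_of_eventuallyEq ?_
  filter_upwards [hV.1.continuousAt.preimage_mem_nhds (e.open_source.mem_nhds ha)] with b hb
  exact (gc_dC g he hb _ _).symm

theorem smV_dS (he : e ∈ atlas E M) {X : A → M} {W : A → E} {a : A} (hX : SmP E X a)
    (ha : X a ∈ e.source) (hW : ContDiffAt ℝ ∞ W a) :
    SmV X (fun b => dS e (e (X b)) (W b)) a := by
  refine SmV.of_chart he ha hX (hW.congr_of_eventuallyEq ?_)
  filter_upwards [hX.continuousAt.preimage_mem_nhds (e.open_source.mem_nhds ha)] with b hb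
  have h1 := dC_dS he (e.map_source hb) (W b)
  rwa [e.left_inv hb] at h1

theorem smV_symm (he : e ∈ atlas E M) {β W : A → E} {a : A} (hβ : ContDiffAt ℝ ∞ β a)
    (ha : β a ∈ e.target) (hW : ContDiffAt ℝ ∞ W a) :
    SmV (fun b => e.symm (β b)) (fun b => dS e (β b) (W b)) a := by
  refine SmV.of_chart he (e.map_target ha) (smP_symm he hβ ha) (hW.congr_of_eventuallyEq ?_)
  filter_upwards [hβ.continuousAt.preimage_mem_nhds (e.open_target.mem_nhds ha)] with b hb
  exact dC_dS he hb (W b)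

theorem SmF.comp {C : M → M → ℝ} {X Y : A → M} {a : A} (h : SmF E C (X a) (Y a)) (hX : SmP E X a)
    (hY : SmP E Y a) : ContDiffAt ℝ ∞ (fun b => C (X b) (Y b)) a := by
  rw [← contMDiffAt_iff_contDiffAt]
  exact ContMDiffAt.comp (g := fun p : M × M => C p.1 p.2) (f := fun b => (X b, Y b)) a h
    (ContMDiffAt.prodMk hX hY)

theorem SmF.of_chart {C : M → M → ℝ} {x y : M} (he : e ∈ atlas E M) (he' : e' ∈ atlas E M)
    (hx : x ∈ e.source) (hy : y ∈ e'.source)
    (h : ContDiffAt ℝ ∞ (fun p : E × E => C (e.symm p.1) (e'.symm p.2)) (e x, e' y)) :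
    SmF E C x y := by
  have h1 : ContMDiffAt (𝓘(ℝ, E).prod 𝓘(ℝ, E)) 𝓘(ℝ, E × E) ∞
      (fun p : M × M => (e p.1, e' p.2)) (x, y) :=
    ContMDiffAt.prodMk_space
      (ContMDiffAt.comp (g := e) (f := Prod.fst) (x, y) (chart_contMDiffAt he hx) contMDiffAt_fst)
      (ContMDiffAt.comp (g := e') (f := Prod.snd) (x, y) (chart_contMDiffAt he' hy) contMDiffAt_snd)
  have h2 := ContMDiffAt.comp (f := fun p : M × M => (e p.1, e' p.2)) (x, y) h.contMDiffAt h1
  refine h2.congr_of_eventuallyEq ?_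
  filter_upwards [prod_mem_nhds (e.open_source.mem_nhds hx) (e'.open_source.mem_nhds hy)] with p hp
  simp only [Function.comp_apply, e.left_inv hp.1, e'.left_inv hp.2]

theorem SmF.congr {C C' : M → M → ℝ} {x y : M} (h : SmF E C x y)
    (hC : ∀ᶠ p in 𝓝 (x, y), C' p.1 p.2 = C p.1 p.2) : SmF E C' x y := ContMDiffAt.congr_of_eventuallyEq h hC

theorem SmF.swap {x y : M} (h : SmF E cost x y) : SmF E cost y x := by
  have h1 : ContMDiffAt (𝓘(ℝ, E).prod 𝓘(ℝ, E)) (𝓘(ℝ, E).prod 𝓘(ℝ, E)) ∞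
      (fun p : M × M => (p.2, p.1)) (y, x) := contMDiffAt_snd.prodMk contMDiffAt_fst
  have h2 := ContMDiffAt.comp (g := fun p : M × M => cost p.1 p.2)
    (f := fun p : M × M => (p.2, p.1)) (y, x) h h1
  refine h2.congr_of_eventuallyEq (Eventually.of_forall fun p => ?_)
  exact cost_comm p.1 p.2

end Vale.Agent.P234
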