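import Vale.Agent.P234.Geo
import Vale.Agent.P234.Sm
import Vale.Agent.P255.Jac
import Vale.Agent.P234.JointAux

/-! Joint smoothness of the geodesic flow; Gauss lemma. -/

open scoped Manifold ContDiff Topology
open Set Filter

set_option linter.unusedSectionVars false

namespace Vale.Agent.P234

open Vale.Agent.P255

variable {E : Type} [NormedAddCommGroup E] [NormedSpace ℝ E] [FiniteDimensional ℝ E]
  {M : Type} [MetricSpace M] [CompactSpace M] [ChartedSpace E M] [IsManifold 𝓘(ℝ, E) ∞ M]
  {g : M → E →L[ℝ] E →L[ℝ] ℝ}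
  {A : Type} [NormedAddCommGroup A] [NormedSpace ℝ A]
  {B : Type} [NormedAddCommGroup B] [NormedSpace ℝ B]
  {e e' : OpenPartialHomeomorph M E}


/-- Port of `P255/Flow.lean: exists_smooth_flow` and `P255/Geo3.lean` with order `3` replaced by an arbitrary
natural number `n`, parameter space `E` replaced by `A`, `Γ (b, r) = geo g (X b) (V b) r`; conclude with
`contDiffAt_infty`. -/
theorem SmV.flow (h : RM g) {X : A → M} {V : A → E} {T : A → ℝ} {a : A} (hV : SmV X V a)
    (hT : ContDiffAt ℝ ∞ T a) :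
    SmV (fun b => geo g (X b) (V b) (T b)) (fun b => vl g (X b) (V b) (T b)) a := by
  let Γ : A × ℝ → M := fun p => geo g (X p.1) (V p.1) p.2
  have hgeo : ∀ v, IsGeodesicOn g (fun r => Γ (v, r)) univ := fun v => (h.geo_spec (X v) (V v)).1
  have hph : ∀ e ∈ atlas E M, ∀ p : A × ℝ, Γ p ∈ e.source →
      JointAux.ph e Γ p = (e (Γ p), dC e (Γ p) (vl g (X p.1) (V p.1) p.2)) := by
    intro e he p hp
    refine Prod.ext rfl ?_
    exact ((hgeo p.1).dC_vel isOpen_univ (mem_univ p.2) he hp).symm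
  have h0 : ∀ v, Γ (v, 0) = X v := fun v => h.geo_zero _ _
  have hXc : ContinuousAt X a := hV.1.continuousAt
  have key : ∀ n : ℕ, 2 ≤ n → ContinuousAt Γ (a, T a) ∧
      ∀ e ∈ atlas E M, Γ (a, T a) ∈ e.source → ContDiffAt ℝ n (JointAux.ph e Γ) (a, T a) := by
    intro n hn
    refine JointAux.smoothN n hn h.toIsRM hgeo a (by simpa only [h0] using hXc) ?_ (T a)
    intro e he ha
    rw [h0] at ha
    have h1 : ContDiffAt ℝ ∞ (fun v => (e (X v), dC e (X v) (V v))) a :=
      (hV.1.chart he ha).prodMk (hV.2 e he ha)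
    refine (h1.of_le (JointAux.leN n)).congr_of_eventuallyEq ?_
    filter_upwards [hXc.preimage_mem_nhds (e.open_source.mem_nhds ha)] with v hv
    rw [hph e he (v, 0) (by rw [h0]; exact hv), h0, h.vl_zero]
  have hc : ContinuousAt (fun b => Γ (b, T b)) a :=
    ContinuousAt.comp (f := fun b => (b, T b)) (key 2 le_rfl).1
      (continuousAt_id.prodMk hT.continuousAt)
  have hsm : ∀ e ∈ atlas E M, Γ (a, T a) ∈ e.source → ContDiffAt ℝ ∞
      (fun b => (e (Γ (b, T b)), dC e (Γ (b, T b)) (vl g (X b) (V b) (T b)))) a := by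
    intro e he ha
    have h1 : ContDiffAt ℝ ∞ (JointAux.ph e Γ) (a, T a) := by
      rw [contDiffAt_infty]
      intro n
      exact ((key (n + 2) (by omega)).2 e he ha).of_le (by exact_mod_cast (by omega : n ≤ n + 2))
    have h2 : ContDiffAt ℝ ∞ (fun b => JointAux.ph e Γ (b, T b)) a :=
      ContDiffAt.comp (f := fun b => (b, T b)) a h1 (contDiffAt_id.prodMk hT)
    refine h2.congr_of_eventuallyEq ?_
    filter_upwards [hc.preimage_mem_nhds (e.open_source.mem_nhds ha)] with b hb
    exact (hph e he (b, T b) hb).symm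
  have he := chart_mem_atlas E (Γ (a, T a))
  have hm := mem_chart_source E (Γ (a, T a))
  exact ⟨SmP.of_chart he hm hc (hsm _ he hm).fst, fun e he ha => (hsm e he ha).snd⟩

theorem SmV.flow1 (h : RM g) {X : A → M} {V : A → E} {a : A} (hV : SmV X V a) :
    SmV (fun b => ex g (X b) (V b)) (fun b => vl g (X b) (V b) 1) a :=
  hV.flow h contDiffAt_const

theorem SmV.ex (h : RM g) {X : A → M} {V : A → E} {a : A} (hV : SmV X V a) :
    SmP E (fun b => ex g (X b) (V b)) a := (hV.flow1 h).1

theorem RM.smP_ex (h : RM g) (x : M) {V : A → E} {a : A} (hV : ContDiffAt ℝ ∞ V a) :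
    SmP E (fun b => ex g x (V b)) a := (smV_const x hV).ex h

theorem RM.continuous_ex (h : RM g) (x : M) : Continuous (ex g x) :=
  continuous_iff_continuousAt.2 fun _ => (h.smP_ex x contDiffAt_id).continuousAt

end Vale.Agent.P234
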