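import Vale.Agent.P234.Step
import Vale.Agent.P234.Bridge

/-! Main theorem. -/

open scoped Manifold ContDiff

namespace Vale.Agent.P234

open Vale.Agent.P255

theorem RM.geo_iff {E : Type} [NormedAddCommGroup E] [NormedSpace ℝ E] [FiniteDimensional ℝ E]
    {M : Type} [MetricSpace M] [CompactSpace M] [ChartedSpace E M] [IsManifold 𝓘(ℝ, E) ∞ M]
    {g : M → E →L[ℝ] E →L[ℝ] ℝ} (h : RM g) (x : M) (v : E) (γ : ℝ → M) :
    IsGeoFrom g x v γ ↔ γ = geo g x v := by
  refine ⟨fun h1 => ?_, fun h1 => h1 ▸ h.geo_spec x v⟩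
  have h2 := h.geo_spec x v
  have h3 := h.toIsRM.geo_unique isOpen_univ isPreconnected_univ h1.1 h2.1 (Set.mem_univ 0)
    (h1.2.1.trans h2.2.1.symm) (h1.2.2.trans h2.2.2.symm)
  exact funext fun s => h3 (Set.mem_univ s)

theorem main {E : Type} [NormedAddCommGroup E] [NormedSpace ℝ E] [FiniteDimensional ℝ E]
    {M : Type} [MetricSpace M] [CompactSpace M] [ChartedSpace E M] [IsManifold 𝓘(ℝ, E) ∞ M]
    (g : RMetric E M) (hd : IsGeodesicDist g) :
    (∀ x v, IsGeoFrom (E := E) g.inner x v (geo (E := E) g.inner x v)) ∧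
      (WeakMTW (E := E) g.inner → ∀ x, Convex ℝ (Inj (E := E) g.inner x)) :=
  ⟨(rm_of_metric g hd).geo_spec, (rm_of_metric g hd).convex_inj⟩

end Vale.Agent.P234
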