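import Vale.Agent.P234.Smooth

/-! Concavity given by the MTW condition. -/

open scoped Manifold ContDiff Topology
open Set Filter

set_option linter.unusedSectionVars false

namespace Vale.Agent.P234

open Vale.Agent.P255

variable {E : Type} [NormedAddCommGroup E] [NormedSpace ℝ E] [FiniteDimensional ℝ E]
  {M : Type} [MetricSpace M] [CompactSpace M] [ChartedSpace E M] [IsManifold 𝓘(ℝ, E) ∞ M]
  {g : M → E →L[ℝ] E →L[ℝ] ℝ}


theorem RM.cd_ah (h : RM g) {x : M} {v : E} (hv : v ∈ Inj g x) :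
    ContDiffAt ℝ ∞ (fun w => Ah g x (ex g x w)) v := by
  refine contDiffAt_hess (F := fun b : E × E => cost (ex g x b.2) (ex g x b.1)) (a := 0) ?_
  refine SmF.comp (X := fun b : E × E => ex g x b.2) (Y := fun b : E × E => ex g x b.1) ?_
    (h.smP_ex x contDiffAt_snd) (h.smP_ex x contDiffAt_fst)
  rw [h.ex_zero]
  exact h.smF_inj hv

namespace MtwAux

theorem line (h : RM g) (hm : WeakMTW g) {x : M} {p η ξ : E} (hξ : g x ξ η = 0) {s : ℝ}
    (hs : p + s • η ∈ Inj g x) :
    ContDiffAt ℝ ∞ (fun t : ℝ => Ah g x (ex g x (p + t • η)) ξ ξ) s ∧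
      deriv^[2] (fun t : ℝ => Ah g x (ex g x (p + t • η)) ξ ξ) s ≤ 0 := by
  refine ⟨((ContDiffAt.comp (f := fun t : ℝ => p + t • η) s (h.cd_ah hs)
    (by fun_prop)).clm_apply contDiffAt_const).clm_apply contDiffAt_const, ?_⟩
  have h1 := hm x _ hs ξ η hξ
  have hc : Tendsto (fun t : ℝ => p + s • η + t • η) (𝓝 0) (𝓝 (p + s • η)) :=
    Continuous.tendsto' (by fun_prop) _ _ (by simp)
  have h2 : (fun t : ℝ => iteratedDeriv 2
      (fun r : ℝ => cost (ex g x (r • ξ)) (ex g x (p + s • η + t • η))) 0) =ᶠ[𝓝 0]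
      fun t : ℝ => (fun t : ℝ => Ah g x (ex g x (p + t • η)) ξ ξ) (s + t) := by
    filter_upwards [hc.eventually (h.inj_open hs)] with t ht
    have h3 := deriv2_line ((h.cd_one (h.smF_inj ht)).of_le (by norm_cast)) ξ
    simp only [zero_add] at h3
    rw [iteratedDeriv_eq_iterate, add_smul, ← add_assoc]
    exact h3
  rw [mtw, h2.iteratedDeriv_eq,
    iteratedDeriv_comp_const_add 2 (fun t : ℝ => Ah g x (ex g x (p + t • η)) ξ ξ) s] at h1
  simp only [add_zero] at h1
  rw [← iteratedDeriv_eq_iterate]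
  linarith

end MtwAux

/-- Restrict to a segment, `F s = Ah g x (ex g x (p + s • η)) ξ ξ`; near every `s₀` the inner iterated
derivative in `mtw` equals `F` (`inj_open`, `smF_inj`, `deriv2_line`), so `F'' s₀ ≤ 0`;
`concaveOn_of_deriv2_nonpos`. -/
theorem RM.concave (h : RM g) (hm : WeakMTW g) {x : M} {S : Set E} (hS : Convex ℝ S)
    (hI : S ⊆ Inj g x) {ξ : E} (hξ : ∀ p ∈ S, ∀ p' ∈ S, g x ξ p = g x ξ p') :
    ConcaveOn ℝ S fun v => Ah g x (ex g x v) ξ ξ := by
  refine ⟨hS, fun p hp q hq a b ha hb hab => ?_⟩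
  have h0 : g x ξ (q - p) = 0 := by rw [map_sub, hξ q hq p hp, sub_self]
  have h1 := fun s (hs : s ∈ Icc (0 : ℝ) 1) =>
    MtwAux.line h hm h0 (hI (hS.add_smul_sub_mem hp hq hs))
  have h2 : ConcaveOn ℝ (Icc (0 : ℝ) 1) fun t : ℝ => Ah g x (ex g x (p + t • (q - p))) ξ ξ :=
    concaveOn_of_deriv2_nonpos' (convex_Icc 0 1)
      (fun s hs => ((h1 s hs).1.differentiableAt (by simp)).differentiableWithinAt)
      (fun s hs => (((h1 s hs).1.derivWithin (m := 1) (by norm_cast)).differentiableAt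
        (by norm_num)).differentiableWithinAt) fun s hs => (h1 s hs).2
  have h3 := h2.2 (left_mem_Icc.2 zero_le_one) (right_mem_Icc.2 zero_le_one) ha hb hab
  have h4 : p + (a • (0 : ℝ) + b • (1 : ℝ)) • (q - p) = a • p + b • q := by
    obtain rfl : a = 1 - b := by linarith
    simp only [smul_eq_mul, mul_zero, mul_one, zero_add]
    module
  simpa only [h4, zero_smul, add_zero, one_smul, add_sub_cancel] using h3

end Vale.Agent.P234
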