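import Vale.Agent.P234.GapB
import Vale.Agent.P234.Ker
import Vale.Agent.P234.Dz

/-! Vectors of the injectivity domain are not conjugate. -/

open scoped Manifold ContDiff Topology
open Set Filter

set_option linter.unusedSectionVars false

namespace Vale.Agent.P234

open Vale.Agent.P255

variable {E : Type} [NormedAddCommGroup E] [NormedSpace ℝ E] [FiniteDimensional ℝ E]
  {M : Type} [MetricSpace M] [CompactSpace M] [ChartedSpace E M] [IsManifold 𝓘(ℝ, E) ∞ M]
  {g : M → E →L[ℝ] E →L[ℝ] ℝ}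


theorem RM.inj_lt (h : RM g) {x : M} {p : E} {t T : ℝ} (hM : Mn g x (T • p)) (ht : 0 ≤ t)
    (htT : t < T) : t • p ∈ Inj g x := by
  have hT : 0 < T := ht.trans_lt htT
  have h1 := h.inj_of_mn hM (s := t / T) (by positivity) ((div_lt_one hT).2 htT)
  rwa [smul_smul, div_mul_cancel₀ _ hT.ne'] at h1

theorem RM.cost_ex_div (h : RM g) (x : M) (p : E) {t : ℝ} (ht : 0 < t) :
    cost x (ex g x (t • p)) / t ≤ t * g x p p / 2 := by
  have h1 := h.cost_ex x (t • p)
  simp only [map_smul, smul_apply, smul_eq_mul] at h1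
  rw [div_le_iff₀ ht]
  linarith

/-- `Φ` from `ker_second`. With `Mn ((1 + σ) • w)`, `m = ex g x ((1 - τ) • w)`, `U = vl g x w (1 - τ)`:
`gap` from `m` with times `τ < τ + σ`, `cost_tri`, `cost_ex` give `Φ s ≥ Φ 0 + δ dist (m, m s)²`;
`small_of_min`, `dM_eq_zero`, `dM_comp`. -/
theorem RM.ker_step (h : RM g) {x : M} {w κ : E} (hw : w ∈ Inj g x) (hκ : dM E (ex g x) w κ = 0)
    {τ : ℝ} (h0 : 0 < τ) (h1 : τ < 1) (hs : SmF E cost (ex g x ((1 - τ) • w)) (ex g x w)) :
    dM E (ex g x) ((1 - τ) • w) κ = 0 := by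
  obtain ⟨a, ha, hM⟩ := mem_inj_iff.1 hw
  have h1' := sub_pos.2 h1
  have hφ : ContDiffAt ℝ ∞ (fun s : ℝ => (1 - τ) • (w + s • κ)) 0 := by fun_prop
  have hX := h.smP_ex x hφ
  have hen := h.energy x w (1 - τ)
  obtain ⟨δ, hδ, hg⟩ := h.gap (g x w w) (τ + (a - 1)) (η := min τ (a - 1)) (lt_min h0 (sub_pos.2 ha))
  have hlow : ∀ s : ℝ, g x w w / 2 + δ * dist (ex g x ((1 - τ) • w))
      (ex g x ((1 - τ) • (w + s • κ))) ^ 2 ≤ (1 - τ) * g x (w + s • κ) (w + s • κ) / 2 +
      cost (ex g x ((1 - τ) • (w + s • κ))) (ex g x w) / τ := fun s => by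
    have h2 := hg _ _ (ex g x ((1 - τ) • (w + s • κ))) τ (τ + (a - 1)) hen.le (min_le_left _ _)
      (by linarith [min_le_right τ (a - 1)]) le_rfl
    have h3 := cost_tri h1' (show 0 < τ + (a - 1) by linarith) x
      (ex g x ((1 - τ) • (w + s • κ))) (ex g x (a • w))
    have e1 : 1 - τ + (τ + (a - 1)) = a := by ring
    rw [h.ex_flow, h.ex_flow, e1, sub_add_cancel, one_smul, hen] at h2
    rw [e1, h.cost_of_mn hM] at h3
    have h4 := h.cost_ex_div x (w + s • κ) h1'
    have h5 : g x (a • w) (a • w) / 2 / a = a * g x w w / 2 := by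
      simp only [map_smul, smul_apply, smul_eq_mul]
      field_simp
    linarith
  have hz : (1 - τ) * g x (w + (0 : ℝ) • κ) (w + (0 : ℝ) • κ) / 2 +
      cost (ex g x ((1 - τ) • (w + (0 : ℝ) • κ))) (ex g x w) / τ ≤ g x w w / 2 := by
    have h2 := h.cost_ex_ex x w (1 - τ) 1
    rw [one_smul] at h2
    rw [zero_smul, add_zero]
    have h3 : cost (ex g x ((1 - τ) • w)) (ex g x w) / τ ≤ τ * g x w w / 2 := by
      rw [div_le_iff₀ h0]
      linarith
    linarith
  have hcd : ContDiffAt ℝ 2 (fun s : ℝ => (1 - τ) * g x (w + s • κ) (w + s • κ) / 2 +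
      cost (ex g x ((1 - τ) • (w + s • κ))) (ex g x w) / τ) 0 := by
    have h2 := (SmF.comp (Y := fun _ => ex g x w) (by simpa only [zero_smul, add_zero] using hs) hX
      (smP_const _ _)).of_le (m := 2) (by norm_cast)
    exact ContDiffAt.add (by fun_prop) (h2.div_const τ)
  have h2 := h.dM_eq_zero hX fun ε hε => by
    filter_upwards [small_of_min hcd (Eventually.of_forall fun s => hz.trans
      (le_trans (le_add_of_nonneg_right (by positivity)) (hlow s)))
      (h.ker_second (h.mn_of_inj hw) hκ h0 h1 hs) (ε := δ * ε ^ 2) (by positivity)] with s hs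
    have h3 := hlow s
    have h4 := hlow 0
    have h5 : 0 ≤ δ * dist (ex g x ((1 - τ) • w)) (ex g x ((1 - τ) • (w + (0 : ℝ) • κ))) ^ 2 := by
      positivity
    rw [zero_smul, add_zero]
    refine le_of_sq_le_sq ?_ (by positivity)
    rw [mul_pow, sq_abs]
    refine le_of_mul_le_mul_left ?_ hδ
    linarith
  have h3 : fderiv ℝ (fun s : ℝ => (1 - τ) • (w + s • κ)) 0 1 = (1 - τ) • κ := by
    have h4 := (((hasDerivAt_id (0 : ℝ)).smul_const κ).const_add w).const_smul (1 - τ)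
    rw [one_smul] at h4
    exact h4.deriv
  rw [dM_comp (X := ex g x) (h.smP_ex x contDiffAt_id) (hφ.differentiableAt (by simp)), h3,
    zero_smul, add_zero, map_smul, smul_eq_zero] at h2
  exact h2.resolve_left h1'.ne'

/-- Iterate `ker_step` along `t • v` with steps of length below the radius of `normal`, until `nc_open` at
`0` applies. -/
theorem RM.nc_of_inj (h : RM g) {x : M} {v : E} (hv : v ∈ Inj g x) : NC g x v := by
  intro κ hκ
  obtain ⟨a, ha, hM⟩ := mem_inj_iff.1 hv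
  obtain ⟨r, hr, hn, -⟩ := h.normal
  have hv0 := nr_nonneg (g := g) x v
  obtain ⟨ρ, hρ, hρr⟩ : ∃ ρ > 0, ρ * nr g x v < r :=
    ⟨r / (nr g x v + 1), by positivity, by
      rw [div_mul_eq_mul_div, div_lt_iff₀ (by positivity)]
      linarith⟩
  have key : ∀ n : ℕ, ∀ t, 0 < t → t ≤ 1 → 1 - t ≤ n * ρ → dM E (ex g x) (t • v) κ = 0 := by
    intro n
    induction n with
    | zero =>
      intro t _ h1 h2
      obtain rfl : t = 1 := by
        rw [Nat.cast_zero, zero_mul] at h2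
        linarith
      rwa [one_smul]
    | succ n ih =>
      intro t h0 h1 h2
      rcases h1.lt_or_eq with h1 | rfl
      swap
      · rwa [one_smul]
      obtain ⟨u, h3, h4, h5, h6⟩ : ∃ u, t < u ∧ u ≤ 1 ∧ u ≤ t + ρ ∧ 1 - u ≤ n * ρ := by
        refine ⟨min 1 (t + ρ), lt_min h1 (by linarith), min_le_left _ _, min_le_right _ _, ?_⟩
        rw [sub_le_comm]
        push_cast at h2
        exact le_min (sub_le_self _ (by positivity)) (by linarith)
      have hu : 0 < u := h0.trans h3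
      have e1 : (1 - (1 - t / u)) • u • v = t • v := by
        rw [sub_sub_cancel, smul_smul, div_mul_cancel₀ _ hu.ne']
      rw [← e1]
      refine h.ker_step (h.inj_lt hM hu.le (h4.trans_lt ha)) (ih u hu h4 h6)
        (sub_pos.2 ((div_lt_one hu).2 h3)) (sub_lt_self _ (div_pos h0 hu)) (hn _ _ ?_).1
      rw [e1]
      refine (h.dist_ex_ex x v t u).trans_lt (lt_of_le_of_lt ?_ hρr)
      rw [abs_sub_comm, abs_of_pos (sub_pos.2 h3)]
      gcongr
      linarith
  have h1 : CtV (fun _ : ℝ => x) (fun t => t • v) 0 := ctV_const x (by fun_prop)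
  have h2 : ∀ᶠ t in 𝓝 (0 : ℝ), NC g x (t • v) :=
    h1.eventually (by simpa only [zero_smul] using h.nc_open (h.nc_zero x))
  have h3 : ∀ᶠ t in 𝓝[>] (0 : ℝ), t ∈ Ioo (0 : ℝ) 1 := Ioo_mem_nhdsGT one_pos
  obtain ⟨t, ht, h4⟩ := (h3.and (nhdsWithin_le_nhds h2)).exists
  obtain ⟨n, hn⟩ := exists_nat_ge ((1 - t) / ρ)
  exact h4 κ (key n t ht.1 ht.2.le ((div_le_iff₀ hρ).1 hn))

end Vale.Agent.P234
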