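import Vale.Agent.P234.LocInv

/-! Normal neighbourhoods. -/

open scoped Manifold ContDiff Topology
open Set Filter

set_option linter.unusedSectionVars false

namespace Vale.Agent.P234

open Vale.Agent.P255

variable {E : Type} [NormedAddCommGroup E] [NormedSpace ℝ E] [FiniteDimensional ℝ E]
  {M : Type} [MetricSpace M] [CompactSpace M] [ChartedSpace E M] [IsManifold 𝓘(ℝ, E) ∞ M]
  {g : M → E →L[ℝ] E →L[ℝ] ℝ}


namespace NormalAux

theorem grad (h : RM g) {e : OpenPartialHomeomorph M E} (he : e ∈ atlas E M) {x z : M}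
    (hz : z ∈ e.source) {ℓ : E → E} (hℓ : ContDiffAt ℝ ∞ ℓ (e z))
    (hr : ∀ᶠ b in 𝓝 (e z), ex g x (ℓ b) = e.symm b) {ε : ℝ} (hε : 0 < ε) :
    ContDiffAt ℝ 1 (fun b => √(ε ^ 2 + g x (ℓ b) (ℓ b))) (e z) ∧ ∀ w,
      fderiv ℝ (fun b => √(ε ^ 2 + g x (ℓ b) (ℓ b))) (e z) w ≤ √(gc g e (e z) w w) := by
  have h0 : 0 < ε ^ 2 + g x (ℓ (e z)) (ℓ (e z)) := by
    have := h.nonneg x (ℓ (e z))
    positivity
  have h1 : ContDiffAt ℝ 1 ℓ (e z) := hℓ.of_le (by norm_num)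
  refine ⟨(contDiffAt_const.add ((contDiffAt_const.clm_apply h1).clm_apply h1)).sqrt h0.ne',
    fun w => ?_⟩
  have hd := (h1.differentiableAt one_ne_zero).hasFDerivAt
  have h2 := ((((g x).hasFDerivAt.comp (e z) hd).clm_apply hd).const_add (ε ^ 2)).sqrt h0.ne'
  have hz' : ex g x (ℓ (e z)) = z := hr.self_of_nhds.trans (e.left_inv hz)
  have h3 : SmP E (fun b => ex g x (ℓ b)) (e z) := h.smP_ex x hℓ
  have h4 := h3.dC_dM he (by rw [hz']; exact hz) w
  have h5 : (fun b => e (ex g x (ℓ b))) =ᶠ[𝓝 (e z)] id := by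
    filter_upwards [hr, e.open_target.mem_nhds (e.map_source hz)] with b hb hb'
    rw [hb, e.right_inv hb', id]
  rw [h5.fderiv_eq, fderiv_id, dM_comp (X := ex g x) (h.smP_ex x contDiffAt_id)
    hd.differentiableAt, hz', ContinuousLinearMap.id_apply] at h4
  have h6 := h.gauss x (ℓ (e z)) (fderiv ℝ ℓ (e z) w)
  have h7 := (le_abs_self _).trans (h.cs (ex g x (ℓ (e z))) (vl g x (ℓ (e z)) 1)
    (dM E (ex g x) (ℓ (e z)) (fderiv ℝ ℓ (e z) w)))
  rw [h6, h.nr_vl1, hz', nr.eq_1 g z, ← gc_dC g he hz, h4] at h7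
  have h8 : nr g x (ℓ (e z)) ≤ √(ε ^ 2 + g x (ℓ (e z)) (ℓ (e z))) :=
    Real.sqrt_le_sqrt (le_add_of_nonneg_left (sq_nonneg _))
  have h9 := Real.sqrt_pos.2 h0
  refine (congrArg (fun T : E →L[ℝ] ℝ => T w) h2.fderiv).trans_le ?_
  simp only [smul_apply, add_apply,
    ContinuousLinearMap.comp_apply, ContinuousLinearMap.flip_apply, Function.comp, smul_eq_mul]
  rw [h.symm x (fderiv ℝ ℓ (e z) w), one_div, inv_mul_le_iff₀ (by positivity)]
  nlinarith [mul_le_mul_of_nonneg_right h8 (Real.sqrt_nonneg (gc g e (e z) w w))]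

theorem loc (h : RM g) (x₀ : M) : ∃ r > 0, ∀ᶠ x in 𝓝 x₀,
    (∀ y : M, dist x y < r → SmF E cost x y ∧ ∃ v, Mn g x v ∧ ex g x v = y) ∧
    ∀ v, nr g x v < r → Mn g x v := by
  obtain ⟨Lg, hL⟩ := h.exists_locInv (h.nc_zero x₀)
  have he := chart_mem_atlas E x₀
  obtain ⟨e, hee⟩ : ∃ e, e = chartAt E x₀ := ⟨_, rfl⟩
  have h1 := hL.right.and (hL.smooth.and (hL.smF h))
  rw [h.ex_zero] at h1
  have h2 : ∀ᶠ p in 𝓝 (x₀, x₀), p.2 ∈ e.source :=
    continuous_snd.continuousAt.preimage_mem_nhds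
      (e.open_source.mem_nhds (hee ▸ mem_chart_source E x₀))
  rw [← hee] at he
  obtain ⟨ρ, hρ, h3⟩ := Metric.eventually_nhds_iff.1 (h1.and h2)
  obtain ⟨r₀, hr₀, h4⟩ := h.eventually_small (P := fun y v => Lg y (ex g y v) = v) hL.left
  obtain ⟨r, hr, hr1, hr2⟩ : ∃ r > 0, 2 * r ≤ ρ ∧ r ≤ r₀ :=
    ⟨min (ρ / 2) r₀, by positivity, by linarith [min_le_left (ρ / 2) r₀], min_le_right _ _⟩
  have h5 : ∀ x y : M, dist x x₀ < r → dist x y < r → dist (x, y) (x₀, x₀) < ρ := fun x y a b => by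
    have := dist_triangle_left y x₀ x
    exact max_lt (by linarith) (by linarith)
  have h6 : ∀ x y : M, dist x x₀ < r → dist x y < r → Mn g x (Lg x y) := fun x y hx hy => by
    have a1 := (h3 (h5 x y hx hy)).1.1
    have a2 := h4 x 0 (hx.trans_le hr2) (by rw [nr_zero]; exact hr₀)
    rw [h.ex_zero] at a2
    refine le_antisymm (h.dist_ex x _) (le_of_forall_pos_le_add fun ε hε => ?_)
    have a3 := h.cal e he (fun b => √(ε ^ 2 + g x (Lg x (e.symm b)) (Lg x (e.symm b)))) x y r hy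
      fun z hz => by
        have b1 := h3 (h5 x z hx (Metric.mem_ball'.1 hz))
        have b2 : z ∈ e.source := b1.2
        refine ⟨b2, grad h he b2 (b1.1.2.1 E _ _ _ (smP_const x _)
          (smP_symm he contDiffAt_id (e.map_source b2)) rfl (e.left_inv b2)).of_const ?_ hε⟩
        have b3 : ∀ᶠ b in 𝓝 (e z), e.symm b ∈ Metric.ball x r :=
          (e.continuousAt_symm (e.map_source b2)).preimage_mem_nhds
            (Metric.isOpen_ball.mem_nhds (by rw [e.left_inv b2]; exact hz))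
        exact b3.mono fun b hb => (h3 (h5 x _ hx (Metric.mem_ball'.1 hb))).1.1
    have a4 : x ∈ e.source := (h3 (h5 x x hx (by rw [dist_self]; exact hr))).2
    have a5 : y ∈ e.source := (h3 (h5 x y hx hy)).2
    simp only [e.left_inv a4, e.left_inv a5, a2, map_zero, add_zero, Real.sqrt_sq hε.le] at a3
    have a6 : nr g x (Lg x y) ≤ √(ε ^ 2 + g x (Lg x y) (Lg x y)) :=
      Real.sqrt_le_sqrt (le_add_of_nonneg_left (sq_nonneg _))
    rw [show ex g x (Lg x y) = y from a1]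
    linarith
  refine ⟨r, hr, ?_⟩
  filter_upwards [Metric.ball_mem_nhds x₀ hr] with x hx
  refine ⟨fun y hy => ⟨(h3 (h5 x y hx hy)).1.2.2.congr ?_, _, h6 x y hx hy,
    (h3 (h5 x y hx hy)).1.1⟩, fun v hv => ?_⟩
  · have a1 : ∀ᶠ p in 𝓝 (x, y), dist p.1 x₀ < r :=
      (by fun_prop : Continuous fun p : M × M => dist p.1 x₀).continuousAt.eventually_lt
        continuousAt_const hx
    have a2 : ∀ᶠ p in 𝓝 (x, y), dist p.1 p.2 < r :=
      continuous_dist.continuousAt.eventually_lt continuousAt_const hy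
    filter_upwards [a1, a2] with p b1 b2
    have b3 := h.cost_of_mn (h6 _ _ b1 b2)
    rwa [show ex g p.1 (Lg p.1 p.2) = p.2 from (h3 (h5 _ _ b1 b2)).1.1] at b3
  · have a1 := h6 x (ex g x v) hx ((h.dist_ex x v).trans_lt hv)
    rwa [h4 x v (lt_of_lt_of_le hx hr2) (hv.trans_le hr2)] at a1

end NormalAux

theorem RM.normal (h : RM g) : ∃ r > 0,
    (∀ x y : M, dist x y < r → SmF E cost x y ∧ ∃ v, Mn g x v ∧ ex g x v = y) ∧
    ∀ x v, nr g x v < r → Mn g x v := by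
  obtain ⟨r, hr, h1⟩ := radius_of_compact (isCompact_univ (X := M)) (P := fun x r =>
    (∀ y : M, dist x y < r → SmF E cost x y ∧ ∃ v, Mn g x v ∧ ex g x v = y) ∧
      ∀ v, nr g x v < r → Mn g x v)
    (fun x r r' _ hr h1 => ⟨fun y hy => h1.1 y (hy.trans_le hr), fun v hv => h1.2 v (hv.trans_le hr)⟩)
    fun x _ => NormalAux.loc h x
  exact ⟨r, hr, fun x => (h1 x (mem_univ x)).1, fun x => (h1 x (mem_univ x)).2⟩

end Vale.Agent.P234
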