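import Vale.Agent.P234.FocalB
import Vale.Agent.P234.JetB

/-! Continuity method. -/

open scoped Manifold ContDiff Topology
open Set Filter

set_option linter.unusedSectionVars false

namespace Vale.Agent.P234

open Vale.Agent.P255

variable {E : Type} [NormedAddCommGroup E] [NormedSpace ℝ E] [FiniteDimensional ℝ E]
  {M : Type} [MetricSpace M] [CompactSpace M] [ChartedSpace E M] [IsManifold 𝓘(ℝ, E) ∞ M]
  {g : M → E →L[ℝ] E →L[ℝ] ℝ}


theorem RM.mn_closed (h : RM g) {x : M} {p : E} {T : ℝ} (hT : 0 < T)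
    (hm : ∀ t, 0 < t → t < T → Mn g x (t • p)) : Mn g x (T • p) := by
  have hc : IsClosed {t : ℝ | Mn g x (t • p)} := by
    simp only [Mn, nr_smul]
    exact isClosed_eq (continuous_const.dist ((h.continuous_ex x).comp (by fun_prop))) (by fun_prop)
  refine hc.closure_subset_iff.2 (fun t (ht : t ∈ Ioo 0 T) => hm t ht.1 ht.2) ?_
  rw [closure_Ioo hT.ne]
  exact ⟨hT.le, le_rfl⟩

theorem RM.nc_all (h : RM g) (hm : WeakMTW g) {a : Fin 2 → ℝ} {y : Fin 2 → M} {C₀ T : ℝ}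
    (hC₀ : ∀ x, ∀ p ∈ convexHull ℝ (Pa g a y x), Sub g (psi a y) C₀ x p) (hT : 0 < T) (hT1 : T < 1)
    (hc : ∀ t, 0 < t → t < T → Cal g (psi a y) C₀ t) {x : M} {p : E} (hp : Sub g (psi a y) C₀ x p)
    {t : ℝ} (ht : 0 ≤ t) (htT : t ≤ T) : NC g x (t • p) := by
  have hM : ∀ q, Sub g (psi a y) C₀ x q → Mn g x (T • q) := fun q hq =>
    h.mn_closed hT fun s hs hsT => h.mn_of_cal hs (hc s hs hsT) hq
  rcases htT.lt_or_eq with hlt | rfl
  · exact h.nc_of_inj (h.inj_lt (hM p hp) ht hlt)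
  · have hS : Convex ℝ ((LinearMap.lsmul ℝ E t) '' convexHull ℝ (Pa g a y x)) :=
      (convex_convexHull ℝ _).linear_image _
    have h1 := h.convex_nc hm hS (by
      rintro _ ⟨q, hq, rfl⟩
      exact hM q (hC₀ x q hq))
    refine (convexHull_min (s := Pa g a y x) (fun q hq => ?_)
      (h1.linear_preimage (LinearMap.lsmul ℝ E t)) (h.hull_of_sub hp)).2
    exact ⟨⟨q, subset_convexHull ℝ _ hq, rfl⟩, h.nc_of_inj (h.inj_of_mn hq.1 ht hT1)⟩

theorem RM.step (h : RM g) (hm : WeakMTW g) {a : Fin 2 → ℝ} {y : Fin 2 → M} {C₀ T : ℝ}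
    (hC₀ : ∀ x, ∀ p ∈ convexHull ℝ (Pa g a y x), Sub g (psi a y) C₀ x p) (hT : 0 < T) (hT1 : T < 1)
    (hc : ∀ t, 0 < t → t < T → Cal g (psi a y) C₀ t) : ∃ C, ∀ t, T / 2 ≤ t → t < T →
      ∀ x p, Sub g (psi a y) C₀ x p →
        Sub g (HL (psi a y) t) C (ex g x (t • p)) (vl g x p t) := by
  obtain ⟨R, hR⟩ := h.hull_bdd
  have hf := continuous_psi a y
  have hcpt : IsCompact {P : TB E M | Sub g (psi a y) C₀ (pt P) (vc P)} :=
    (h.isCompact_TB R).of_isClosed_subset (h.isClosed_sub hf C₀)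
      fun P hP => hR a y _ _ (h.hull_of_sub hP)
  obtain ⟨K, hK0, hK⟩ := unif_of_compact (hcpt.prod (isCompact_Icc (a := T / 2) (b := T)))
    (P := fun s K => s.2 • vc s.1 ∈ Inj g (pt s.1) →
      HB g cost (pt s.1) (ex g (pt s.1) (s.2 • vc s.1)) K)
    (fun s K K' hK h1 h2 => (h1 h2).mono hK) (by
      rintro ⟨P, t⟩ ⟨hP, ht⟩
      obtain ⟨K, hK⟩ := h.hess_unif (h.nc_all hm hC₀ hT hT1 hc hP
        (le_trans (by positivity) ht.1) ht.2)
      have h1 : CtV (fun s : TB E M × ℝ => pt s.1) (fun s => s.2 • vc s.1) (P, t) :=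
        ((ctV_id P).comp (φ := Prod.fst) continuousAt_fst).smul continuousAt_snd
      exact ⟨K, h1.eventually hK⟩)
  obtain ⟨δ, hδ, hgap⟩ := h.gap R 1 (η := min (T / 2) (1 - T)) (lt_min (by positivity) (by linarith))
  refine ⟨K ^ 2 / (2 * δ * (T / 2) ^ 2) + K / (2 * (T / 2)) + 1, fun t ht htT => ?_⟩
  have ht0 : 0 < t := lt_of_lt_of_le (by positivity) ht
  have key := fun x p (hp : Sub g (psi a y) C₀ x p) =>
    h.jet hm (t' := (t + T) / 2) (C := K ^ 2 / (2 * δ * (T / 2) ^ 2) + K / (2 * (T / 2)) + 1)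
      ht0 (by linarith) (by linarith) hδ hK0.le (hC₀ x)
      (hc _ (by positivity) (by linarith)) hp (fun p' hp' x' => by
        simpa only [one_smul, div_one] using hgap x p' x' t 1
          (hR a y x p' (subset_convexHull ℝ _ hp')) ((min_le_left _ _).trans ht)
          (by linarith [min_le_right (T / 2) (1 - T)]) le_rfl)
      (hK (tv x p, t) ⟨hp, ht, htT.le⟩ (h.inj_lt
        (h.mn_closed hT fun s hs hsT => h.mn_of_cal hs (hc s hs hsT) hp) ht0.le htT))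
      (by gcongr)
  intro x p hp
  refine h.sub_of_local (continuous_hl hf t) (fun z => ?_) (key x p hp)
  obtain ⟨x', hx'⟩ := hl_attained hf t z
  obtain ⟨q, hq, rfl⟩ := h.hopf_rinow x' z
  obtain ⟨C', hC'⟩ := h.sub_of_min ht0 hq fun w => hx' ▸ hl_le hf t w _
  have h1 := key x' _ (hC₀ x' _ (h.hull_of_sub hC'))
  rw [smul_inv_smul₀ ht0.ne'] at h1
  exact ⟨_, h1⟩

theorem RM.cal_add (h : RM g) {f : M → ℝ} (hf : Continuous f) {C₀ t s : ℝ} (ht : 0 < t)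
    (hs : 0 < s) (hc : Cal g f C₀ t) (hst : ∀ x p, Sub g f C₀ x p → ∀ z',
      HL f t (ex g x (t • p)) + s * g x p p / 2 ≤ HL f t z' + cost z' (ex g x ((t + s) • p)) / s) :
    Cal g f C₀ (t + s) := by
  intro x p hp x'
  obtain ⟨x₁, h1⟩ := hl_attained hf t (ex g x (t • p))
  have h2 := hc x p hp x₁
  obtain ⟨q, hq, hq'⟩ := h.hopf_rinow x' (ex g x ((t + s) • p))
  have h3 := hst x p hp (ex g x' ((t / (t + s)) • q))
  have h4 := hl_le hf t x' (ex g x' ((t / (t + s)) • q))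
  have h5 := h.cost_ex_ex x' q 0 (t / (t + s))
  have h6 := h.cost_ex_ex x' q (t / (t + s)) 1
  rw [zero_smul, h.ex_zero] at h5
  rw [one_smul, hq'] at h6
  have h7 := h.cost_of_mn hq
  rw [hq'] at h7
  have h8 := div_le_div_of_nonneg_right h5 ht.le
  have h9 := div_le_div_of_nonneg_right h6 hs.le
  have h10 : (0 - t / (t + s)) ^ 2 * g x' q q / 2 / t + (t / (t + s) - 1) ^ 2 * g x' q q / 2 / s =
      g x' q q / 2 / (t + s) := by
    field_simp
    ring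
  rw [h7]
  linarith

theorem RM.cal_all (h : RM g) (hm : WeakMTW g) {a : Fin 2 → ℝ} {y : Fin 2 → M} {C₀ : ℝ}
    (hC₀ : ∀ x, ∀ p ∈ convexHull ℝ (Pa g a y x), Sub g (psi a y) C₀ x p) {t : ℝ} (ht : 0 < t)
    (ht1 : t < 1) : Cal g (psi a y) C₀ t := by
  obtain ⟨R, hR⟩ := h.hull_bdd
  have hf := continuous_psi a y
  have hcl : IsClosed {T : ℝ | ∀ t, 0 < t → t < T → Cal g (psi a y) C₀ t} := by
    have h1 : {T : ℝ | ∀ t, 0 < t → t < T → Cal g (psi a y) C₀ t} =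
        ⋂ t ∈ {t | 0 < t ∧ ¬ Cal g (psi a y) C₀ t}, Iic t := by
      ext T
      simp only [mem_ofPred_eq, mem_iInter, mem_Iic]
      exact ⟨fun h1 t ht => not_lt.1 fun h2 => ht.2 (h1 t ht.1 h2),
        fun h1 t ht h2 => by_contra fun h3 => (h1 t ⟨ht, h3⟩).not_gt h2⟩
    rw [h1]
    exact isClosed_biInter fun _ _ => isClosed_Iic
  refine (hcl.inter isClosed_Icc).mem_of_ge_of_forall_exists_gt
    (fun t h1 h2 => absurd h1 h2.not_gt) zero_le_one ?_ t ht ht1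
  rintro T ⟨hc, hT0, hT1⟩
  rcases hT0.lt_or_eq with hT | rfl
  · obtain ⟨C, hC⟩ := h.step hm hC₀ hT hT1 hc
    obtain ⟨s₀, hs₀, hs⟩ := h.short_time R C
    obtain ⟨t, h1, h2, h3⟩ : ∃ t, T / 2 ≤ t ∧ t < T ∧ T < t + s₀ :=
      ⟨max (T / 2) (T - s₀ / 2), le_max_left _ _, max_lt (by linarith) (by linarith),
        by linarith [le_max_right (T / 2) (T - s₀ / 2)]⟩
    have ht0 : 0 < t := lt_of_lt_of_le (by positivity) h1
    refine ⟨min (t + s₀) 1, fun r hr hr' => h.cal_mono hr (hr'.le.trans (min_le_left _ _)) ?_,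
      lt_min h3 hT1, min_le_right _ _⟩
    refine h.cal_add hf ht0 hs₀ (hc t ht0 h2) fun x p hp z' => ?_
    have h4 := hs _ _ _ s₀ ((h.energy x p t).trans_le (hR a y x p (h.hull_of_sub hp))) hs₀ le_rfl
      (hC t h1 h2 x p hp) z'
    rwa [h.energy, h.ex_flow] at h4
  · obtain ⟨s₀, hs₀, hs⟩ := h.short_time R C₀
    exact ⟨min s₀ 1, fun r hr hr' x p hp => hs _ x p r (hR a y x p (h.hull_of_sub hp)) hr
      (hr'.le.trans (min_le_left _ _)) hp, lt_min hs₀ one_pos, min_le_right _ _⟩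

theorem RM.convex_inj (h : RM g) (hm : WeakMTW g) (x : M) : Convex ℝ (Inj g x) := by
  intro u hu v hv α β hα hβ hαβ
  obtain ⟨a, ha, h1⟩ := mem_inj_iff.1 hu
  obtain ⟨b, hb, h2⟩ := mem_inj_iff.1 hv
  obtain ⟨c, hc, hca, hcb⟩ : ∃ c, 1 < c ∧ c < a ∧ c < b := by
    obtain ⟨c, h3, h4⟩ := exists_between (lt_min ha hb)
    exact ⟨c, h3, h4.trans_le (min_le_left _ _), h4.trans_le (min_le_right _ _)⟩
  have hc0 : 0 < c := one_pos.trans hc
  have h3 := h.mn_of_inj (h.inj_lt h1 hc0.le hca)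
  have h4 := h.mn_of_inj (h.inj_lt h2 hc0.le hcb)
  obtain ⟨C₀, hC₀⟩ := h.sub_of_hull
  obtain ⟨y, hy0, hy1⟩ : ∃ y : Fin 2 → M, y 0 = ex g x (c • u) ∧ y 1 = ex g x (c • v) :=
    ⟨![ex g x (c • u), ex g x (c • v)], rfl, rfl⟩
  have h5 : ∀ i, psi (fun i => cost x (y i)) y x = cost x (y i) - cost x (y i) := by simp [psi]
  have h6 : α • c • u + β • c • v ∈ convexHull ℝ (Pa g (fun i => cost x (y i)) y x) :=
    convex_convexHull ℝ _ (subset_convexHull ℝ (Pa g _ y x) ⟨h3, 0, hy0.symm, h5 0⟩)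
      (subset_convexHull ℝ (Pa g _ y x) ⟨h4, 1, hy1.symm, h5 1⟩) hα hβ hαβ
  obtain ⟨d, hd, hdc⟩ := exists_between hc
  have hd0 : 0 < d / c := div_pos (one_pos.trans hd) hc0
  have h7 := h.mn_of_cal hd0 (h.cal_all hm (hC₀ _ y) hd0 ((div_lt_one hc0).2 hdc)) (hC₀ _ y x _ h6)
  rw [smul_comm α, smul_comm β, ← smul_add, smul_smul, div_mul_cancel₀ _ hc0.ne'] at h7
  exact mem_inj_iff.2 ⟨d, hd, h7⟩

end Vale.Agent.P234
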