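import Vale.Agent.P234.Joint

/-! Topology of the tangent bundle. -/

open scoped Manifold ContDiff Topology
open Set Filter

set_option linter.unusedSectionVars false

namespace Vale.Agent.P234

open Vale.Agent.P255

variable {E : Type} [NormedAddCommGroup E] [NormedSpace ℝ E] [FiniteDimensional ℝ E]
  {M : Type} [MetricSpace M] [CompactSpace M] [ChartedSpace E M] [IsManifold 𝓘(ℝ, E) ∞ M]
  {g : M → E →L[ℝ] E →L[ℝ] ℝ}
  {A : Type} [NormedAddCommGroup A] [NormedSpace ℝ A]
  {B : Type} [NormedAddCommGroup B] [NormedSpace ℝ B]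
  {e e' : OpenPartialHomeomorph M E}
  {T T' : Type} [TopologicalSpace T] [TopologicalSpace T']


namespace TBAux

theorem triv (x₀ : M) {x : M} (hx : x ∈ (chartAt E x₀).source) (v : E) :
    (trivializationAt E (TangentSpace 𝓘(ℝ, E)) x₀ (tv x v)).2 = dC (chartAt E x₀) x v := by
  have h := TangentBundle.continuousLinearMapAt_trivializationAt (I := 𝓘(ℝ, E)) hx
  have e1 : (extChartAt 𝓘(ℝ, E) x₀ : M → E) = chartAt E x₀ := by
    funext x; simp
  rw [e1] at h
  have h2 := Bundle.Trivialization.continuousLinearMapAt_apply_of_mem (R := ℝ)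
    (trivializationAt E (TangentSpace 𝓘(ℝ, E)) x₀) (b := x) hx v
  rw [h] at h2
  exact h2.symm

theorem change (he : e ∈ atlas E M) (he' : e' ∈ atlas E M) {X : T → M} {V : T → E} {t : T}
    (ht : X t ∈ e.source) (ht' : X t ∈ e'.source) (hX : ContinuousAt X t)
    (h : ContinuousAt (fun b => dC e (X b) (V b)) t) :
    ContinuousAt (fun b => dC e' (X b) (V b)) t := by
  have h1 : ∀ {y : M}, y ∈ e.source → y ∈ e'.source →
      e y ∈ e.target ∩ e.symm ⁻¹' e'.source := fun h1 h2 =>
    ⟨e.map_source h1, by rwa [mem_preimage, e.left_inv h1]⟩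
  have h2 : ContDiffAt ℝ ∞ (e' ∘ e.symm) (e (X t)) := (contDiffOn_trans he he').contDiffAt
    ((e.isOpen_inter_preimage_symm e'.open_source).mem_nhds (h1 ht ht'))
  have h3 : ContinuousAt (fun b => fderiv ℝ (e' ∘ e.symm) (e (X b))) t :=
    ContinuousAt.comp (f := fun b => e (X b)) (h2.continuousAt_fderiv (by simp))
      ((e.continuousAt ht).comp hX)
  refine (h3.clm_apply h).congr ?_
  filter_upwards [hX.preimage_mem_nhds (e.open_source.mem_nhds ht),
    hX.preimage_mem_nhds (e'.open_source.mem_nhds ht')] with b h4 h5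
  rw [fderiv_trans he he' (h1 h4 h5), e.left_inv h4, dS_dC he h4]

theorem ctV_chartAt {X : T → M} {V : T → E} {t : T} : CtV X V t ↔
    ContinuousAt X t ∧ ContinuousAt (fun b => dC (chartAt E (X t)) (X b) (V b)) t := by
  rw [CtV, FiberBundle.continuousAt_totalSpace]
  refine and_congr_right fun hX => continuousAt_congr ?_
  filter_upwards [ContinuousAt.preimage_mem_nhds (f := X) hX (chart_source_mem_nhds E (X t))]
    with b hb
  exact triv (X t) hb (V b)

end TBAux

/-- Use `trivializationAt E (TangentSpace 𝓘(ℝ, E)) x₀` (continuity characterization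
`FiberBundle.continuousAt_totalSpace`, `TangentBundle.continuousLinearMapAt_trivializationAt`) for
`e = chartAt E x₀`, then change charts with `fderiv_trans`, `contDiffOn_trans`. -/
theorem ctV_iff (he : e ∈ atlas E M) {X : T → M} {V : T → E} {t : T} (ht : X t ∈ e.source) :
    CtV X V t ↔ ContinuousAt X t ∧ ContinuousAt (fun b => dC e (X b) (V b)) t := by
  rw [TBAux.ctV_chartAt]
  exact and_congr_right fun hX =>
    ⟨TBAux.change (chart_mem_atlas E _) he (mem_chart_source E _) ht hX,
      TBAux.change he (chart_mem_atlas E _) ht (mem_chart_source E _) hX⟩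

theorem continuous_pt : Continuous (pt : TB E M → M) :=
  FiberBundle.continuous_proj E (TangentSpace 𝓘(ℝ, E))

theorem ctV_id (p : TB E M) : CtV pt vc p := continuousAt_id

theorem CtV.base {X : T → M} {V : T → E} {t : T} (h : CtV X V t) : ContinuousAt X t :=
  (TBAux.ctV_chartAt.1 h).1

theorem CtV.comp {X : T → M} {V : T → E} {φ : T' → T} {t : T'} (h : CtV X V (φ t))
    (hφ : ContinuousAt φ t) : CtV (fun b => X (φ b)) (fun b => V (φ b)) t :=
  ContinuousAt.comp (g := fun b => tv (X b) (V b)) h hφ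

theorem SmV.ctV {X : A → M} {V : A → E} {a : A} (h : SmV X V a) : CtV X V a :=
  TBAux.ctV_chartAt.2 ⟨h.1.continuousAt,
    (h.2 _ (chart_mem_atlas E _) (mem_chart_source E _)).continuousAt⟩

theorem ctV_const (x : M) {V : T → E} {t : T} (h : ContinuousAt V t) : CtV (fun _ => x) V t :=
  TBAux.ctV_chartAt.2 ⟨continuousAt_const, (dC _ x).continuous.continuousAt.comp h⟩

theorem ctV_zero {X : T → M} {t : T} (h : ContinuousAt X t) : CtV X (fun _ => (0 : E)) t :=
  TBAux.ctV_chartAt.2 ⟨h, by simpa only [map_zero] using continuousAt_const⟩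

theorem CtV.add {X : T → M} {V W : T → E} {t : T} (hV : CtV X V t) (hW : CtV X W t) :
    CtV X (fun b => V b + W b) t :=
  TBAux.ctV_chartAt.2 ⟨hV.base, by
    simpa only [map_add] using (TBAux.ctV_chartAt.1 hV).2.fun_add (TBAux.ctV_chartAt.1 hW).2⟩

theorem CtV.smul {X : T → M} {V : T → E} {f : T → ℝ} {t : T} (hV : CtV X V t)
    (hf : ContinuousAt f t) : CtV X (fun b => f b • V b) t :=
  TBAux.ctV_chartAt.2 ⟨hV.base, by
    simpa only [map_smul] using hf.fun_smul (TBAux.ctV_chartAt.1 hV).2⟩

theorem CtV.inner (h : RM g) {X : T → M} {V W : T → E} {t : T} (hV : CtV X V t) (hW : CtV X W t) :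
    ContinuousAt (fun b => g (X b) (V b) (W b)) t := by
  have he := chart_mem_atlas E (X t)
  have ht := mem_chart_source E (X t)
  have h1 : ContinuousAt (fun b => gc g (chartAt E (X t)) (chartAt E (X t) (X b))) t :=
    ContinuousAt.comp (f := fun b => chartAt E (X t) (X b))
      ((h.smooth _ he).continuousOn.continuousAt
        ((chartAt E (X t)).open_target.mem_nhds ((chartAt E (X t)).map_source ht)))
      (((chartAt E (X t)).continuousAt ht).comp hV.base)
  refine ((h1.clm_apply ((ctV_iff he ht).1 hV).2).clm_apply ((ctV_iff he ht).1 hW).2).congr ?_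
  filter_upwards [hV.base.preimage_mem_nhds (chart_source_mem_nhds E (X t))] with b hb
  exact gc_dC g he hb _ _

theorem ctV_dS (he : e ∈ atlas E M) {X : T → M} {W : T → E} {t : T} (hX : ContinuousAt X t)
    (ht : X t ∈ e.source) (hW : ContinuousAt W t) : CtV X (fun b => dS e (e (X b)) (W b)) t := by
  refine (ctV_iff he ht).2 ⟨hX, hW.congr ?_⟩
  filter_upwards [hX.preimage_mem_nhds (e.open_source.mem_nhds ht)] with b hb
  have h1 := dC_dS he (e.map_source hb) (W b)
  rw [e.left_inv hb] at h1
  exact h1.symm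

/-- Compose the smooth family `smV_symm` on `(E × E) × ℝ` with the chart coordinates. -/
theorem CtV.flow (h : RM g) {X : T → M} {V : T → E} {τ : T → ℝ} {t : T} (hV : CtV X V t)
    (hτ : ContinuousAt τ t) :
    CtV (fun b => geo g (X b) (V b) (τ b)) (fun b => vl g (X b) (V b) (τ b)) t := by
  obtain ⟨e, he, ht⟩ : ∃ e ∈ atlas E M, X t ∈ e.source :=
    ⟨_, chart_mem_atlas E (X t), mem_chart_source E (X t)⟩
  have h1 := ((smV_symm (A := (E × E) × ℝ) (a := ((e (X t), dC e (X t) (V t)), τ t)) he
    (β := fun p => p.1.1) (W := fun p => p.1.2) (by fun_prop) (e.map_source ht)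
      (by fun_prop)).flow h (T := fun p => p.2) (by fun_prop)).ctV
  have h2 := CtV.comp (φ := fun b => ((e (X b), dC e (X b) (V b)), τ b)) h1
    ((((e.continuousAt ht).comp hV.base).prodMk ((ctV_iff he ht).1 hV).2).prodMk hτ)
  refine ContinuousAt.congr h2 ?_
  filter_upwards [hV.base.preimage_mem_nhds (e.open_source.mem_nhds ht)] with b hb
  simp only [e.left_inv hb, dS_dC he hb]

theorem CtV.ex (h : RM g) {X : T → M} {V : T → E} {t : T} (hV : CtV X V t) :
    ContinuousAt (fun b => ex g (X b) (V b)) t := (hV.flow h continuousAt_const).base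

theorem eventually_of_chart (he : e ∈ atlas E M) {x : M} (hx : x ∈ e.source) {v : E}
    {P : M → E → Prop} (hP : ∀ᶠ z in 𝓝 (e x, dC e x v), P (e.symm z.1) (dS e z.1 z.2)) :
    ∀ᶠ p in 𝓝 (tv x v), P (pt p) (vc p) := by
  have h1 : ContinuousAt (fun p : TB E M => (e (pt p), dC e (pt p) (vc p))) (tv x v) :=
    ((e.continuousAt hx).comp_of_eq continuous_pt.continuousAt rfl).prodMk
      ((ctV_iff he (t := tv x v) hx).1 (ctV_id _)).2
  filter_upwards [h1.eventually hP, continuous_pt.continuousAt.preimage_mem_nhds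
    (e.open_source.mem_nhds (show pt (tv x v) ∈ e.source from hx))] with p h2 h3
  rwa [e.left_inv h3, dS_dC he h3] at h2

theorem eventually_chart (he : e ∈ atlas E M) {x : M} (hx : x ∈ e.source) {v : E}
    {P : M → E → Prop} (hP : ∀ᶠ p in 𝓝 (tv x v), P (pt p) (vc p)) :
    ∀ᶠ z in 𝓝 (e x, dC e x v), P (e.symm z.1) (dS e z.1 z.2) := by
  have h1 := (smV_symm (A := E × E) (a := (e x, dC e x v)) he (β := fun p => p.1)
    (W := fun p => p.2) contDiffAt_fst (e.map_source hx) contDiffAt_snd).ctV
  rw [CtV, ContinuousAt] at h1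
  simp only [e.left_inv hx, dS_dC he hx] at h1
  exact h1.eventually hP

end Vale.Agent.P234
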